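import Mathlib.Algebra.FreeAlgebra
import Mathlib.Algebra.Polynomial.AlgebraMap
import Mathlib.Algebra.Polynomial.BigOperators
import Mathlib.Analysis.Normed.Ring.Ultra
import Mathlib.Analysis.Normed.Field.Lemmas
import Mathlib.Analysis.SpecificLimits.Basic
import Mathlib.Data.ZMod.Basic
import Mathlib.NumberTheory.Padics.PadicVal.Basic
import Mathlib.Tactic.LinearCombination
import Mathlib.RingTheory.Polynomial.Tower
import Mathlib.RingTheory.PrincipalIdealDomain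
import Mathlib.Algebra.EuclideanDomain.Int
import Mathlib.RingTheory.Int.Basic
import Mathlib.RingTheory.UniqueFactorizationDomain.Multiplicity

/-!
# P004M, row a6, the algebra: points of a limit of rings, square roots of the weight character
-/

set_option autoImplicit false

open Polynomial

noncomputable section

namespace Vale.Agent.P004M.A6

variable {L : Type*} [NormedField L] [IsUltrametricDist L] {E : ℕ → Type*} [∀ m, Ring (E m)]
  {A : Type*} [Ring A]

/-- the point `lam` lies in the closure of the quotients `π m` -/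
def Ct (π : ∀ m, A →+* E m) (lam : A →+* L) : Prop :=
  ∀ ε : ℝ, 0 < ε → ∃ k, ∀ a, (∀ m < k, π m a = 0) → ‖lam a‖ < ε

theorem nadd {x y : L} {r : ℝ} (hx : ‖x‖ < r) (hy : ‖y‖ < r) : ‖x + y‖ < r :=
  (IsUltrametricDist.norm_add_le_max x y).trans_lt (max_lt hx hy)

theorem norm_odd (h2 : ‖(2 : L)‖ < 1) {o : ℤ} (ho : Odd o) : ‖(o : L)‖ = 1 := by
  obtain ⟨t, rfl⟩ := ho
  have h : ‖((2 * t : ℤ) : L)‖ < 1 := by
    push_cast
    rw [norm_mul]
    exact mul_lt_one_of_nonneg_of_lt_one_left (norm_nonneg _) h2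
      (IsUltrametricDist.norm_intCast_le_one L t)
  rw [Int.cast_add, Int.cast_one,
    IsUltrametricDist.norm_add_eq_max_of_norm_ne_norm (by rw [norm_one]; exact h.ne), norm_one,
    max_eq_right h.le]

/-- the image with odd denominators -/
def Bo {R : Type*} [Ring R] (π : A →+* R) : Subring R where
  carrier := {x | ∃ o : ℤ, Odd o ∧ ∃ a, o • x = π a}
  zero_mem' := ⟨1, odd_one, 0, by simp⟩
  one_mem' := ⟨1, odd_one, 1, by simp⟩
  neg_mem' := fun ⟨o, h, a, e⟩ => ⟨o, h, -a, by simp [e]⟩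
  add_mem' := fun ⟨o, h, a, e⟩ ⟨o', h', a', e'⟩ => ⟨o * o', h.mul h', o' • a + o • a', by
    rw [map_add, map_zsmul, map_zsmul, ← e, ← e', smul_add, smul_smul, smul_smul, mul_comm o' o]⟩
  mul_mem' := fun ⟨o, h, a, e⟩ ⟨o', h', a', e'⟩ => ⟨o * o', h.mul h', a * a', by
    rw [map_mul, ← e, ← e', smul_mul_smul_comm]⟩

theorem mem_Bo {R : Type*} [Ring R] (π : A →+* R) (a : A) : π a ∈ Bo π :=
  ⟨1, odd_one, a, one_smul _ _⟩

/-- the unit ball -/
def Ub (L : Type*) [NormedField L] [IsUltrametricDist L] : Subring L where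
  carrier := {x | ‖x‖ ≤ 1}
  zero_mem' := by simp
  one_mem' := by simp
  neg_mem' h := by simpa using h
  add_mem' {x y} hx hy := (IsUltrametricDist.norm_add_le_max x y).trans (max_le hx hy)
  mul_mem' {x y} hx hy := by
    rw [Set.mem_ofPred_eq, norm_mul]
    exact mul_le_one₀ hx (norm_nonneg _) hy

theorem lift_cg {R ι : Type*} [Ring R] (B : Subring R) (q : ℤ) {x y : ι → R} (hx : ∀ l, x l ∈ B)
    (hy : ∀ l, ∃ z ∈ B, y l = x l + q • z) (P : FreeAlgebra ℤ ι) :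
    FreeAlgebra.lift ℤ x P ∈ B ∧
      ∃ z ∈ B, FreeAlgebra.lift ℤ y P = FreeAlgebra.lift ℤ x P + q • z := by
  induction P using FreeAlgebra.induction with
  | grade0 r => exact ⟨by simp, 0, B.zero_mem, by simp⟩
  | grade1 l =>
    simp only [FreeAlgebra.lift_ι_apply]
    exact ⟨hx l, hy l⟩
  | add a b ha hb =>
    obtain ⟨a1, z, a2, a3⟩ := ha
    obtain ⟨b1, z', b2, b3⟩ := hb
    refine ⟨by rw [map_add]; exact add_mem a1 b1, z + z', add_mem a2 b2, ?_⟩
    rw [map_add, map_add, a3, b3, smul_add]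
    abel
  | mul a b ha hb =>
    obtain ⟨a1, z, a2, a3⟩ := ha
    obtain ⟨b1, z', b2, b3⟩ := hb
    refine ⟨by rw [map_mul]; exact mul_mem a1 b1, _, add_mem (add_mem (mul_mem a1 b2)
      (mul_mem a2 b1)) (zsmul_mem (mul_mem a2 b2) q), ?_⟩
    rw [map_mul, map_mul, a3, b3]
    simp only [mul_add, add_mul, smul_add, mul_smul_comm, smul_mul_assoc]
    abel

theorem map_lift {R S ι : Type*} [Ring R] [Ring S] [Algebra ℤ R] [Algebra ℤ S] (μ : R →+* S) (x : ι → R)
    (P : FreeAlgebra ℤ ι) :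
    μ (FreeAlgebra.lift ℤ x P) = FreeAlgebra.lift ℤ (fun i => μ (x i)) P := by
  induction P using FreeAlgebra.induction with
  | grade0 r => simp
  | grade1 i => simp
  | mul a b ha hb => simp [ha, hb]
  | add a b ha hb => simp [ha, hb]

/-- **robust continuity** -/
theorem Ct.rob {π : ∀ m, A →+* E m} {lam : A →+* L} (h : Ct π lam) (hb : ∀ a, ‖lam a‖ ≤ 1)
    (h2 : ‖(2 : L)‖ < 1) (y : A) {c : ℕ → ℤ} (hc : Function.Injective c)
    (hy : ∀ m, π m y = c m) (ε : ℝ) (hε : 0 < ε) : ∃ k s : ℕ, ‖(2 : L)‖ ^ s < ε ∧ ∀ a,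
      (∀ m < k, ∃ x ∈ Bo (π m), π m a = (2 : ℤ) ^ s • x) → ‖lam a‖ < ε := by
  classical
  obtain ⟨k, hk⟩ := h ε hε
  obtain ⟨j, hj⟩ := exists_pow_lt_of_lt_one hε h2
  let p : ℕ → ℤ[X] := fun m => ∏ i ∈ (Finset.range k).erase m, (X - C (c i))
  have hp : ∀ m m', π m' (aeval y (p m)) = ((p m).eval (c m') : ℤ) := fun m m' => by
    rw [show π m' (aeval y (p m)) = aeval (π m' y) (p m) from
      (aeval_algHom_apply (π m').toIntAlgHom y (p m)).symm, hy,
      show (c m' : E m') = algebraMap ℤ _ (c m') from rfl, aeval_algebraMap_apply]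
    simp
  have h0 : ∀ m, ∃ (v : ℕ) (o : ℤ), Odd o ∧ (p m).eval (c m) = 2 ^ v * o := fun m => by
    have : (p m).eval (c m) ≠ 0 := by
      rw [eval_prod]
      exact Finset.prod_ne_zero_iff.2 fun i hi => by
        simpa [sub_eq_zero] using fun e => (Finset.mem_erase.1 hi).1 (hc e).symm
    obtain ⟨v, o, h1, h3⟩ := WfDvdMonoid.max_power_factor this (Int.prime_two.irreducible)
    exact ⟨v, o, Int.not_even_iff_odd.1 fun e => h1 (even_iff_two_dvd.1 e), h3⟩
  choose v o o1 o2 using h0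
  refine ⟨k, j + ∑ m ∈ Finset.range k, v m, (pow_le_pow_of_le_one (norm_nonneg _) h2.le
    (Nat.le_add_right _ _)).trans_lt hj, fun a ha => ?_⟩
  have h1 : ∀ m, ∃ (u : ℤ) (b : A), Odd u ∧ (m < k → ∀ m' < k,
      (2 : ℤ) ^ j • π m' b = if m' = m then u • π m' a else 0) := fun m => by
    by_cases hm : m < k
    swap
    · exact ⟨1, 0, odd_one, fun e => (hm e).elim⟩
    obtain ⟨x, ⟨u, u1, b, u2⟩, hx⟩ := ha m hm
    obtain ⟨r, hr⟩ := Nat.exists_eq_add_of_le
      (Finset.single_le_sum (f := v) (fun _ _ => Nat.zero_le _) (Finset.mem_range.2 hm))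
    refine ⟨o m * u, (2 : ℤ) ^ r • (aeval y (p m) * b), (o1 m).mul u1, fun _ m' hm' => ?_⟩
    rw [map_zsmul, map_mul, hp, ← zsmul_eq_mul]
    split_ifs with e
    · subst e
      rw [o2, ← u2, hx, hr]
      simp only [smul_smul]
      congr 1
      ring
    · rw [eval_prod, Finset.prod_eq_zero (Finset.mem_erase.2 ⟨e, Finset.mem_range.2 hm'⟩) (by simp)]
      simp
  choose u b u1 u2 using h1
  have h3 := hk ((∏ m ∈ Finset.range k, u m) • a - (2 : ℤ) ^ j •
    ∑ m ∈ Finset.range k, (∏ i ∈ (Finset.range k).erase m, u i) • b m) fun m' hm' => by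
      rw [map_sub, map_zsmul, map_zsmul, map_sum, Finset.smul_sum,
        Finset.sum_eq_single_of_mem m' (Finset.mem_range.2 hm') fun m hm e => by
          rw [map_zsmul, smul_comm, u2 m (Finset.mem_range.1 hm) m' hm', if_neg e.symm, smul_zero],
        map_zsmul, smul_comm ((2 : ℤ) ^ j), u2 m' hm' m' hm', if_pos rfl, smul_smul,
        Finset.prod_erase_mul _ _ (Finset.mem_range.2 hm'), sub_self]
  rw [map_sub, map_zsmul, map_zsmul lam (2 ^ j)] at h3
  have h4 := nadd h3 (y := (2 : ℤ) ^ j • lam (∑ m ∈ Finset.range k,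
      (∏ i ∈ (Finset.range k).erase m, u i) • b m)) (by
    rw [zsmul_eq_mul, norm_mul, Int.cast_pow, norm_pow, Int.cast_ofNat]
    exact (mul_le_of_le_one_right (by positivity) (hb _)).trans_lt hj)
  rwa [sub_add_cancel, zsmul_eq_mul, norm_mul, norm_odd h2 (Finset.prod_induction _ Odd
    (fun _ _ => Odd.mul) odd_one fun i _ => u1 i), one_mul] at h4

/-- adjoining a scalar -/
def ad (π : ∀ m, A →+* E m) (w : ℕ → ℤ) (m : ℕ) : A[X] →+* E m :=
  eval₂RingHom' (π m) (w m : E m) fun _ => (Int.cast_commute _ _).symm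

@[simp] theorem ad_C (π : ∀ m, A →+* E m) (w : ℕ → ℤ) (m : ℕ) (a : A) :
    ad π w m (C a) = π m a := eval₂_C _ _

@[simp] theorem ad_X (π : ∀ m, A →+* E m) (w : ℕ → ℤ) (m : ℕ) : ad π w m X = w m := eval₂_X _ _

theorem bd_ev {lam : A →+* L} (hb : ∀ a, ‖lam a‖ ≤ 1) (u : ℤ) (P : A[X]) :
    ‖eval₂RingHom lam (u : L) P‖ ≤ 1 := by
  show _ ∈ Ub L
  induction P using Polynomial.induction_on' with
  | add a b ha hb => rw [map_add]; exact add_mem ha hb
  | monomial n a =>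
    rw [coe_eval₂RingHom, eval₂_monomial]
    exact mul_mem (hb a) (pow_mem (intCast_mem _ u) n)

/-- **the quadratic step** -/
theorem Ct.quad {π : ∀ m, A →+* E m} {lam : A →+* L} (h : Ct π lam) (h0 : (2 : L) ≠ 0)
    (h2 : ‖(2 : L)‖ < 1) (d : A) (w : ℕ → ℤ) {u : ℤ} (hu : Odd u) (hd : ∀ m, π m d = w m ^ 2)
    (hl : lam d = u ^ 2) :
    ∃ s : ℤ, (s = 1 ∨ s = -1) ∧ Ct (ad π w) (eval₂RingHom lam ((s * u : ℤ) : L)) := by
  have dec : ∀ P : A[X], ∃ a b : A, (∀ m, ad π w m P = π m a + π m b * w m) ∧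
      ∀ z : L, z ^ 2 = lam d → eval₂RingHom lam z P = lam a + lam b * z := fun P => by
    induction P using Polynomial.induction_on with
    | C a => exact ⟨a, 0, fun m => by simp, fun z _ => by simp⟩
    | add P Q hP hQ =>
      obtain ⟨a, b, e1, e2⟩ := hP
      obtain ⟨a', b', e3, e4⟩ := hQ
      refine ⟨a + a', b + b', fun m => ?_, fun z hz => ?_⟩
      · rw [map_add, e1, e3, map_add, map_add, add_mul]
        abel
      · rw [map_add, e2 z hz, e4 z hz, map_add, map_add]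
        ring
    | monomial n c hP =>
      obtain ⟨a, b, e1, e2⟩ := hP
      refine ⟨b * d, a, fun m => ?_, fun z hz => ?_⟩
      · rw [pow_succ, ← mul_assoc, map_mul, e1, ad_X, map_mul, hd, add_mul, mul_assoc, sq, add_comm]
      · rw [pow_succ, ← mul_assoc, map_mul, e2 z hz, map_mul, ← hz, coe_eval₂RingHom, eval₂_X]
        ring
  by_contra hc
  simp only [Ct, not_exists, not_and, not_forall, not_lt] at hc
  obtain ⟨ε, e1, e2⟩ := hc 1 (Or.inl rfl)
  obtain ⟨δ, d1, d2⟩ := hc (-1) (Or.inr rfl)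
  have p2 : 0 < ‖(2 : L)‖ := norm_pos_iff.2 h0
  obtain ⟨k, hk⟩ := h (‖(2 : L)‖ * ε * (‖(2 : L)‖ * δ)) (by positivity)
  obtain ⟨P, p3, p4⟩ := e2 k
  obtain ⟨Q, q3, q4⟩ := d2 k
  obtain ⟨a, b, a1, a2⟩ := dec ((X + C (u : A)) * P + (X - C (u : A)) * Q)
  have h3 := hk (a * a - b * b * d) fun m hm => by
    have := a1 m
    rw [map_add, map_mul, map_mul, p3 m hm, q3 m hm, mul_zero, mul_zero, add_zero] at this
    rw [map_sub, map_mul, map_mul, map_mul, hd, eq_neg_of_add_eq_zero_left this.symm, neg_mul_neg,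
      mul_assoc, ← mul_assoc (w m : E m), (Int.cast_commute (w m) _).eq, sq]
    simp only [mul_assoc, sub_self]
  have b1 := a2 ((1 * u : ℤ) : L) (by rw [hl]; push_cast; ring)
  have b2 := a2 ((-1 * u : ℤ) : L) (by rw [hl]; push_cast; ring)
  simp only [map_add, map_mul, map_sub, coe_eval₂RingHom, eval₂_X, map_intCast] at b1 b2
  rw [show lam (a * a - b * b * d) = (2 * u * eval₂RingHom lam ((1 * u : ℤ) : L) P) *
      -(2 * u * eval₂RingHom lam ((-1 * u : ℤ) : L) Q) by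
    rw [map_sub, map_mul, map_mul, map_mul, hl, coe_eval₂RingHom, coe_eval₂RingHom]
    push_cast at b1 b2 ⊢
    linear_combination (-(lam a - lam b * u)) * b1 - 2 * u * eval₂ lam (1 * u) P * b2,
    norm_mul, norm_neg, norm_mul, norm_mul, norm_mul, norm_mul, norm_odd h2 hu, mul_one] at h3
  exact h3.not_ge (by gcongr)

theorem five_pow {g : ℤ} (hg : g % 8 = 5) (s : ℕ) : ∃ o, Odd o ∧ g ^ 2 ^ s = 1 + 2 ^ (s + 2) * o := by
  induction s with
  | zero => exact ⟨2 * (g / 8) + 1, odd_two_mul_add_one _, by norm_num; omega⟩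
  | succ s ih =>
    obtain ⟨o, h1, h2⟩ := ih
    refine ⟨o + 2 * (2 ^ s * o ^ 2), h1.add_even (even_two_mul _), ?_⟩
    rw [pow_succ 2 s, pow_mul, h2]
    ring

theorem ex_ab {g : ℤ} (hg : g % 8 = 5) {x : ℤ} (hx : Odd x) (s : ℕ) :
    ∃ a b : ℕ, 2 ^ (s + 2) ∣ (-1) ^ a * g ^ b * x - 1 := by
  induction s with
  | zero =>
    obtain ⟨t, rfl⟩ := hx
    rcases Int.even_or_odd' t with ⟨r, rfl | rfl⟩
    · exact ⟨0, 0, r, by ring⟩
    · exact ⟨1, 0, -r - 1, by ring⟩
  | succ s ih =>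
    obtain ⟨a, b, c, h⟩ := ih
    rcases Int.even_or_odd' c with ⟨r, rfl | rfl⟩
    · exact ⟨a, b, r, by rw [h]; ring⟩
    · obtain ⟨_, ⟨o, rfl⟩, h2⟩ := five_pow hg s
      refine ⟨a, b + 2 ^ s, o + r + 1 + 2 ^ (s + 1) * (2 * o + 1) * (2 * r + 1), ?_⟩
      rw [pow_add g, h2]
      linear_combination (1 + 2 ^ (s + 2) * (2 * o + 1)) * h

theorem ex_chi {s t : ℤ} (hs : s = 1 ∨ s = -1) (ht : t = 1 ∨ t = -1) : ∃ χ : ZMod 8 →* ℤ,
    χ (-1) = s ∧ χ 5 = t ∧ ∀ x y, x * y = 1 → χ x ^ 2 = 1 := by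
  let f : ZMod 8 → ℤ := fun x =>
    if x = 1 then 1 else if x = 7 then s else if x = 5 then t else if x = 3 then s * t else 0
  refine ⟨⟨⟨f, rfl⟩, ?_⟩, rfl, rfl, ?_⟩ <;>
  rcases hs with rfl | rfl <;> rcases ht with rfl | rfl <;> decide

/-- **normalised operators**: some quadratic twist of the point lies in the closure -/
theorem Ct.nor {π : ∀ m, A →+* E m} {lam : A →+* L} (h : Ct π lam) (hb : ∀ a, ‖lam a‖ ≤ 1)
    (h0 : (2 : L) ≠ 0) (h2 : ‖(2 : L)‖ < 1) {ι : Type*} (n : ι → ℤ) (hn : ∀ l, Odd (n l))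
    (T : ι → A) (τ : ∀ m, ι → E m) (hτ : ∀ m l, n l ^ m • τ m l = π m (T l)) (D : A) {g : ℤ}
    (hg : g % 8 = 5) (hD : ∀ m, π m D = (g ^ (m + 1) : ℤ) ^ 2) (hl : lam D = g ^ 2) :
    ∃ χ : ZMod 8 →* ℤ, (∀ x : ℤ, Odd x → χ x ^ 2 = 1) ∧
      Ct (fun m => (FreeAlgebra.lift ℤ (τ m)).toRingHom)
        (FreeAlgebra.lift ℤ fun l => (χ (n l) : L) * lam (T l)).toRingHom := by
  have og : Odd g := Int.odd_iff.2 (by omega)
  obtain ⟨t, t1, t2⟩ := h.quad h0 h2 D (fun m => g ^ (m + 1)) og hD hl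
  obtain ⟨s, s1, s2⟩ := t2.quad h0 h2 1 (fun m => (-1) ^ (m + 1)) odd_neg_one
    (fun m => by rw [map_one, ← Int.cast_pow, ← pow_mul, mul_comm, pow_mul]; simp) (by simp)
  obtain ⟨χ, c1, c2, c3⟩ := ex_chi s1 t1
  have c4 : ∀ x : ℤ, Odd x → χ x ^ 2 = 1 := fun x hx => by
    obtain ⟨a, b, e⟩ := ex_ab hg hx 1
    have := (ZMod.intCast_zmod_eq_zero_iff_dvd _ 8).2 e
    refine c3 _ ((-1) ^ a * g ^ b) ?_
    push_cast at this
    linear_combination this
  refine ⟨χ, c4, fun ε hε => ?_⟩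
  obtain ⟨k, r, r1, r2⟩ := s2.rob (bd_ev (bd_ev hb _) _) h2 (C (C D))
    (c := fun m => (g ^ (m + 1)) ^ 2) (fun m m' e => by
      simp only [← pow_mul] at e
      have := Int.pow_right_injective (a := g) (by omega) e
      omega) (fun m => by rw [ad_C, ad_C, hD, Int.cast_pow _ 2]) ε hε
  choose a b hab using fun l => ex_ab hg (hn l) (r + 1)
  have hr : ∀ l, (2 : ℤ) ^ r ∣ (-1) ^ a l * g ^ b l * n l - 1 := fun l =>
    (pow_dvd_pow 2 (by omega)).trans (hab l)
  let θ : ι → A[X][X] := fun l => (n l : A[X][X]) * (C (C (T l)) * X ^ a l * C X ^ b l)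
  refine ⟨k, fun P hP => ?_⟩
  have h3 := r2 (FreeAlgebra.lift ℤ θ P) fun m hm => by
    obtain ⟨-, z, z1, z2⟩ := lift_cg (Bo (ad (ad π fun m => g ^ (m + 1)) (fun m => (-1) ^ (m + 1)) m))
      (2 ^ r) (x := τ m) (y := fun l => ad (ad π fun m => g ^ (m + 1)) (fun m => (-1) ^ (m + 1)) m (θ l))
      (fun l => ⟨_, (hn l).pow, C (C (T l)), by rw [ad_C, ad_C, hτ]⟩) (fun l => by
        obtain ⟨c, hc⟩ := (hr l).trans (sub_one_dvd_pow_sub_one _ (m + 1))
        refine ⟨c • τ m l, zsmul_mem (show τ m l ∈ Bo _ from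
          ⟨_, (hn l).pow, C (C (T l)), by rw [ad_C, ad_C, hτ]⟩) c, ?_⟩
        simp only [θ, map_intCast, map_mul, map_pow, ad_C, ad_X, ← hτ]
        rw [← zsmul_eq_mul, ← Int.cast_pow, ← Int.cast_pow, mul_assoc, ← Int.cast_mul, ← (Int.cast_commute _ _).eq,
          ← zsmul_eq_mul, smul_smul, smul_smul, smul_smul, ← hc, sub_smul, one_smul, add_sub_cancel]
        congr 1
        ring) P
    refine ⟨z, z1, ?_⟩
    rw [map_lift, z2, show FreeAlgebra.lift ℤ (τ m) P = 0 from hP m hm, zero_add]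
  obtain ⟨-, z, z1, z2⟩ := lift_cg (Ub L) (2 ^ r) (x := fun l => (χ (n l) : L) * lam (T l))
    (y := fun l => eval₂RingHom (eval₂RingHom lam ((t * g : ℤ) : L)) ((s * -1 : ℤ) : L) (θ l))
    (fun l => mul_mem (intCast_mem _ _) (hb _)) (fun l => by
      obtain ⟨c, hc⟩ := hr l
      have e := (ZMod.intCast_zmod_eq_zero_iff_dvd _ 8).2
        ((pow_dvd_pow 2 (show 3 ≤ r + 1 + 2 by omega)).trans (hab l))
      have g5 : (g : ZMod 8) = 5 := by
        rw [← Int.emod_add_mul_ediv g 8, hg]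
        push_cast
        rw [show (8 : ZMod 8) = 0 from rfl]
        ring
      rw [Int.cast_sub, sub_eq_zero] at e
      push_cast at e
      have e1 := congrArg χ e
      rw [map_mul, map_mul, map_pow, map_pow, g5, c1, c2, map_one] at e1
      have e2 : χ (n l) = s ^ a l * t ^ b l := by
        linear_combination χ (n l) * -e1 + s ^ a l * t ^ b l * c4 _ (hn l)
      refine ⟨c * ((χ (n l) : L) * lam (T l)),
        mul_mem (intCast_mem _ _) (mul_mem (intCast_mem _ _) (hb _)), ?_⟩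
      have e3 := congrArg (Int.cast : ℤ → L) hc
      simp only [θ, map_mul, map_intCast, map_pow]
      simp only [coe_eval₂RingHom, eval₂_C, eval₂_X, zsmul_eq_mul, e2]
      push_cast at e3 ⊢
      rw [mul_pow, mul_pow]
      linear_combination (s : L) ^ a l * t ^ b l * lam (T l) * e3) P
  rw [map_lift, z2] at h3
  have h4 := nadd h3 (y := -((2 : ℤ) ^ r • z)) (by
    rw [norm_neg, zsmul_eq_mul, norm_mul, Int.cast_pow, norm_pow, Int.cast_ofNat]
    exact (mul_le_of_le_one_right (by positivity) z1).trans_lt r1)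
  rwa [add_neg_cancel_right] at h4

end Vale.Agent.P004M.A6
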