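import Vale.Agent.P004M.A6a
import Vale.Agent.P022K.UC.Fun
import Vale.Agent.P022.H567.Tw.Lim
import Vale.Agent.P022.H933.St.Bridge

/-!
# P004M, row a6: from occurrence at odd level to forms with trivial character
-/

set_option autoImplicit false

open UpperHalfPlane CongruenceSubgroup
open scoped MatrixGroups ModularForm TensorProduct

noncomputable section

namespace Vale.Agent.P004M.A6

open Vale.Agent.P022 Vale.Agent.P022.H783 Vale.Agent.P022K.UC.Hm
open Vale.Agent.P022.H567.Tw (Lim cf tz cf_tz incl incl_inj gHk_incl dec dec1 decG gen_inr uℓ)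
open Vale.Agent.P022.H811.L3 (zero_of_coeff)

/-- **UC0**: the system `lam` is a limit of systems of the forms with trivial character -/
def UC0 (N : ℕ) [NeZero N] {L : Type*} [NormedField L] (lam : ℕ → L) : Prop :=
  ∀ ε : ℝ, 0 < ε → ∃ B, ∀ P : FreeAlgebra ℤ (PA N), (∀ m ≤ B, ∀ f, Tv f → wd N m P f = 0) →
    ‖FreeAlgebra.lift ℤ (fun l : PA N => lam l.1) P‖ < ε

variable {N : ℕ} [NeZero N]

theorem dia_mul (k : ℕ) {l l' l'' : PA N} (h : (l''.1 : ZMod N) = l'.1 * l.1) (f : MF N k) :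
    dia k l (dia k l' f) = dia k l'' f := by
  apply DFunLike.coe_injective
  rw [dia_coe, dia_coe, dia_coe, dFun_eq l'' ((Gamma0 N).mul_mem (gd_mem l'.coprime)
    (gd_mem l.coprime)), dFun, dFun, SlashAction.slash_mul]
  rw [h, ← gd_d l.coprime, ← gd_d l'.coprime]
  exact map_mul (Gamma0Map N) ⟨_, gd_mem l'.coprime⟩ ⟨_, gd_mem l.coprime⟩

theorem dia_one (k : ℕ) {l : PA N} (h : (l.1 : ZMod N) = 1) (f : MF N k) : dia k l f = f := by
  apply DFunLike.coe_injective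
  rw [dia_coe, dFun_eq l (one_mem _) (by simp [h]), SlashAction.slash_one]

theorem tv_odd {k : ℕ} (hk : Odd k) {f : MF N k} (hf : Tv f) {l : PA N}
    (h : (l.1 : ZMod N) = -1) : f = 0 := by
  ext τ
  have e := congrFun (dFun_eq l (s := -1) (by simp [Gamma0_mem]) (by simp [h]) f) τ
  rw [← dia_coe, hf, ModularForm.SL_slash_apply] at e
  have e1 : denom ((-1 : SL(2, ℤ)) : GL (Fin 2) ℝ) τ = -1 := by simp [denom]
  rw [e1, show (-1 : SL(2, ℤ)) • τ = τ by simp, (Odd.neg (by exact_mod_cast hk)).neg_one_zpow] at e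
  show f τ = 0
  linear_combination e / 2

omit [NeZero N] in
theorem ex_pr (hN : Odd N) (d : (ZMod N)ˣ) (s : ℕ) {r : ℕ} (hr : Odd r) :
    ∃ l : PA N, (l.1 : ZMod N) = d ∧ (2 : ℤ) ^ s ∣ l.1 - r := by
  have : NeZero N := ⟨hN.pos.ne'⟩
  have co : N.Coprime (2 ^ s) := (Nat.coprime_two_right.2 hN).pow_right s
  obtain ⟨a, a1, a2⟩ := Nat.chineseRemainder co (d : ZMod N).val r
  obtain ⟨p, p1, p2, p3⟩ := Nat.forall_exists_prime_gt_and_modEq (2 * N)
    (mul_ne_zero hN.pos.ne' (pow_ne_zero s two_ne_zero)) (Nat.Coprime.mul_right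
      ((a1.gcd_eq).trans (ZMod.val_coe_unit_coprime d))
      ((a2.gcd_eq).trans ((Nat.coprime_two_right.2 hr).pow_right s)))
  refine ⟨⟨p, p2, fun e => (Nat.le_of_dvd (by have := hN.pos; omega) e).not_gt p1⟩, ?_, ?_⟩
  · rw [(ZMod.natCast_eq_natCast_iff _ _ _).2 ((p3.of_mul_right _).trans a1),
      ZMod.natCast_zmod_val]
  · exact_mod_cast ((p3.of_mul_left _).trans a2).symm.dvd

theorem lift_int {V W ι : Type*} [AddCommGroup V] [Module ℂ V] [AddCommGroup W] [Module ℂ W]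
    (φ : V →ₗ[ℂ] W) {x : ι → Module.End ℂ V} {y : ι → Module.End ℂ W}
    (h : ∀ i f, y i (φ f) = φ (x i f)) (P : FreeAlgebra ℤ ι) :
    ∀ f, FreeAlgebra.lift ℤ y P (φ f) = φ (FreeAlgebra.lift ℤ x P f) := by
  induction P using FreeAlgebra.induction with
  | grade0 r => intro f; simp
  | grade1 ℓ => intro f; simp [h]
  | mul a b ha hb => intro f; simp only [map_mul, Module.End.mul_apply, ha, hb]
  | add a b ha hb => intro f; simp only [map_add, LinearMap.add_apply, ha, hb]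

/-- the forms with trivial character -/
def TV (N k : ℕ) [NeZero N] : Submodule ℂ (MF N k) where
  carrier := {f | Tv f}
  zero_mem' _ := map_zero _
  add_mem' hf hg l := by rw [map_add, hf, hg]
  smul_mem' c f hf l := by rw [map_smul, hf]

/-- the Hecke operators on them -/
def tl (k : ℕ) (l : PA N) : Module.End ℂ (TV N k) := (Tl k l).restrict fun _ h => Tv.tl h l

/-- words in both kinds of generators -/
def pv (N : ℕ) [NeZero N] (m : ℕ) : FreeAlgebra ℤ (Gen N) →+* Module.End ℂ (TV N (2 * m + 2)) :=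
  (FreeAlgebra.lift ℤ (Sum.elim (tl _) fun l => (((l.1 : ℤ) ^ (2 * m + 1) : ℤ) : _))).toRingHom

/-- normalised operators -/
def nt (m : ℕ) (l : PA N) : Module.End ℂ (TV N (2 * m + 2)) := ((l.1 : ℂ) ^ m)⁻¹ • tl _ l

theorem wd_nt (m : ℕ) (P : FreeAlgebra ℤ (PA N)) (f : TV N (2 * m + 2)) :
    wd N m P f = FreeAlgebra.lift ℤ (nt m) P f :=
  lift_int (TV N _).subtype (fun _ _ => rfl) P f

variable {L : Type} [NormedField L] [IsUltrametricDist L]

theorem bd_lift {ι : Type*} {t : ι → L} (hb : ∀ s, ‖t s‖ ≤ 1) (a : FreeAlgebra ℤ ι) :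
    ‖FreeAlgebra.lift ℤ t a‖ ≤ 1 :=
  (lift_cg (Ub L) 0 (x := t) (y := t) hb (fun _ => ⟨0, zero_mem _, by simp⟩) a).1

omit [NeZero N] in
theorem odd_pa (l : PA N) : Odd (l.1 : ℤ) := by
  exact_mod_cast l.2.1.odd_of_ne_two fun e => l.2.2 (e.dvd.mul_right N)

/-- **averaging over the diamond operators** -/
theorem avg [CharZero L] (hN : Odd N) (h2 : ‖(2 : L)‖ < 1) {t : Gen N → L} (hb : ∀ s, ‖t s‖ ≤ 1)
    (hS : ∀ l, t (Sum.inr l) = l.1) (h : Lim N t) :
    Ct (pv N) (FreeAlgebra.lift ℤ t).toRingHom := by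
  intro ε hε
  obtain ⟨y, y1, -⟩ := ex_pr hN 1 0 odd_one
  obtain ⟨z, z1, -⟩ := ex_pr hN (-1) 0 odd_one
  have φ0 : 0 < ‖(Fintype.card (ZMod N)ˣ : L)‖ :=
    norm_pos_iff.2 (Nat.cast_ne_zero.2 Fintype.card_ne_zero)
  let π : ∀ i, FreeAlgebra ℤ (Gen N) →+* Module.End ℂ (MF N (i + 1)) := fun i =>
    (FreeAlgebra.lift ℤ fun s => gHk N s i).toRingHom
  have hπ : ∀ i l, π i (FreeAlgebra.ι ℤ (Sum.inr l)) = (l.1 : ℤ) ^ i • dia (i + 1) l :=
    fun i l => by
      rw [← Int.cast_smul_eq_zsmul ℂ, Int.cast_pow, Int.cast_natCast]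
      exact FreeAlgebra.lift_ι_apply _ _
  obtain ⟨k, s, s1, s2⟩ := Ct.rob (π := π) (lam := (FreeAlgebra.lift ℤ t).toRingHom) h
    (bd_lift hb) h2 (FreeAlgebra.ι ℤ (Sum.inr y)) (c := fun i => (y.1 : ℤ) ^ i)
    (Int.pow_right_injective (by simpa using y.2.1.one_lt)) (fun i => by
      rw [hπ, show dia (i + 1) y = 1 from LinearMap.ext (dia_one _ y1), zsmul_eq_mul, mul_one])
    _ (mul_pos hε φ0)
  choose l l1 l2 using fun d => ex_pr hN d s odd_one
  refine ⟨k, fun a ha => ?_⟩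
  have h3 := s2 (a * ∑ d, FreeAlgebra.ι ℤ (Sum.inr (l d))) fun i hi => by
    choose c hc using fun d => (l2 d).trans (sub_one_dvd_pow_sub_one _ i)
    refine ⟨π i a * ∑ d, c d • dia (i + 1) (l d), mul_mem (mem_Bo _ _) (sum_mem fun d _ =>
      zsmul_mem (show dia (i + 1) (l d) ∈ Bo _ from ⟨_, (odd_pa _).pow, _, (hπ _ _).symm⟩) _), ?_⟩
    have e0 : π i a * ∑ d, dia (i + 1) (l d) = 0 := LinearMap.ext fun f => by
      have e1 : Tv ((∑ d, dia (i + 1) (l d)) f) := fun p => by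
        rw [LinearMap.sum_apply, map_sum, ← Equiv.sum_comp
          (Equiv.mulRight (ZMod.unitOfCoprime p.1 p.coprime)) fun d => dia (i + 1) (l d) f]
        exact Finset.sum_congr rfl fun d _ => dia_mul _ (by simp [l1]) f
      rw [Module.End.mul_apply]
      rcases Nat.even_or_odd' i with ⟨m, rfl | rfl⟩
      · rw [tv_odd (odd_two_mul_add_one m) e1 z1, map_zero, LinearMap.zero_apply]
      · refine (lift_int (TV N (2 * m + 2)).subtype (y := fun s => gHk N s (2 * m + 1)) (x :=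
          Sum.elim (tl _) fun l => (((l.1 : ℤ) ^ (2 * m + 1) : ℤ) : _)) ?_ a ⟨_, e1⟩).trans ?_
        · rintro (p | p) f
          · rfl
          · show (p.1 : ℂ) ^ (2 * m + 1) • dia _ p f.1 = _
            rw [f.2 p, Sum.elim_inr, Module.End.intCast_apply, map_zsmul,
              ← Int.cast_smul_eq_zsmul ℂ, Int.cast_pow, Int.cast_natCast]
            rfl
        · exact congrArg (fun x : Module.End ℂ _ => (TV N (2 * m + 2)).subtype (x _))
            (ha m (by omega))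
    rw [map_mul, map_sum, ← mul_smul_comm, Finset.smul_sum, ← sub_zero (π i a * _), ← e0,
      ← mul_sub, ← Finset.sum_sub_distrib]
    refine congrArg _ (Finset.sum_congr rfl fun d _ => ?_)
    rw [hπ, smul_smul, ← hc, sub_smul, one_smul]
  choose c hc using l2
  have h4 := nadd h3 (y := -(FreeAlgebra.lift ℤ t a * (∑ d, c d : ℤ) * 2 ^ s)) (by
    rw [norm_neg, norm_mul, norm_mul, norm_pow]
    exact (mul_le_of_le_one_left (by positivity) (mul_le_one₀ (bd_lift hb a) (norm_nonneg _)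
      (IsUltrametricDist.norm_intCast_le_one L _))).trans_lt s1)
  refine lt_of_mul_lt_mul_right (((norm_mul _ _).symm.trans (congrArg _ ?_)).trans_lt h4) φ0.le
  have e : ∀ d, ((l d).1 : L) = 1 + 2 ^ s * c d := fun d => by
    exact_mod_cast congrArg (Int.cast : ℤ → L) (eq_add_of_sub_eq' (hc d))
  simp [hS, e, Finset.sum_add_distrib, ← Finset.mul_sum]
  ring

/-- some twist of conductor `8` is a limit at the odd level -/
theorem ex_tw [CharZero L] (hN : Odd N) (h2 : ‖(2 : L)‖ < 1) {t : Gen N → L}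
    (hb : ∀ s, ‖t s‖ ≤ 1) (hS : ∀ l, t (Sum.inr l) = l.1) (h : Lim N t) {a : ℕ → L}
    (ha : ∀ l, t (Sum.inl l) = a l.1) : ∃ χ : ZMod 8 →* ℤ, (∀ x : ℤ, Odd x → χ x ^ 2 = 1) ∧
      UC0 N fun l => (χ l : L) * a l := by
  obtain ⟨g, -, g1⟩ := ex_pr hN 1 3 (r := 5) (by decide)
  obtain ⟨χ, c1, c2⟩ := (avg hN h2 hb hS h).nor (bd_lift hb) two_ne_zero h2
    (fun l : PA N => (l.1 : ℤ)) odd_pa (fun l => FreeAlgebra.ι ℤ (Sum.inl l)) nt (fun m l => by
      rw [← Int.cast_smul_eq_zsmul ℂ, Int.cast_pow, Int.cast_natCast, nt, smul_inv_smul₀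
        (pow_ne_zero _ (Nat.cast_ne_zero.2 l.2.1.ne_zero))]
      simp [pv])
    ((g.1 : ℤ) • FreeAlgebra.ι ℤ (Sum.inr g)) (g := g.1) (by omega) (fun m => by
      rw [map_zsmul, show pv N m (FreeAlgebra.ι ℤ (Sum.inr g)) = _ from
        FreeAlgebra.lift_ι_apply _ _, Sum.elim_inr, zsmul_eq_mul, ← Int.cast_mul, ← Int.cast_pow]
      congr 1
      ring) (by simp [hS, sq])
  refine ⟨χ, c1, fun ε hε => ?_⟩
  obtain ⟨k, hk⟩ := c2 ε hε
  refine ⟨k, fun P hP => ?_⟩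
  have := hk P fun m hm => LinearMap.ext fun f => Subtype.ext
    ((wd_nt m P f).symm.trans (hP m hm.le _ f.2))
  simpa [ha] using this

/-- words of level `M` come from words of level `N`, the generators being scaled by `c` -/
def Tr (N M : ℕ) [NeZero N] [NeZero M] (c : ℕ → ℤ) : Prop :=
  ∀ P : FreeAlgebra ℤ (PA M), ∃ Q : FreeAlgebra ℤ (PA N),
    (∀ m, (∀ f, Tv f → wd M m P f = 0) → ∀ f, Tv f → wd N m Q f = 0) ∧
    ∀ (R : Type) [Ring R] [Algebra ℤ R] (a b : ℕ → R), (∀ l : PA M, b l.1 = c l.1 * a l.1) →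
      FreeAlgebra.lift ℤ (fun l : PA M => b l.1) P = FreeAlgebra.lift ℤ (fun l : PA N => a l.1) Q

/-- transfer along intertwining maps -/
theorem tr {M : ℕ} [NeZero M] (d : PA M → PA N) (hd : ∀ l, (d l).1 = l.1) (c : ℕ → ℤ)
    (φ : ∀ m, MF N (2 * m + 2) →ₗ[ℂ] MF M (2 * m + 2)) (h1 : ∀ m f, Tv f → Tv (φ m f))
    (h2 : ∀ m f l, Tv f → Tl _ l (φ m f) = c l.1 • φ m (Tl _ (d l) f))
    (h3 : ∀ m P, (∀ f, Tv f → φ m (wd N m P f) = 0) → ∀ f, Tv f → wd N m P f = 0) : Tr N M c := by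
  refine fun P => ⟨FreeAlgebra.lift ℤ (fun l => c l.1 • FreeAlgebra.ι ℤ (d l)) P,
    fun m hP => h3 m _ fun f hf => ?_, fun R _ _ a b hab => ?_⟩
  · rw [← hP _ (h1 m f hf), wd_nt m _ ⟨f, hf⟩]
    refine Eq.trans ?_ (lift_int (φ m ∘ₗ (TV N _).subtype) (x := fun l => c l.1 • nt m (d l))
      (fun l f => ?_) P ⟨f, hf⟩).symm
    · have := map_lift (FreeAlgebra.lift ℤ (nt (N := N) m)).toRingHom
        (fun l => c l.1 • FreeAlgebra.ι ℤ (d l)) P
      simp only [AlgHom.toRingHom_eq_coe, RingHom.coe_coe, map_zsmul,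
        FreeAlgebra.lift_ι_apply] at this
      rw [this]
      rfl
    · rw [LinearMap.smul_apply, LinearMap.smul_apply, map_zsmul, nt, LinearMap.smul_apply,
        map_smul, hd, smul_comm]
      exact congrArg _ (h2 m f.1 l f.2)
  · have e := map_lift (FreeAlgebra.lift ℤ fun l : PA N => a l.1).toRingHom
      (fun l => c l.1 • FreeAlgebra.ι ℤ (d l)) P
    simp only [AlgHom.toRingHom_eq_coe, RingHom.coe_coe, map_zsmul, FreeAlgebra.lift_ι_apply,
      hd] at e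
    rw [e]
    simp only [hab, zsmul_eq_mul]

theorem tr_raise (N M : ℕ) [NeZero N] [NeZero M] : Tr N (N * M) fun _ => 1 :=
  tr dec1 (fun _ => rfl) (fun _ => 1) (fun _ => incl N M _) (fun m f hf l => by
      have := gHk_incl (Sum.inr l) (2 * m + 1) f
      refine smul_right_injective _ (pow_ne_zero (2 * m + 1)
        (Nat.cast_ne_zero.2 l.2.1.ne_zero : (l.1 : ℂ) ≠ 0)) (this.trans ?_)
      exact (map_smul (incl N M _) _ _).trans (congrArg _ (congrArg _ (hf _))))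
    (fun m f l _ => (gHk_incl (Sum.inl l) (2 * m + 1) f).trans (one_smul _ _).symm)
    fun m P hP f hf => incl_inj N M _ ((hP f hf).trans (map_zero _).symm)

theorem tr_twist (h2 : 2 ∣ N) (χ : ZMod 8 →* ℤ) (hχ : ∀ x : ℤ, Odd x → χ x ^ 2 = 1) :
    Tr N (N * 8 ^ 2) fun l => χ l := by
  let c := ZMod.dft.symm fun u : ZMod 8 => (χ (-u) : ℂ)
  let φ : ∀ m, MF N (2 * m + 2) →ₗ[ℂ] MF (N * 8 ^ 2) (2 * m + 2) := fun m =>
    ∑ u, c u • tz N 8 u _
  have e : ∀ m f n, cf (φ m f) n = χ n * cf f n := fun m f n => by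
    have h1 : ZMod.dft c (-(n : ZMod 8)) = _ := congrFun (LinearEquiv.apply_symm_apply _ _) _
    rw [ZMod.dft_apply, neg_neg] at h1
    simp only [mul_neg, neg_neg, smul_eq_mul] at h1
    rw [← cfL_apply, LinearMap.sum_apply, map_sum]
    simp only [LinearMap.smul_apply, map_smul, cfL_apply, cf_tz, smul_eq_mul, ← mul_assoc,
      ← Finset.sum_mul]
    rw [Finset.sum_congr rfl fun u _ => mul_comm (c u) _, h1]
  have h1 : ∀ m f, Tv f → Tv (φ m f) := fun m f hf l => by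
    rw [LinearMap.sum_apply, map_sum]
    refine Finset.sum_congr rfl fun u _ => ?_
    rw [LinearMap.smul_apply, map_smul]
    refine congrArg _ (smul_right_injective _ (pow_ne_zero (2 * m + 1)
      (Nat.cast_ne_zero.2 l.2.1.ne_zero : (l.1 : ℂ) ≠ 0)) ((gen_inr u (2 * m + 1) l f).trans ?_))
    rw [show uℓ l ^ 2 = 1 from (by decide : ∀ x : (ZMod 8)ˣ, x ^ 2 = 1) _, Units.val_one, one_mul]
    exact (map_smul (tz N 8 u _) _ _).trans (congrArg _ (congrArg _ (hf _)))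
  refine tr dec (fun _ => rfl) (fun l => χ l) φ h1 (fun m f l hf => ?_)
    fun m P hP => wd_kill h2 fun f hf => ?_
  · refine sub_eq_zero.1 (zero_of_coeff (by omega) _ fun n _ => ?_)
    show cfL _ _ n _ = 0
    rw [map_sub, map_zsmul, cfL_apply, cfL_apply, (h1 m f hf).cf_tl, e, e, e, hf.cf_tl,
      show (dec l).1 = l.1 from rfl]
    have e1 : (χ l.1 : ℂ) ^ 2 = 1 := by exact_mod_cast hχ _ (odd_pa l)
    split_ifs with h6
    · obtain ⟨n, rfl⟩ := h6
      simp only [Nat.mul_div_cancel_left _ l.2.1.pos, Nat.cast_mul, map_mul, Int.cast_mul,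
        zsmul_eq_mul]
      linear_combination (-((l.1 : ℂ) ^ (((2 * m + 2 : ℕ) : ℤ) - 1) * χ n * cf f n)) * e1
    · simp only [Nat.cast_mul, map_mul, Int.cast_mul, zsmul_eq_mul]
      ring
  · have := e m (wd N m P f) 1
    rw [hP f hf, ← cfL_apply, map_zero] at this
    simpa using this.symm

omit [IsUltrametricDist L] in
theorem UC0.tr {M : ℕ} [NeZero M] {c : ℕ → ℤ} (t : Tr N M c) {a b : ℕ → L}
    (hab : ∀ l : PA M, b l.1 = c l.1 * a l.1) (h : UC0 N a) : UC0 M b := fun ε hε =>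
  (h ε hε).imp fun _ hB P hP => by
    obtain ⟨Q, q1, q2⟩ := t P
    rw [q2 L a b hab]
    exact hB Q fun m hm => q1 m (hP m hm)

omit [IsUltrametricDist L] in
/-- raising the level -/
theorem UC0.raise (M : ℕ) [NeZero M] {a b : ℕ → L} (hab : ∀ l : PA (N * M), b l.1 = a l.1)
    (h : UC0 N a) : UC0 (N * M) b :=
  h.tr (tr_raise N M) (by simpa using hab)

omit [IsUltrametricDist L] in
/-- twisting by a character modulo `8` -/
theorem UC0.twist (h2 : 2 ∣ N) (χ : ZMod 8 →* ℤ) {a b : ℕ → L}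
    (hab : ∀ l : PA (N * 8 ^ 2), b l.1 = χ l.1 * a l.1) (hχ : ∀ x : ℤ, Odd x → χ x ^ 2 = 1)
    (h : UC0 N a) : UC0 (N * 8 ^ 2) b :=
  h.tr (tr_twist h2 χ hχ) hab

/-- **a6**, from a limit at odd level -/
theorem uc0_of_lim [CharZero L] (hN : Odd N) (h2 : ‖(2 : L)‖ < 1) {t : Gen N → L}
    (hb : ∀ s, ‖t s‖ ≤ 1) (hS : ∀ l, t (Sum.inr l) = l.1) (h : Lim N t) {a : ℕ → L}
    (ha : ∀ l, t (Sum.inl l) = a l.1) : UC0 (N * 2 * 8 ^ 2) a := by
  obtain ⟨χ, c1, c2⟩ := ex_tw hN h2 hb hS h ha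
  refine (c2.raise 2 fun _ => rfl).twist (dvd_mul_left _ _) χ (fun l => ?_) c1
  have e1 : (χ l.1 : L) ^ 2 = 1 := by exact_mod_cast c1 _ (odd_pa l)
  linear_combination (-a l.1) * e1

theorem lim_of_hom {E : Type} [NontriviallyNormedField E] [NormedAlgebra ℚ_[2] E]
    {lam : St.T2 N →+* E} (h : St.IsContHom N lam) :
    Lim N (Sum.elim (fun l => lam (St.elT N l)) fun l => lam (St.elS N l)) := by
  intro ε hε
  obtain ⟨k, n, hk⟩ := h.2.2 ε hε
  refine ⟨k, fun x hx => ?_⟩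
  let w : Gen N → St.TA N k := Sum.elim
    (fun l => ⟨St.opT N k l, Subring.subset_closure (Or.inl ⟨l, rfl⟩)⟩)
    fun l => ⟨St.opS N k l, Subring.subset_closure (Or.inr ⟨l, rfl⟩)⟩
  have e1 : FreeAlgebra.lift ℤ w x = 0 := Subtype.ext (funext fun i => by
    have := map_lift ((Pi.evalRingHom _ i).comp ((St.iW N k).comp (St.TA N k).subtype)) w x
    refine this.trans (Eq.trans ?_ (hx i i.2))
    congr 2
    funext s
    rcases s with l | l
    · exact congrFun (St.iW_opT N k l) i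
    · exact congrFun (St.iW_opS N k l) i)
  let μ : St.T2 N →+* St.TZ N k := (Pi.evalRingHom _ k).comp (St.T2s N).subtype
  let ν : St.TA N k →+* St.TZ N k :=
    (Algebra.TensorProduct.includeRight (R := ℤ) (A := ℤ_[2]) (B := St.TR N k)).toRingHom
  have h3 := hk (FreeAlgebra.lift ℤ (Sum.elim (St.elT N) (St.elS N)) x) ⟨0, by
    show μ _ = _
    rw [smul_zero, map_lift, ← map_zero ν, ← e1, map_lift]
    congr 2
    funext s
    rcases s with l | l <;> rfl⟩
  rw [map_lift] at h3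
  convert h3 using 4
  funext s
  rcases s with l | l <;> rfl

theorem norm_two (E : Type) [NontriviallyNormedField E] [NormedAlgebra ℚ_[2] E] :
    ‖(2 : E)‖ < 1 := by
  rw [← map_ofNat (algebraMap ℚ_[2] E), norm_algebraMap']
  exact Padic.norm_p_lt_one

/-- **a6**, odd level: the level has the odd primes of `M`, some twist is a limit -/
theorem tw_of_q1 {E : Type} [NontriviallyNormedField E] [NormedAlgebra ℚ_[2] E]
    {r : (AlgebraicClosure ℚ ≃ₐ[ℚ] AlgebraicClosure ℚ) →* GL (Fin 2) E} (h : St.Q1Concl r)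
    {o : ℕ} (ho : Odd o) {a : ℕ → E} (ha : ∀ l : ℕ, l.Prime → ¬ l ∣ 2 * o → ∃ g, St.IsFrob l g ∧
      (r g : Matrix (Fin 2) (Fin 2) E).trace = a l ∧ (r g : Matrix (Fin 2) (Fin 2) E).det = l) :
    ∃ (N : ℕ) (_ : NeZero N) (χ : ZMod 8 →* ℤ), Odd N ∧ o ∣ N ∧ (∀ x : ℤ, Odd x → χ x ^ 2 = 1) ∧
      UC0 N fun l => (χ l : E) * a l := by
  obtain ⟨N, _, hN, -, -, lam, h1, h3⟩ := h
  have : NeZero o := ⟨ho.pos.ne'⟩
  have : IsUltrametricDist E := IsUltrametricDist.of_normedAlgebra ℚ_[2]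
  have : CharZero E := charZero_of_injective_algebraMap (algebraMap ℚ_[2] E).injective
  have h4 : ∀ l : PA (N * o), lam (St.elT N (dec1 l)) = a l.1 ∧ lam (St.elS N (dec1 l)) = l.1 :=
    fun l => by
      obtain ⟨g, g1, g2, g3⟩ := ha l.1 l.2.1 fun e => l.2.2 (e.trans ⟨N, by ring⟩)
      exact ⟨(h3 _ g g1).1.trans g2, (h3 _ g g1).2.trans g3⟩
  obtain ⟨χ, c1, c2⟩ := ex_tw (hN.mul ho) (norm_two E)
    (by rintro (l | l) <;> exact h1.2.1 _) (fun l => (h4 l).2) ((lim_of_hom h1).raise o)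
    fun l => (h4 l).1
  exact ⟨N * o, inferInstance, χ, hN.mul ho, dvd_mul_left _ _, c1, c2⟩

/-- **a6**: a representation with cyclotomic determinant which occurs at an odd level is a limit
of systems with trivial character -/
theorem uc0_of_q1 {E : Type} [NontriviallyNormedField E] [NormedAlgebra ℚ_[2] E]
    {r : (AlgebraicClosure ℚ ≃ₐ[ℚ] AlgebraicClosure ℚ) →* GL (Fin 2) E} (h : St.Q1Concl r)
    {M : ℕ} (hM : M ≠ 0) {a : ℕ → E} (ha : ∀ l : ℕ, l.Prime → ¬ l ∣ 2 * M → ∃ g, St.IsFrob l g ∧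
      (r g : Matrix (Fin 2) (Fin 2) E).trace = a l ∧ (r g : Matrix (Fin 2) (Fin 2) E).det = l) :
    ∃ (N : ℕ) (_ : NeZero N), 4 * M ∣ N ∧ UC0 N a := by
  obtain ⟨v, o, ho, rfl⟩ := Nat.exists_eq_two_pow_mul_odd hM
  obtain ⟨N, _, χ, -, ⟨n, h1⟩, c1, c2⟩ := tw_of_q1 h ho fun l hl e => ha l hl fun e' => e (by
    rw [← mul_assoc 2 (2 ^ v), ← pow_succ'] at e'
    rcases (Nat.Prime.dvd_mul hl).1 e' with e' | e'
    · exact (hl.dvd_of_dvd_pow e').mul_right _
    · exact e'.mul_left _)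
  refine ⟨N * 2 * 8 ^ 2 * 2 ^ v, inferInstance, ⟨n * 32, by rw [h1]; ring⟩,
    ((c2.raise 2 fun _ => rfl).twist (dvd_mul_left _ _) χ (fun l => ?_) c1).raise _ fun _ => rfl⟩
  have e1 : (χ l.1 : E) ^ 2 = 1 := by exact_mod_cast congrArg (Int.cast : ℤ → E) (c1 _ (odd_pa l))
  linear_combination (-a l.1) * e1

end Vale.Agent.P004M.A6
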