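import Vale.Agent.P022K.UC.UcB

/-!
# P004M: the words which join the two routes
-/

set_option autoImplicit false

namespace Vale.Agent.P004M

open Vale.Agent.P022 Vale.Agent.P022K.UC.Hm

/-- the integral system `a` is a `2`-adic limit of systems of forms with trivial character -/
def A6 (N : ℕ) [NeZero N] (a : ℕ → ℤ) : Prop :=
  ∀ j : ℕ, ∃ B, ∀ P : FreeAlgebra ℤ (PA N), (∀ m ≤ B, ∀ f, Tv f → wd N m P f = 0) →
    (2 : ℤ) ^ j ∣ FreeAlgebra.lift ℤ (fun l : PA N => a l.1) P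

/-- the system `a` stays away from the Eisenstein system on the primes `1` modulo `n` -/
def EIS (N : ℕ) (a : ℕ → ℤ) : Prop :=
  ∃ v : ℕ, ∀ n ≠ 0, ∃ l : PA N, l.1 ≡ 1 [MOD n] ∧ ¬ (2 : ℤ) ^ v ∣ a l.1 - l.1 - 1

/-- what route A proves -/
def UCA : Prop := ∀ (N : ℕ) [NeZero N] (a : ℕ → ℤ), 64 ∣ N → A6 N a → EIS N a →
  ∃ (N' : ℕ) (_ : NeZero N'), (∀ l : ℕ, l.Prime → (l ∣ N' ↔ l ∣ N)) ∧
    UCN N' fun l => ((a l : ℤ) : ℚ_[2])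

/-- what route D proves -/
def UCD : Prop := ∀ (M : ℕ) [NeZero M] (a : ℕ → ℤ), Odd M → 3 ∣ M → A6 M a →
  ∃ (N' : ℕ) (_ : NeZero N'), (∀ l : ℕ, l.Prime → (l ∣ N' ↔ l ∣ 2 * M)) ∧
    UCN N' fun l => ((a l : ℤ) : ℚ_[2])

end Vale.Agent.P004M
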