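import Vale.Agent.P022D.Top.Main
import Vale.Agent.P022D.Fm.Forms
import Vale.Agent.P022G.Final
import Vale.Agent.P022S.FinH12
import Vale.Agent.P022S.ExTwoH1

/-!
# P004M: representations over `ℚ₂` occur at odd level
-/

set_option autoImplicit false

namespace Vale.Agent.P004M

open Vale.Agent.P022

theorem qone (r : (AlgebraicClosure ℚ ≃ₐ[ℚ] AlgebraicClosure ℚ) →* GL (Fin 2) ℚ_[2])
    (hc : Continuous r) (ho : St.OddRep r) (hi : St.AbsIrr r)
    (hS : {p : ℕ | p.Prime ∧ ¬ St.UnrAt r p}.Finite) : St.Q1Concl r := by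
  obtain ⟨k, _, _, _, ρ, hr, hs⟩ := Vale.Agent.P022S.H1.exTwo ℚ_[2] r hc Vale.Agent.P022S.H1.resTwo
  by_cases h1 : St.IrrCyc ρ
  · exact Vale.Agent.P022D.Top.final (Vale.Agent.P022D.Top.main Vale.Agent.P022D.Fm.formsC)
      _ r hc ho hS k ρ hr hs h1
  · by_cases ht : ∃ g, (ρ g : Matrix (Fin 2) (Fin 2) k).trace ≠ 0
    · exact Vale.Agent.P022G.finalG _ r hc ho hi hS k ρ hr h1 ht
    · exact Vale.Agent.P022S.H12.finalS _ r hc ho hi hS k ρ hr
        fun g => not_not.1 fun h0 => ht ⟨g, h0⟩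

end Vale.Agent.P004M
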