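import Vale.Agent.P004M.Wrap2
import Vale.Agent.P004M.Qone
import Vale.Agent.P004M.D.All

/-!
# P004M: modularity of elliptic curves over `ℚ`
-/

set_option autoImplicit false

namespace Vale.Agent.P004M

/-- **modularity** -/
theorem modular : MODE := mode qone (Or.inr D.ucd)

end Vale.Agent.P004M
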