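import Vale.Agent.P004M.Ar0
import Vale.Agent.P022K.Iw.Grp

/-!
# P004M: admissible torsion modules of uniform groups; Artin-Rees and the linear rate
-/

set_option autoImplicit false
set_option linter.all false

noncomputable section

namespace Vale.Agent.P004M.Ar

open Vale.Agent.P022K.Iw (Uo)

variable {O Γ M M' ι : Type} [CommRing O] [Group Γ] [AddCommGroup M] [Module O M]
  [AddCommGroup M'] [Module O M'] (ρ : Representation O Γ M) (p : ℕ)

/-- the vectors killed by the `d`-th power of the ideal `(p, γ - 1)` -/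
def Sd : ℕ → Submodule O M
  | 0 => ⊥
  | d + 1 => (Sd d).comap (p : Module.End O M) ⊓ ⨅ γ, (Sd d).comap (ρ γ - 1)

/-- operators that lower the degree by `e` -/
def Dg (e : ℕ) (f : Module.End O M) : Prop := ∀ d, ∀ v ∈ Sd ρ p (d + e), f v ∈ Sd ρ p d

/-- stable submodules -/
def Gs (K : Submodule O M) : Prop := ∀ γ, ∀ v ∈ K, ρ γ v ∈ K

/-- smooth, torsion and admissible -/
structure Ad (N : ℕ → Subgroup Γ) : Prop where
  sm : ∀ v, ∃ t, ∀ γ ∈ N t, ρ γ v = v
  tor : ∀ v : M, ∃ k, p ^ k • v = 0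
  fin : {v | p • v = 0 ∧ ∀ γ, ρ γ v = v}.Finite

variable {ρ p} {ρ' : Representation O Γ M'} {g : ι → Γ} {N : ℕ → Subgroup Γ}

theorem mem_Sd {d : ℕ} {v : M} :
    v ∈ Sd ρ p (d + 1) ↔ p • v ∈ Sd ρ p d ∧ ∀ γ, ρ γ v - v ∈ Sd ρ p d := by
  simp [Sd]

theorem Sd_le : ∀ d, Sd ρ p d ≤ Sd ρ p (d + 1)
  | 0 => bot_le
  | d + 1 => fun v hv => mem_Sd.2 ⟨Sd_le d (mem_Sd.1 hv).1, fun γ => Sd_le d ((mem_Sd.1 hv).2 γ)⟩

theorem Sd_mono : Monotone (Sd ρ p) := monotone_nat_of_le_succ Sd_le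

theorem Sd_gs : ∀ d, Gs ρ (Sd ρ p d)
  | 0 => fun γ v hv => by rw [show v = 0 from hv, map_zero]; exact zero_mem _
  | d + 1 => fun γ v hv => by simpa using add_mem (Sd_le d ((mem_Sd.1 hv).2 γ)) hv

theorem Sd_map (φ : M →ₗ[O] M') (hφ : ∀ γ v, φ (ρ γ v) = ρ' γ (φ v)) :
    ∀ d, ∀ v ∈ Sd ρ p d, φ v ∈ Sd ρ' p d
  | 0, v, hv => by rw [show v = 0 from hv, map_zero]; exact zero_mem _
  | d + 1, v, hv => mem_Sd.2 ⟨map_nsmul φ p v ▸ Sd_map φ hφ d _ (mem_Sd.1 hv).1, fun γ => by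
      rw [← hφ, ← map_sub]; exact Sd_map φ hφ d _ ((mem_Sd.1 hv).2 γ)⟩

theorem Sd_tor : ∀ d, ∀ v ∈ Sd ρ p d, p ^ d • v = 0
  | 0, v, hv => by rw [show v = 0 from hv, nsmul_zero]
  | d + 1, v, hv => by rw [pow_succ, mul_nsmul']; exact Sd_tor d _ (mem_Sd.1 hv).1

namespace Dg

variable {a b : ℕ} {f f' : Module.End O M}

theorem mul (h : Dg ρ p a f) (h' : Dg ρ p b f') : Dg ρ p (a + b) (f * f') :=
  fun d v hv => h d _ (h' _ v (by rwa [add_assoc]))

theorem mono (h : Dg ρ p a f) (k : b ≤ a) : Dg ρ p b f :=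
  fun d v hv => h d v (Sd_mono (by omega) hv)

theorem pow (h : Dg ρ p a f) : ∀ k, Dg ρ p a (f ^ (k + 1))
  | 0 => by rwa [zero_add, pow_one]
  | k + 1 => by rw [pow_succ]; exact (pow h k).mul (h.mono a.zero_le)

theorem pw (hp : p.Prime) {γ : Γ} (h : Dg ρ p (a + 1) (ρ γ - 1)) :
    Dg ρ p (a + 2) (ρ (γ ^ p) - 1) := fun d v hv => by
  have e := (Commute.one_right (ρ γ - 1)).add_pow_prime_eq' hp
  rw [sub_add_cancel] at e
  rw [map_pow, e]
  simp only [one_pow, mul_one]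
  rw [add_right_comm, add_sub_cancel_right, LinearMap.add_apply]
  refine Submodule.add_mem _ ?_ ?_
  · obtain ⟨k, rfl⟩ : ∃ k, p = k + 1 + 1 := ⟨p - 2, by have := hp.two_le; omega⟩
    rw [pow_succ]
    exact (((h.pow k).mul h).mono (by omega)) d v hv
  · rw [Module.End.mul_apply, Module.End.natCast_apply, LinearMap.sum_apply]
    refine (mem_Sd.1 (sum_mem fun k hk => ?_)).1
    obtain ⟨k, rfl⟩ : ∃ j, k = j + 1 := ⟨k - 1, by have := (Finset.mem_Ioo.1 hk).1; omega⟩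
    rw [Module.End.mul_apply, Module.End.natCast_apply]
    exact h.pow k (d + 1) _ (nsmul_mem (by convert hv using 2; omega) _)

end Dg

theorem dg_b (γ : Γ) : Dg ρ p 1 (ρ γ - 1) := fun _ _ hv => (mem_Sd.1 hv).2 γ

theorem dg_g (hp : p.Prime) (γ : Γ) : ∀ j, Dg ρ p (j + 1) (ρ (γ ^ p ^ j) - 1)
  | 0 => dg_b _
  | j + 1 => by rw [pow_succ, pow_mul]; exact (dg_g hp γ j).pw hp

variable (ρ) in
/-- the stabiliser modulo `K` -/
def Hs {K : Submodule O M} (hK : Gs ρ K) (v : M) : Subgroup Γ where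
  carrier := {γ | ρ γ v - v ∈ K}
  one_mem' := by simp
  mul_mem' {a b} ha hb := by
    have := add_mem (hK a _ hb) ha
    rwa [map_sub, sub_add_sub_cancel, ← Module.End.mul_apply, ← map_mul] at this
  inv_mem' {a} ha := by
    have := neg_mem (hK a⁻¹ _ ha)
    rwa [map_sub, neg_sub, ← Module.End.mul_apply, ← map_mul, inv_mul_cancel, map_one] at this

theorem down (hU : Uo p g N) {H : Subgroup Γ} {j t : ℕ} (h1 : ∀ s i, g i ^ p ^ (j + s) ∈ H)
    (h2 : N t ≤ H) : N j ≤ H := by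
  replace h2 := (antitone_nat_of_succ_le hU.anti (Nat.le_add_left t j)).trans h2
  induction t with
  | zero => exact h2
  | succ t ih => exact ih (hU.gen _ H (h1 t) h2)

theorem fix (hU : Uo p g N) (hp : p.Prime) [Finite ι] (t : ℕ) : ∀ w : M, w ≠ 0 → p • w = 0 →
    (∀ γ ∈ N t, ρ γ w = w) → ∃ w : M, w ≠ 0 ∧ p • w = 0 ∧ ∀ γ, ρ γ w = w := by
  classical
  induction t with
  | zero => exact fun w h1 h2 h3 => ⟨w, h1, h2, fun γ => h3 γ (hU.top γ)⟩
  | succ t ih =>
    intro w h1 h2 h3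
    have b0 : Gs ρ ⊥ := Sd_gs (p := p) 0
    have m : ∀ γ x, γ ∈ Hs ρ b0 x ↔ ρ γ x = x := fun γ x => sub_eq_zero
    have key : ∀ s : Finset ι, ∃ w : M, w ≠ 0 ∧ p • w = 0 ∧ N (t + 1) ≤ Hs ρ b0 w ∧
        ∀ i ∈ s, g i ^ p ^ t ∈ Hs ρ b0 w := fun s => by
      induction s using Finset.induction_on with
      | empty => exact ⟨w, h1, h2, fun γ k => (m _ _).2 (h3 γ k), by simp⟩
      | insert k s _ ih =>
        obtain ⟨w, k1, k2, k3, k4⟩ := ih
        set a := g k ^ p ^ t with ha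
        have k5 : ∀ n : ℕ, p • ((ρ a - 1) ^ n) w = 0 ∧ Hs ρ b0 w ≤ Hs ρ b0 (((ρ a - 1) ^ n) w) :=
          fun n => ⟨by rw [← map_nsmul, k2, map_zero], by
            induction n with
            | zero => exact le_rfl
            | succ n ih =>
              refine fun γ hγ => (m _ _).2 ?_
              have k6 : a⁻¹ * γ * a ∈ Hs ρ b0 w := by
                convert mul_mem hγ (k3 (hU.anti _ (hU.com t γ⁻¹ _ (inv_mem (hU.pw k t))))) using 1
                rw [← ha]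
                group
              have k7 := congrArg (ρ a) ((m _ _).1 (ih k6))
              rw [← Module.End.mul_apply, ← map_mul, ← mul_assoc, ← mul_assoc, mul_inv_cancel,
                one_mul, map_mul, Module.End.mul_apply] at k7
              rw [pow_succ', Module.End.mul_apply, LinearMap.sub_apply, map_sub, k7,
                Module.End.one_apply, (m _ _).1 (ih hγ)]⟩
        have k6 : ∃ n : ℕ, ((ρ a - 1) ^ n) w = 0 := ⟨p, by
          have e := (Commute.one_right (ρ a - 1)).add_pow_prime_eq' hp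
          rw [sub_add_cancel, ← map_pow, ha, ← pow_mul, ← pow_succ, Nat.cast_comm] at e
          have := DFunLike.congr_fun e w
          rw [(m _ _).1 (k3 (hU.pw k _))] at this
          simpa [k2, ha] using this.symm⟩
        obtain ⟨n, hn⟩ : ∃ n, Nat.find k6 = n + 1 :=
          Nat.exists_eq_succ_of_ne_zero fun e => k1 (by simpa [e] using Nat.find_spec k6)
        refine ⟨_, Nat.find_min k6 (hn ▸ n.lt_succ_self), (k5 n).1, k3.trans (k5 n).2,
          fun i hi => ?_⟩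
        rcases Finset.mem_insert.1 hi with rfl | hi
        · have := Nat.find_spec k6
          rwa [hn, pow_succ'] at this
        · exact (k5 n).2 (k4 i hi)
    haveI := Fintype.ofFinite ι
    obtain ⟨w, k1, k2, k3, k4⟩ := key Finset.univ
    exact ih w k1 k2 fun γ hγ => (m _ _).1 (hU.gen t _ (fun i => k4 i (Finset.mem_univ i)) k3 hγ)

variable (ρ p g) in
/-- the generating operators -/
def uo : Option ι → M →+ M
  | none => nsmulAddMonoidHom p
  | some i => (ρ (g i) - 1).toAddMonoidHom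

theorem Gs.st {K : Submodule O M} (h : Gs ρ K) : St (uo ρ p g) K.toAddSubgroup
  | none, _, hv => nsmul_mem hv p
  | some i, v, hv => sub_mem (h (g i) v hv) hv

section

variable (hU : Uo p g N) (hp : p.Prime) (sm : ∀ v, ∃ t, ∀ γ ∈ N t, ρ γ v = v)

include hU sm

theorem soc (d : ℕ) (v : M) : v ∈ Sd ρ p (d + 1) ↔ ∀ i, uo ρ p g i v ∈ Sd ρ p d := by
  refine ⟨fun h i => by cases i; exacts [(mem_Sd.1 h).1, (mem_Sd.1 h).2 _],
    fun h => mem_Sd.2 ⟨h none, fun γ => ?_⟩⟩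
  obtain ⟨t, ht⟩ := sm v
  exact down hU (H := Hs ρ (Sd_gs d) v) (j := 0) (fun s i => Subgroup.pow_mem _ (h (some i)) _)
    (fun γ k => show ρ γ v - v ∈ Sd ρ p d by rw [ht γ k, sub_self]; exact zero_mem _) (hU.top γ)

include hp in
theorem dg_N {j : ℕ} {γ : Γ} (h : γ ∈ N j) : Dg ρ p (j + 1) (ρ γ - 1) := fun d v hv => by
  obtain ⟨t, ht⟩ := sm v
  exact down hU (H := Hs ρ (Sd_gs d) v) (fun s i => (dg_g hp _ _).mono (by omega) d v hv)
    (fun γ k => show ρ γ v - v ∈ Sd ρ p d by rw [ht γ k, sub_self]; exact zero_mem _) h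

end

variable [Finite ι] (hU : Uo p g N) (hp : p.Prime) (h : Ad ρ p N)

include hU hp h

theorem fi : Fi (uo ρ p g) fun d => (Sd ρ p d).toAddSubgroup where
  zero _ h := h
  succ := soc hU h.sm
  com d i j v hv := by
    cases i with
    | none => exact (sub_eq_zero.2 (map_nsmul (uo ρ p g j) p v).symm).symm ▸ zero_mem _
    | some i =>
      cases j with
      | none => exact (sub_eq_zero.2 (map_nsmul (uo ρ p g (some i)) p v)).symm ▸ zero_mem _
      | some j =>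
        have := dg_N hU hp h.sm (hU.com 0 (g i) _ (hU.top (g j))) d _
          (Sd_gs _ (g j * g i) v hv)
        rw [LinearMap.sub_apply, ← Module.End.mul_apply, ← map_mul, ← mul_assoc,
          inv_mul_cancel_right, inv_mul_cancel_right] at this
        show _ ∈ Sd ρ p d
        convert this using 1
        simp [uo]
        abel
  fin := h.fin.subset fun v hv => ⟨(mem_Sd.1 hv).1, fun γ => sub_eq_zero.1 ((mem_Sd.1 hv).2 γ)⟩
  ex v := by
    classical
    have m : ∀ v, v ∈ iSup (Sd ρ p) ↔ ∃ d, v ∈ Sd ρ p d :=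
      fun v => Submodule.mem_iSup_of_directed _ Sd_mono.directed_le
    refine (m v).1 (by_contra fun k => ?_)
    let σ := ρ.quotient (iSup (Sd ρ p)) fun γ v hv =>
      (m _).2 (((m v).1 hv).imp fun d => Sd_gs d γ v)
    have k1 : ∃ k, p ^ k • v ∈ iSup (Sd ρ p) := (h.tor v).imp fun k e => by rw [e]; exact zero_mem _
    obtain ⟨n, hn⟩ : ∃ n, Nat.find k1 = n + 1 :=
      Nat.exists_eq_succ_of_ne_zero fun e => k (by simpa [e] using Nat.find_spec k1)
    obtain ⟨t, ht⟩ := h.sm (p ^ n • v)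
    obtain ⟨w, k2, k3, k4⟩ := fix (ρ := σ) hU hp t (Submodule.Quotient.mk (p ^ n • v))
      (mt (Submodule.Quotient.mk_eq_zero _).1 (Nat.find_min k1 (hn ▸ n.lt_succ_self)))
      ((Submodule.Quotient.mk_eq_zero _).2 (by
        have := Nat.find_spec k1
        rwa [hn, pow_succ', mul_nsmul'] at this)) fun γ k => congrArg _ (ht γ k)
    obtain ⟨w, rfl⟩ := Submodule.Quotient.mk_surjective _ w
    have k5 : ∀ i, ∃ d, uo ρ p g i w ∈ Sd ρ p d := fun i => (m _).1 (by
      cases i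
      exacts [(Submodule.Quotient.mk_eq_zero _).1 k3, (Submodule.Quotient.eq _).1 (k4 _)])
    choose d hd using k5
    obtain ⟨e, he⟩ := (Set.finite_range d).bddAbove
    exact k2 ((Submodule.Quotient.mk_eq_zero _).2 ((m w).2 ⟨e + 1, (soc hU h.sm e w).2
      fun i => Sd_mono (he ⟨i, rfl⟩) (hd i)⟩))

theorem Sd_ex (v : M) : ∃ d, v ∈ Sd ρ p d := (fi hU hp h).ex v

theorem Sd_fin : ∀ d, (Sd ρ p d : Set M).Finite
  | 0 => Set.finite_singleton 0
  | d + 1 => by
    refine Set.Finite.of_finite_fibers (fun v i => uo ρ p g i v)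
      ((Set.Finite.pi' fun _ : Option ι => Sd_fin d).subset ?_) ?_
    · rintro _ ⟨v, hv, rfl⟩ i
      exact (soc hU h.sm d v).1 hv i
    · rintro _ ⟨v, -, rfl⟩
      refine (((fi hU hp h).fin.image (· + v)).subset ?_)
      rintro w ⟨-, hw⟩
      exact ⟨w - v, (soc hU h.sm 0 _).2 fun i => by
        rw [map_sub]; exact sub_eq_zero.2 (congrFun hw i), sub_add_cancel _ _⟩

/-- **Artin-Rees** for an equivariant map -/
theorem ar (φ : M →ₗ[O] M') (hφ : ∀ γ v, φ (ρ γ v) = ρ' γ (φ v)) :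
    ∃ c, ∀ e v, φ v ∈ Sd ρ' p e → ∃ w ∈ Sd ρ p (e + c), φ w = φ v := by
  obtain ⟨c, hc⟩ := (fi hU hp h).ar (K := (LinearMap.ker φ).toAddSubgroup)
    (Gs.st fun γ v hv => by rw [LinearMap.mem_ker, hφ, LinearMap.mem_ker.1 hv, map_zero])
  have k : ∀ e v, φ v ∈ Sd ρ' p e → v ∈ Rl (uo ρ p g) (LinearMap.ker φ).toAddSubgroup e :=
    fun e => by
      induction e with
      | zero => exact fun _ h => h
      | succ e ih =>
        refine fun v hv => mem_Rl.2 fun i => ih _ ?_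
        cases i
        · exact (map_nsmul φ p v).symm ▸ (mem_Sd.1 hv).1
        · convert (mem_Sd.1 hv).2 _ using 1
          rw [← hφ, ← map_sub]; rfl
  refine ⟨c, fun e v hv => ?_⟩
  obtain ⟨w, hw, z, hz, rfl⟩ := AddSubgroup.mem_sup.1 (hc e (k e v hv))
  exact ⟨w, hw, by rw [map_add, show φ z = 0 from hz, add_zero]⟩

/-- quotients of admissible modules -/
theorem Ad.quo (φ : M →ₗ[O] M') (hφ : ∀ γ v, φ (ρ γ v) = ρ' γ (φ v))
    (hs : Function.Surjective φ) : Ad ρ' p N where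
  sm v := by
    obtain ⟨v, rfl⟩ := hs v
    exact (h.sm v).imp fun t k γ hγ => by rw [← hφ, k γ hγ]
  tor v := by
    obtain ⟨v, rfl⟩ := hs v
    exact (h.tor v).imp fun t k => by rw [← map_nsmul, k, map_zero]
  fin := by
    obtain ⟨c, hc⟩ := ar hU hp h φ hφ
    refine ((Sd_fin hU hp h (1 + c)).image φ).subset fun v hv => ?_
    obtain ⟨v, rfl⟩ := hs v
    exact hc 1 v (mem_Sd.2 ⟨hv.1, fun γ => sub_eq_zero.2 (hv.2 γ)⟩)

/-- **the linear rate** -/
theorem rate {Z A : Submodule O M} (hZ : Gs ρ Z) (hA : Gs ρ A) (le : Z ≤ A)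
    (ub : ∀ k, ∃ v ∈ A, p ^ k • v ∉ Z) :
    ∃ c, ∀ k d, (∀ v ∈ A, v ∈ Sd ρ p d → p ^ k • v ∈ Z) → d ≤ c * (k + 1) :=
  (fi hU hp h).rate p hZ.st hA.st le ub

end Vale.Agent.P004M.Ar
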