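import Mathlib

/-!
# P004M: filtered torsion groups with almost commuting operators; the lemma of Artin and Rees
-/

set_option autoImplicit false
set_option linter.all false

noncomputable section

namespace Vale.Agent.P004M.Ar

/-- the values of characters -/
abbrev Ci : Type := AddCircle (1 : ℚ)

section chr

variable {A B : Type} [AddCommGroup A] [AddCommGroup B]

theorem ext (f : A →+ B) (ψ : A →+ Ci) (h : ∀ a, f a = 0 → ψ a = 0) :
    ∃ χ : B →+ Ci, ∀ a, χ (f a) = ψ a := by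
  obtain ⟨χ, e⟩ := (Module.Baer.of_divisible Ci).extension_property_addMonoidHom
    (QuotientAddGroup.kerLift f) (QuotientAddGroup.kerLift_injective f)
    (QuotientAddGroup.lift f.ker ψ h)
  exact ⟨χ, fun a => DFunLike.congr_fun e (a : A ⧸ f.ker)⟩

theorem sep (W : AddSubgroup A) {v : A} (hv : v ∉ W) :
    ∃ ψ : A →+ Ci, (∀ a ∈ W, ψ a = 0) ∧ ψ v ≠ 0 := by
  obtain ⟨c, hc⟩ := CharacterModule.exists_character_apply_ne_zero_of_ne_zero
    (a := (v : A ⧸ W)) (mt (QuotientAddGroup.eq_zero_iff v).1 hv)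
  exact ⟨(show A ⧸ W →+ Ci from c).comp (QuotientAddGroup.mk' W), fun a ha =>
    (congrArg c ((QuotientAddGroup.eq_zero_iff a).2 ha)).trans (map_zero c), hc⟩

theorem split {ι : Type} [Fintype ι] (f : ι → A →+ B) (ψ : A →+ Ci)
    (h : ∀ a, (∀ i, f i a = 0) → ψ a = 0) : ∃ χ : ι → B →+ Ci, ψ = ∑ i, (χ i).comp (f i) := by
  classical
  obtain ⟨χ, e⟩ := ext (AddMonoidHom.pi f) ψ fun a ha => h a fun i => congrFun ha i
  refine ⟨fun i => χ.comp (AddMonoidHom.single (fun _ => B) i), AddMonoidHom.ext fun a => ?_⟩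
  rw [← e, ← Finset.univ_sum_single (AddMonoidHom.pi f a), map_sum, AddMonoidHom.finset_sum_apply]
  rfl

theorem fin_chr [Finite A] : Finite (A →+ Ci) := by
  haveI := (AddCircle.finite_torsion (1 : ℚ) (Nat.card_pos (α := A))).to_subtype
  exact Finite.of_injective (β := A → {u : Ci | Nat.card A • u = 0})
    (fun ψ a => ⟨ψ a, by rw [Set.mem_setOf_eq, ← map_nsmul, card_nsmul_eq_zero', map_zero]⟩)
    fun ψ ψ' e => AddMonoidHom.ext fun a => congrArg Subtype.val (congrFun e a)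

/-- the basis theorem -/
theorem noeth {ι : Type} [Finite ι] (x : ι → Module.End ℤ A) (hc : ∀ i j, x i * x j = x j * x i)
    {s : Set A} (hs : s.Finite)
    (hg : ∀ W : AddSubgroup A, (∀ i, ∀ a ∈ W, x i a ∈ W) → s ⊆ W → ∀ a, a ∈ W)
    (W : ℕ → AddSubgroup A) (hm : Monotone W) (hW : ∀ n i, ∀ a ∈ W n, x i a ∈ W n) :
    ∃ c, ∀ n, c ≤ n → W n ≤ W c := by
  let R := Algebra.adjoin ℤ (Set.range x)
  letI : CommRing R := Algebra.adjoinCommRingOfComm ℤ (by
    rintro _ ⟨i, rfl⟩ _ ⟨j, rfl⟩; exact hc i j)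
  haveI : Algebra.FiniteType ℤ R := (Subalgebra.fg_iff_finiteType _).1
    (Subalgebra.fg_def.2 ⟨_, Set.finite_range x, rfl⟩)
  haveI : IsNoetherianRing R := Algebra.FiniteType.isNoetherianRing ℤ R
  haveI : Module.Finite R A := ⟨Submodule.fg_def.2 ⟨s, hs, eq_top_iff.2 fun a _ =>
    hg (Submodule.span R s).toAddSubgroup (fun i a ha => (Submodule.span R s).smul_mem
      ⟨x i, Algebra.subset_adjoin ⟨i, rfl⟩⟩ ha) Submodule.subset_span a⟩⟩
  let V : ℕ →o Submodule R A := ⟨fun n => { (W n).toAddSubmonoid with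
    smul_mem' := fun r a ha => by
      obtain ⟨r, hr⟩ := r
      show r a ∈ W n
      induction hr using Algebra.adjoin_induction generalizing a with
      | mem y h => obtain ⟨i, rfl⟩ := h; exact hW n i a ha
      | algebraMap r => exact (W n).zsmul_mem ha r
      | add y z _ _ h1 h2 => exact (W n).add_mem (h1 a ha) (h2 a ha)
      | mul y z _ _ h1 h2 => exact h1 _ (h2 a ha) }, fun a b h => hm h⟩
  obtain ⟨c, h⟩ := monotone_stabilizes_iff_noetherian.2 (inferInstance : IsNoetherian R A) V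
  exact ⟨c, fun n hn a ha => (h n hn).ge ha⟩

end chr

variable {Q ι : Type} [AddCommGroup Q] (u : ι → Q →+ Q)

/-- the filtration relative to `K` -/
def Rl (K : AddSubgroup Q) : ℕ → AddSubgroup Q
  | 0 => K
  | e + 1 => ⨅ i, (Rl K e).comap (u i)

/-- stable subgroups -/
def St (K : AddSubgroup Q) : Prop := ∀ i, ∀ v ∈ K, u i v ∈ K

variable {u} {K K' : AddSubgroup Q} {S : ℕ → AddSubgroup Q}

theorem mem_Rl {e : ℕ} {v : Q} : v ∈ Rl u K (e + 1) ↔ ∀ i, u i v ∈ Rl u K e :=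
  AddSubgroup.mem_iInf

variable (u S) in
/-- admissible filtrations -/
structure Fi : Prop where
  zero : ∀ v ∈ S 0, v = 0
  succ : ∀ d v, v ∈ S (d + 1) ↔ ∀ i, u i v ∈ S d
  com : ∀ d i j, ∀ v ∈ S (d + 3), u i (u j v) - u j (u i v) ∈ S d
  fin : (S 1 : Set Q).Finite
  ex : ∀ v, ∃ d, v ∈ S d

namespace Fi

variable (h : Fi u S)

include h

theorem le : ∀ d, S d ≤ S (d + 1)
  | 0 => fun v hv => h.zero v hv ▸ zero_mem _
  | d + 1 => fun v hv => (h.succ _ v).2 fun i => le d ((h.succ _ v).1 hv i)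

theorem mono : Monotone S := monotone_nat_of_le_succ h.le

/-- the lowering operators -/
def lw (i : ι) (d : ℕ) : S (d + 2) →+ S (d + 1) :=
  ((u i).comp (S (d + 2)).subtype).codRestrict _ fun v => (h.succ _ _).1 v.2 i

/-- the shifts -/
def sh (i : ι) : (∀ d, S (d + 1) →+ Ci) →+ ∀ d, S (d + 1) →+ Ci where
  toFun ψ d := match d with
    | 0 => 0
    | d + 1 => (ψ d).comp (h.lw i d)
  map_zero' := funext fun d => by cases d <;> rfl
  map_add' _ _ := funext fun d => by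
    cases d
    · exact (add_zero _).symm
    · rfl

omit h in
variable (S) in
/-- the graded dual -/
def gd : AddSubgroup (∀ d, S (d + 1) →+ Ci) where
  carrier := {ψ | (∀ d (v : S (d + 1)), v.1 ∈ S d → ψ d v = 0) ∧ ∃ n, ∀ d, n ≤ d → ψ d = 0}
  zero_mem' := ⟨fun _ _ _ => rfl, 0, fun _ _ => rfl⟩
  add_mem' := by
    rintro a b ⟨h1, n, h2⟩ ⟨h3, m, h4⟩
    exact ⟨fun d v hv => by simp [h1 d v hv, h3 d v hv], max n m, fun d hd => by
      simp [h2 d (le_of_max_le_left hd), h4 d (le_of_max_le_right hd)]⟩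
  neg_mem' := by
    rintro a ⟨h1, n, h2⟩
    exact ⟨fun d v hv => by simp [h1 d v hv], n, fun d hd => by simp [h2 d hd]⟩

theorem sh_mem (i : ι) {ψ : ∀ d, S (d + 1) →+ Ci} (hψ : ψ ∈ gd S) : h.sh i ψ ∈ gd S := by
  obtain ⟨h1, n, h2⟩ := hψ
  refine ⟨fun d v hv => ?_, n + 1, fun d hd => ?_⟩
  · cases d
    · rfl
    · exact h1 _ _ ((h.succ _ _).1 hv i)
  · cases d
    · rfl
    · show (ψ _).comp _ = 0
      rw [h2 _ (by omega), AddMonoidHom.zero_comp]

omit h in
theorem sg_mem (d : ℕ) {φ : S (d + 1) →+ Ci} (hφ : ∀ v, v.1 ∈ S d → φ v = 0) :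
    (Pi.single d φ : ∀ d, S (d + 1) →+ Ci) ∈ gd S := by
  refine ⟨fun e v hv => ?_, d + 1, fun e he => Pi.single_eq_of_ne (by omega) _⟩
  rcases eq_or_ne e d with rfl | k
  · rw [Pi.single_eq_same]; exact hφ v hv
  · rw [Pi.single_eq_of_ne k]; rfl

theorem sh_sg (i : ι) (d : ℕ) (φ : S (d + 1) →+ Ci) :
    h.sh i (Pi.single d φ) = Pi.single (d + 1) (φ.comp (h.lw i d)) := funext fun e => by
  cases e with
  | zero => exact (Pi.single_eq_of_ne (M := fun d => S (d + 1) →+ Ci) (Nat.succ_ne_zero d).symm _).symm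
  | succ e =>
    show AddMonoidHom.comp (Pi.single (M := fun d => S (d + 1) →+ Ci) d φ e) _ = _
    rcases eq_or_ne e d with rfl | k
    · rw [Pi.single_eq_same, Pi.single_eq_same]
    · rw [Pi.single_eq_of_ne k, Pi.single_eq_of_ne (by omega), AddMonoidHom.zero_comp]

/-- the shifts on the graded dual -/
def sx (i : ι) : Module.End ℤ (gd S) :=
  (((h.sh i).comp (gd S).subtype).codRestrict _ fun ψ => h.sh_mem i ψ.2).toIntLinearMap

variable [Finite ι]

/-- descending chains of graded subgroups -/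
theorem gdc (W : ℕ → ℕ → AddSubgroup Q) (h1 : ∀ n d, S d ≤ W n d) (h2 : ∀ n d, W n d ≤ S (d + 1))
    (h3 : ∀ n d, W (n + 1) d ≤ W n d) (h4 : ∀ n d i, ∀ v ∈ W n (d + 1), u i v ∈ W n d) :
    ∃ c, ∀ n, c ≤ n → ∀ d, W c d ≤ W n d := by
  classical
  haveI := Fintype.ofFinite ι
  haveI : Finite (S (0 + 1)) := h.fin.to_subtype
  haveI := fin_chr (A := S (0 + 1))
  obtain ⟨c, hc⟩ := noeth h.sx (fun i j => LinearMap.ext fun ψ => Subtype.ext (funext fun d => by
      match d with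
      | 0 => rfl
      | 1 => rfl
      | d + 2 =>
        refine AddMonoidHom.ext fun v => sub_eq_zero.1 ?_
        exact (map_sub (ψ.1 d) _ _).symm.trans (ψ.2.1 d _ (h.com d j i v v.2))))
    (Set.finite_range fun φ : S (0 + 1) →+ Ci => (⟨Pi.single 0 φ, sg_mem 0 fun v hv =>
      (congrArg φ (Subtype.ext (h.zero v hv))).trans (map_zero φ)⟩ : gd S))
    (fun V k1 k2 ψ => by
      have k3 : ∀ d (φ : S (d + 1) →+ Ci) hφ, ⟨Pi.single d φ, sg_mem d hφ⟩ ∈ V := fun d => by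
        induction d with
        | zero => exact fun φ _ => k2 ⟨φ, rfl⟩
        | succ d ih =>
          intro φ hφ
          obtain ⟨χ, e⟩ := split (fun i => (QuotientAddGroup.mk'
            ((S d).addSubgroupOf (S (d + 1)))).comp (h.lw i d)) φ fun v hv => hφ v
              ((h.succ _ _).2 fun i => (QuotientAddGroup.eq_zero_iff (h.lw i d v)).1 (hv i))
          convert sum_mem fun i (_ : i ∈ Finset.univ) => k1 i _ (ih ((χ i).comp
            (QuotientAddGroup.mk' _)) fun v hv => (congrArg (χ i)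
              ((QuotientAddGroup.eq_zero_iff v).2 hv)).trans (map_zero _)) using 1
          refine Subtype.ext ?_
          rw [AddSubgroup.val_finset_sum]
          show Pi.single (d + 1) φ = ∑ i, h.sh i (Pi.single d _)
          simp only [sh_sg]
          rw [e]
          exact map_sum (AddMonoidHom.single (fun d => S (d + 1) →+ Ci) (d + 1)) _ _
      obtain ⟨n, hn⟩ := ψ.2.2
      convert sum_mem fun d (_ : d ∈ Finset.range n) => k3 d (ψ.1 d) (ψ.2.1 d) using 1
      refine Subtype.ext (funext fun d => ?_)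
      rw [AddSubgroup.val_finset_sum, Finset.sum_apply, Finset.sum_eq_single d
        (fun b _ k => Pi.single_eq_of_ne' k _) fun k =>
          (Pi.single_eq_same (M := fun d => S (d + 1) →+ Ci) d _).trans (hn d (by simpa using k))]
      exact (Pi.single_eq_same (M := fun d => S (d + 1) →+ Ci) d _).symm)
    (fun n => ⨅ d, ⨅ v : S (d + 1), ⨅ _ : v.1 ∈ W n d, ((AddMonoidHom.eval v).comp
      ((Pi.evalAddMonoidHom (fun d => S (d + 1) →+ Ci) d).comp (gd S).subtype)).ker)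
    (monotone_nat_of_le_succ fun n => iInf_mono fun d => iInf_mono fun v =>
      iInf_mono' fun k => ⟨h3 n d k, le_rfl⟩)
    fun n i ψ k => by
      simp only [AddSubgroup.mem_iInf] at k ⊢
      intro d v hv
      cases d
      · rfl
      · exact k _ (h.lw i _ v) (h4 n _ i v hv)
  refine ⟨c, fun n hn d v hv => by_contra fun k => ?_⟩
  obtain ⟨φ, k1, k2⟩ := sep (W n d) k
  have := hc n hn (x := ⟨Pi.single d (φ.comp (S (d + 1)).subtype), sg_mem d fun v hv =>
    k1 _ (h1 n d hv)⟩) (by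
      simp only [AddSubgroup.mem_iInf]
      intro e w hw
      show (Pi.single (M := fun d => S (d + 1) →+ Ci) d _ e) w = 0
      rcases eq_or_ne e d with rfl | k
      · rw [Pi.single_eq_same]; exact k1 _ hw
      · rw [Pi.single_eq_of_ne k]; rfl)
  simp only [AddSubgroup.mem_iInf] at this
  have k3 : (Pi.single (M := fun d => S (d + 1) →+ Ci) d _ d) _ = 0 := this d ⟨v, h2 c d hv⟩ hv
  rw [Pi.single_eq_same] at k3
  exact k2 k3

/-- descending chains of stable subgroups -/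
theorem dcc (A : ℕ → AddSubgroup Q) (h1 : ∀ n, A (n + 1) ≤ A n) (h2 : ∀ n, St u (A n)) :
    ∃ c, A c ≤ A (c + 1) := by
  obtain ⟨c, hc⟩ := h.gdc (fun n d => A n ⊓ S (d + 1) ⊔ S d) (fun _ _ => le_sup_right)
    (fun _ d => sup_le inf_le_right (h.le d))
    (fun n _ => sup_le_sup_right (inf_le_inf_right _ (h1 n)) _) fun n d i v hv => by
      obtain ⟨a, ha, s, hs, rfl⟩ := AddSubgroup.mem_sup.1 hv
      rw [map_add]
      exact add_mem (AddSubgroup.mem_sup_left ⟨h2 n i a ha.1, (h.succ _ _).1 ha.2 i⟩)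
        (AddSubgroup.mem_sup_right ((h.succ _ _).1 hs i))
  refine ⟨c, fun v hv => ?_⟩
  obtain ⟨d, hd⟩ := h.ex v
  induction d generalizing v with
  | zero => exact h.zero v hd ▸ zero_mem _
  | succ d ih =>
    obtain ⟨a, ha, s, hs, rfl⟩ := AddSubgroup.mem_sup.1
      (hc _ c.le_succ d (AddSubgroup.mem_sup_left ⟨hv, hd⟩))
    exact add_mem ha.1 (ih _ ((add_mem_cancel_left (h1 c ha.1)).1 hv) hs)

omit h [Finite ι] in
variable (u S K) in
/-- the chain for the lemma of Artin and Rees -/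
def ch (n : ℕ) : ℕ → AddSubgroup Q
  | 0 => (S 0 ⊔ K) ⊓ S 1
  | d + 1 => (if d < n then S (d + 1) ⊔ K else ⨅ i, (ch n d).comap (u i)) ⊓ S (d + 2)

omit h [Finite ι] in
theorem ch_eq {n : ℕ} : ∀ {d}, d ≤ n → ch u K S n d = (S d ⊔ K) ⊓ S (d + 1)
  | 0, _ => rfl
  | d + 1, k => by rw [ch, if_pos (by omega)]

omit [Finite ι] in
theorem st_sup (hK : St u K) (d : ℕ) (i : ι) {v : Q} (hv : v ∈ S (d + 1) ⊔ K) :
    u i v ∈ S d ⊔ K := by
  obtain ⟨a, ha, s, hs, rfl⟩ := AddSubgroup.mem_sup.1 hv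
  rw [map_add]
  exact add_mem (AddSubgroup.mem_sup_left ((h.succ _ _).1 ha i))
    (AddSubgroup.mem_sup_right (hK i s hs))

omit [Finite ι] in
theorem le_ch (hK : St u K) (n : ℕ) : ∀ d, (S d ⊔ K) ⊓ S (d + 1) ≤ ch u K S n d
  | 0 => le_rfl
  | d + 1 => by
    rw [ch]
    split_ifs
    · exact le_rfl
    · exact fun v hv => ⟨AddSubgroup.mem_iInf.2 fun i => le_ch hK n d
        ⟨h.st_sup hK d i hv.1, (h.succ _ _).1 hv.2 i⟩, hv.2⟩

omit h [Finite ι] in
theorem ch_le (n : ℕ) : ∀ d, ch u K S n d ≤ S (d + 1)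
  | 0 => inf_le_right
  | _ + 1 => inf_le_right

/-- **the lemma of Artin and Rees** -/
theorem ar (hK : St u K) : ∃ c, ∀ e, Rl u K e ≤ S (e + c) ⊔ K := by
  obtain ⟨c, hc⟩ := h.gdc (ch u K S)
    (fun n d => (le_inf le_sup_left (h.le d)).trans (h.le_ch hK n d)) ch_le
    (fun n d => by
      induction d with
      | zero => exact le_rfl
      | succ d ih =>
        by_cases k : d < n + 1
        · exact (ch_eq k).le.trans (h.le_ch hK n _)
        · rw [ch, ch, if_neg k, if_neg (by omega)]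
          exact inf_le_inf_right _ (iInf_mono fun i => AddSubgroup.comap_mono ih))
    fun n d i v hv => by
      by_cases k : d < n
      · rw [ch_eq k] at hv
        exact h.le_ch hK n d ⟨h.st_sup hK d i hv.1, (h.succ _ _).1 hv.2 i⟩
      · rw [ch, if_neg k] at hv
        exact AddSubgroup.mem_iInf.1 hv.1 i
  have key : ∀ d, c ≤ d → ∀ v ∈ S (d + 2), (∀ i, u i v ∈ S d ⊔ K) → v ∈ S (d + 1) ⊔ K := by
    intro d hd v hv k
    have k1 : ∀ n, c ≤ n → ∀ e, ch u K S n e ≤ ch u K S c e := fun n hn e => by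
      induction e with
      | zero => exact le_rfl
      | succ e ih =>
        by_cases k : e < n
        · exact (ch_eq k).le.trans (h.le_ch hK c _)
        · rw [ch, ch, if_neg k, if_neg (by omega)]
          exact inf_le_inf_right _ (iInf_mono fun i => AddSubgroup.comap_mono ih)
    have k2 : v ∈ ch u K S d (d + 1) := by
      rw [ch, if_neg (lt_irrefl d)]
      exact ⟨AddSubgroup.mem_iInf.2 fun i =>
        h.le_ch hK d d ⟨k i, (h.succ _ _).1 hv i⟩, hv⟩
    exact ((ch_eq le_rfl).le (hc (d + 1) (by omega) _ (k1 d hd _ k2))).1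
  refine ⟨c, fun e => ?_⟩
  induction e with
  | zero => exact le_sup_right
  | succ e ih =>
    intro v hv
    obtain ⟨d, hd⟩ := h.ex v
    replace hd : v ∈ S (e + 1 + c + d) ⊔ K :=
      AddSubgroup.mem_sup_left (h.mono (by omega) hd)
    induction d with
    | zero => exact hd
    | succ d id =>
      obtain ⟨s, hs, k, hk, e1⟩ := AddSubgroup.mem_sup.1 hd
      refine id ?_
      rw [← e1, show e + 1 + c + d = e + c + d + 1 by omega]
      refine add_mem (key _ (by omega) s (by convert hs using 2; omega) fun i => ?_)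
        (AddSubgroup.mem_sup_right hk)
      rw [eq_sub_of_add_eq e1, map_sub]
      exact sub_mem (sup_le_sup_right (h.mono (by omega)) _ (ih (mem_Rl.1 hv i)))
        (AddSubgroup.mem_sup_right (hK i k hk))

/-- **the rate** -/
theorem rate (p : ℕ) {Z A : AddSubgroup Q} (hZ : St u Z) (hA : St u A) (le : Z ≤ A)
    (ub : ∀ k, ∃ v ∈ A, p ^ k • v ∉ Z) :
    ∃ c, ∀ k d, (∀ v ∈ A, v ∈ S d → p ^ k • v ∈ Z) → d ≤ c * (k + 1) := by
  let D : ℕ → AddSubgroup Q := fun n => A.map (nsmulAddMonoidHom (p ^ n)) ⊔ Z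
  have m : ∀ n v, v ∈ D n ↔ ∃ a ∈ A, v - p ^ n • a ∈ Z := fun n v =>
    ⟨fun k => by
      obtain ⟨_, ⟨a, ha, rfl⟩, z, hz, rfl⟩ := AddSubgroup.mem_sup.1 k
      exact ⟨a, ha, by simpa using hz⟩,
    fun ⟨a, ha, hz⟩ => AddSubgroup.mem_sup.2 ⟨_, ⟨a, ha, rfl⟩, _, hz, add_sub_cancel _ _⟩⟩
  have s : ∀ n, St u (D n) := fun n i v hv => by
    obtain ⟨a, ha, hz⟩ := (m n v).1 hv
    exact (m n _).2 ⟨_, hA i a ha, by rw [← map_nsmul, ← map_sub]; exact hZ i _ hz⟩
  obtain ⟨n, hn⟩ := h.dcc D (fun n v hv => by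
    obtain ⟨a, ha, hz⟩ := (m _ v).1 hv
    exact (m n _).2 ⟨p • a, A.nsmul_mem ha p, by rwa [← mul_nsmul', ← pow_succ]⟩) s
  have dA : D n ≤ A := fun v hv => by
    obtain ⟨a, ha, hz⟩ := (m _ v).1 hv
    exact (sub_mem_comm_iff.1 (le hz) |> fun k => by
      simpa using sub_mem (A.nsmul_mem ha (p ^ n)) k)
  have zD : Z ≤ D n := le_sup_right
  obtain ⟨c, hc⟩ := h.ar (K := D n ⊓ Z.comap (nsmulAddMonoidHom p)) fun i v hv =>
    ⟨s n i v hv.1, show p • u i v ∈ Z by rw [← map_nsmul]; exact hZ i _ hv.2⟩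
  have k1 : ∀ e, ∀ y ∈ D n, p • y ∈ S e ⊔ Z →
      y ∈ Rl u (D n ⊓ Z.comap (nsmulAddMonoidHom p)) e := fun e => by
    induction e with
    | zero =>
      intro y hy k
      obtain ⟨a, ha, z, hz, e⟩ := AddSubgroup.mem_sup.1 k
      exact ⟨hy, show p • y ∈ Z by rwa [← e, h.zero a ha, zero_add]⟩
    | succ e ih =>
      exact fun y hy k => mem_Rl.2 fun i => ih _ (s n i y hy)
        (by rw [← map_nsmul]; exact h.st_sup hZ e i k)
  have k2 : ∀ e, ∀ y ∈ D n, y ∈ S e → ∃ x ∈ D n, x ∈ S (e + c) ∧ y - p • x ∈ Z := by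
    intro e y hy hs
    obtain ⟨a, ha, hz⟩ := (m _ y).1 (hn hy)
    rw [pow_succ', mul_nsmul'] at hz
    have k3 : p ^ n • a ∈ D n := (m n _).2 ⟨a, ha, by simp⟩
    obtain ⟨x, hx, z, k4, e1⟩ := AddSubgroup.mem_sup.1 (hc e (k1 e _ k3 (AddSubgroup.mem_sup.2
      ⟨y, hs, _, neg_mem hz, by abel⟩)))
    refine ⟨x, ((D n).add_mem_cancel_right k4.1).1 (e1 ▸ k3), hx, ?_⟩
    rw [← e1, nsmul_add] at hz
    convert add_mem hz (show p • z ∈ Z from k4.2) using 1
    abel
  obtain ⟨a, ha, hy⟩ := ub n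
  obtain ⟨e, he⟩ := h.ex (p ^ n • a)
  have k3 : ∀ k, ∃ x ∈ D n, x ∈ S (e + c * k) ∧ p ^ n • a - p ^ k • x ∈ Z := fun k => by
    induction k with
    | zero => exact ⟨_, (m n _).2 ⟨a, ha, by simp⟩, he, by simp⟩
    | succ k ih =>
      obtain ⟨x, h1, h2, h3⟩ := ih
      obtain ⟨y, h4, h5, h6⟩ := k2 _ x h1 h2
      refine ⟨y, h4, by rwa [mul_add, mul_one, ← add_assoc], ?_⟩
      convert add_mem h3 (Z.nsmul_mem h6 (p ^ k)) using 1
      rw [nsmul_sub, pow_succ, mul_nsmul']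
      abel
  refine ⟨e + c, fun k d hd => by_contra fun k4 => hy ?_⟩
  obtain ⟨x, h1, h2, h3⟩ := k3 k
  simpa using add_mem h3 (hd x (dA h1) (h.mono (by nlinarith) h2))

end Fi

end Vale.Agent.P004M.Ar
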