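import Vale.Agent.P004M.J0

/-!
# P004M: congruence subgroups of the units of an order are uniform
-/

set_option autoImplicit false
set_option linter.all false

noncomputable section

namespace Vale.Agent.P004M.J0

open Vale.Agent.P022K.Iw (Uo)

variable {O ι : Type} [Ring O] {p c : ℕ}

variable (O) in
/-- the units congruent to one modulo `c` -/
def Cg (c : ℕ) : Subgroup Oˣ where
  carrier := {g | ∃ x : O, g.val = 1 + c • x}
  one_mem' := ⟨0, by simp⟩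
  mul_mem' := fun ⟨x, h⟩ ⟨y, k⟩ => ⟨x + y + c • (x * y), by
    rw [Units.val_mul, h, k]; simp only [smul_add, add_mul, mul_add, smul_mul_smul_comm, mul_smul,
      one_mul, mul_one]; abel⟩
  inv_mem' := fun {g} ⟨x, h⟩ => ⟨-(↑g⁻¹ * x), by
    rw [smul_neg, ← mul_smul_comm, ← sub_eq_iff_eq_add'.2 h, mul_sub]
    simp⟩

theorem pow_lin (c : ℕ) (z : O) : ∀ n : ℕ, ∃ w, (1 + c • z) ^ n = 1 + (c * n) • z + (c * c) • w
  | 0 => ⟨0, by simp⟩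
  | n + 1 => by
    obtain ⟨w, h⟩ := pow_lin c z n
    refine ⟨w + n • (z * z) + c • (w * z), ?_⟩
    rw [pow_succ, h]
    simp only [add_mul, mul_add, smul_mul_smul_comm, one_mul, mul_one]
    module

theorem pow_lg (hc : p ^ 2 ∣ c) (x : O) :
    ∀ j, ∃ y, (1 + c • x) ^ p ^ j = 1 + (c * p ^ j) • (x + p • y)
  | 0 => ⟨0, by simp⟩
  | j + 1 => by
    obtain ⟨y, h⟩ := pow_lg hc x j
    obtain ⟨w, k⟩ := pow_lin (c * p ^ j) (x + p • y) p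
    obtain ⟨b, rfl⟩ := hc
    exact ⟨y + (b * p ^ j) • w, by rw [pow_succ p j, pow_mul, h, k]; module⟩

theorem cg_quo {g h : Oˣ} {x w : O} (e : g.val = 1 + c • x) (e' : h.val = 1 + c • (x + p • w)) :
    g⁻¹ * h ∈ Cg O (c * p) := ⟨↑g⁻¹ * w, by
  rw [Units.val_mul, e', smul_add, ← add_assoc, ← e, mul_add, Units.inv_mul, smul_smul,
    mul_smul_comm]⟩

variable (O p c) in
/-- the filtration -/
def NC (j : ℕ) : Subgroup (Cg O c) := (Cg O (c * p ^ j)).subgroupOf _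

/-- the generators -/
def gC (un : ∀ x : O, IsUnit (1 + c • x)) (x : O) : Cg O c := ⟨(un x).unit, x, rfl⟩

theorem uo_C (hp : p ≠ 0) (h0 : c ≠ 0) (hc : p ^ 2 ∣ c) (un : ∀ x : O, IsUnit (1 + c • x))
    (tf : ∀ (n : ℕ) (x : O), n ≠ 0 → n • x = 0 → x = 0) (e : ι → O)
    (ge : ∀ T : AddSubmonoid O, (∀ i, e i ∈ T) → (∀ y, p • y ∈ T) → ∀ x, x ∈ T)
    (se : ∀ i, ∃ K : AddSubgroup O, (∀ y, p • y ∈ K) ∧ (∀ k, k ≠ i → e k ∈ K) ∧ e i ∉ K) :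
    Uo p (fun i => gC un (e i)) (NC O p c) := by
  have pw : ∀ x j, ∃ y, ((gC un x ^ p ^ j : Cg O c).1 : O) = 1 + (c * p ^ j) • (x + p • y) :=
    fun x j => by simpa [gC] using pow_lg hc x j
  obtain ⟨b, hb⟩ := hc
  have mu : ∀ j (γ δ : Cg O c) (x y : O), (γ.1 : O) = 1 + (c * p ^ j) • x →
      (δ.1 : O) = 1 + (c * p ^ j) • y → ∃ w, ((γ * δ).1 : O) = 1 + (c * p ^ j) • (x + y + p • w) :=
    fun j γ δ x y h k => ⟨(b * p * p ^ j) • (x * y), by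
      rw [Subgroup.coe_mul, Units.val_mul, h, k, hb]
      simp only [add_mul, mul_add, smul_mul_smul_comm, one_mul, mul_one]
      module⟩
  have qu : ∀ j (γ δ : Cg O c) (x w : O), (γ.1 : O) = 1 + (c * p ^ j) • x →
      (δ.1 : O) = 1 + (c * p ^ j) • (x + p • w) → γ⁻¹ * δ ∈ NC O p c (j + 1) :=
    fun j γ δ x w h k => by
      rw [NC, pow_succ, ← mul_assoc]; exact cg_quo h k
  refine ⟨fun j => ⟨fun γ ⟨x, h⟩ δ => ⟨δ.1 * x * ↑δ.1⁻¹, ?_⟩⟩, fun γ => ?_,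
    fun j γ ⟨x, h⟩ => ⟨p • x, ?_⟩, fun i j => (pw (e i) j).elim fun y h => ⟨_, h⟩,
    fun j S h1 h2 γ ⟨x, h⟩ => ?_, fun j γ δ ⟨y, h⟩ => ?_, fun j i => ?_⟩
  · simp [show (γ.1 : O) = _ from h, mul_add, add_mul, -nsmul_eq_mul]
  · simpa [NC, Subgroup.mem_subgroupOf] using γ.2
  · rw [smul_smul, mul_assoc, ← pow_succ]; exact h
  · have k : ∀ γ δ : Cg O c, γ ∈ S → γ⁻¹ * δ ∈ NC O p c (j + 1) → δ ∈ S := fun γ δ k k' => by
      simpa using mul_mem k (h2 k')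
    refine ge ⟨⟨{x | ∀ γ : Cg O c, (γ.1 : O) = 1 + (c * p ^ j) • x → γ ∈ S},
      fun {x y} hx hy γ h => ?_⟩, fun γ h => k 1 γ S.one_mem (qu j 1 γ 0 0 (by simp) (by simpa using h))⟩
      (fun i γ h => ?_) (fun y γ h => k 1 γ S.one_mem (qu j 1 γ 0 y (by simp) (by simpa using h))) x γ h
    · have k1 : ∀ x, ((gC un (p ^ j • x)).1 : O) = 1 + (c * p ^ j) • x := fun x => by
        rw [mul_smul]; rfl
      obtain ⟨w, hw⟩ := mu j _ _ _ _ (k1 x) (k1 y)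
      exact k _ γ (mul_mem (hx _ (k1 x)) (hy _ (k1 y))) (qu j _ γ _ (-w) hw (by simpa using h))
    · obtain ⟨w, hw⟩ := pw (e i) j
      exact k _ γ (h1 i) (qu j _ γ _ (-w) hw (by simpa using h))
  · obtain ⟨x, k⟩ := γ.2
    refine ⟨b • ((x * y - y * x) * ↑γ.1⁻¹ * ↑δ.1⁻¹), ?_⟩
    have k1 : (γ.1 : O) * δ.1 = δ.1 * γ.1 + (c * p ^ (j + 2)) • b • (x * y - y * x) := by
      rw [k, show (δ.1 : O) = _ from h, hb]
      simp only [add_mul, mul_add, smul_mul_smul_comm, one_mul, mul_one]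
      module
    show (γ.1 : O) * δ.1 * ↑γ.1⁻¹ * ↑δ.1⁻¹ = _
    rw [k1]
    simp [add_mul, -nsmul_eq_mul]
  · obtain ⟨K, k1, k2, k3⟩ := se i
    refine ⟨⟨⟨⟨{γ | ∃ x ∈ K, (γ.1 : O) = 1 + (c * p ^ j) • x}, fun ⟨x, hx, h⟩ ⟨y, hy, k⟩ => ?_⟩,
      0, zero_mem _, by simp⟩, fun {γ} ⟨x, hx, h⟩ => ?_⟩, fun γ ⟨x, h⟩ => ⟨p • x, k1 x, ?_⟩,
      fun k hk => (pw (e k) j).elim fun y h => ⟨_, add_mem (k2 k hk) (k1 y), h⟩,
      fun ⟨x, hx, h⟩ => k3 ?_⟩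
    · exact (mu j _ _ _ _ h k).elim fun w h => ⟨_, add_mem (add_mem hx hy) (k1 w), h⟩
    · obtain ⟨y, k⟩ := inv_mem (show γ ∈ NC O p c j from ⟨x, h⟩)
      obtain ⟨w, hw⟩ := mu j γ γ⁻¹ _ _ h k
      have := tf _ (x + y + p • w) (mul_ne_zero h0 (pow_ne_zero j hp)) (by simpa using hw.symm)
      exact ⟨y, by
        rw [show y = -x - p • w by rw [← sub_eq_zero, ← this]; abel]
        exact sub_mem (neg_mem hx) (k1 w), k⟩
    · rw [smul_smul, mul_assoc, ← pow_succ]; exact h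
    · obtain ⟨y, k⟩ := pw (e i) j
      have := tf _ (e i + p • y - x) (mul_ne_zero h0 (pow_ne_zero j hp)) (by
        rw [smul_sub, sub_eq_zero, ← add_right_inj 1, ← k, ← h])
      rw [show e i = x - p • y by rw [← sub_eq_zero, ← this]; abel]
      exact sub_mem hx (k1 y)

theorem cv_C {R M : Type} [CommRing R] [AddCommGroup M] [Module R M]
    {ρ : Representation R (Cg O c) M} {g : ι → Cg O c} (hU : Uo p g (NC O p c)) (hp : p.Prime)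
    (hc : p ∣ c) (un : ∀ x : O, IsUnit (1 + c • x)) (sm : ∀ v, ∃ t, ∀ γ ∈ NC O p c t, ρ γ v = v) :
    Cv ρ p c ((Units.coeHom O).comp (Cg O c).subtype) (MonoidHom.id O) :=
  ⟨hc, un, fun x => ⟨gC un x, rfl⟩, fun j γ x h => Ar.dg_N hU hp sm ⟨x, by rw [mul_smul]; exact h⟩⟩

end Vale.Agent.P004M.J0
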