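import Vale.Agent.P022K.F0.Wt

/-! # P004, block MOD, row HARM: forms in four variables, the determinant and harmonic forms -/

set_option autoImplicit false

open Polynomial
open scoped MatrixGroups

noncomputable section

namespace Vale.Agent.P004M.Harm

open Vale.Agent.P022K.Sh

variable {L R : Type} [Field L] [CharZero L] [CommRing R] [Algebra L R]

/-- the coefficients of a polynomial lie in the span of its values -/
theorem coeff_mem (W : Submodule L R) (p : R[X])
    (h : ∀ σ : L, p.eval (algebraMap L R σ) ∈ W) (j : ℕ) : p.coeff j ∈ W := by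
  rw [← Submodule.Quotient.mk_eq_zero, ← Module.forall_dual_apply_eq_zero_iff L]
  intro φ
  let ψ : R →ₗ[L] L := φ ∘ₗ W.mkQ
  have h1 : (∑ i ∈ p.support, monomial i (ψ (p.coeff i)) : L[X]) = 0 := by
    refine Polynomial.funext fun σ => ?_
    have h2 : ψ (p.eval (algebraMap L R σ)) = 0 := by
      simp only [ψ, LinearMap.comp_apply, Submodule.mkQ_apply,
        (Submodule.Quotient.mk_eq_zero _).2 (h σ), map_zero]
    rw [eval_eq_sum, Polynomial.sum, map_sum] at h2
    rw [eval_zero, eval_finsetSum, ← h2]
    refine Finset.sum_congr rfl fun i _ => ?_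
    rw [eval_monomial, ← map_pow, mul_comm (p.coeff i), ← Algebra.smul_def, map_smul, smul_eq_mul,
      mul_comm]
  have h3 := congrArg (fun q => coeff q j) h1
  simp only [finsetSum_coeff, coeff_monomial, Finset.sum_ite_eq', coeff_zero] at h3
  change ψ (p.coeff j) = 0
  split_ifs at h3 with h4
  · exact h3
  · rw [notMem_support_iff.1 h4, map_zero]

theorem coeff_lin_pow (a b : R) (n j : ℕ) :
    ((C a * X + C b) ^ n).coeff j = (n.choose j : R) * (a ^ j * b ^ (n - j)) := by
  rw [add_pow, finsetSum_coeff, Finset.sum_eq_single j]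
  · rw [mul_pow, ← C_pow, ← C_pow, ← C_eq_natCast, coeff_mul_C, coeff_mul_C, coeff_C_mul,
      coeff_X_pow, if_pos rfl]
    ring
  · intro i _ hi
    rw [mul_pow, ← C_pow, ← C_pow, ← C_eq_natCast, coeff_mul_C, coeff_mul_C, coeff_C_mul,
      coeff_X_pow, if_neg hi.symm]
    ring
  · intro hj
    rw [Nat.choose_eq_zero_of_lt (by simpa using hj)]
    simp

theorem mem_of_nat {W : Submodule L R} {k : ℕ} (hk : k ≠ 0) {x : R} (h : (k : R) * x ∈ W) :
    x ∈ W := by
  have := W.smul_mem ((k : L)⁻¹) h
  rwa [← map_natCast (algebraMap L R), ← Algebra.smul_def, smul_smul,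
    inv_mul_cancel₀ (Nat.cast_ne_zero.2 hk), one_smul] at this

variable (L) (a b c d : R)

/-- the span of the products of a power of the determinant and a power of a linear form of
rank one -/
def WW (n : ℕ) : Submodule L R := Submodule.span L
  {x | ∃ (r w : ℕ) (σ τ : L), 2 * r + w = n ∧ x = (a * d - b * c) ^ r *
    (algebraMap L R σ * (a * algebraMap L R τ + b) + (c * algebraMap L R τ + d)) ^ w}

variable {L a b c d}

omit [CharZero L] in
theorem det_mul {n : ℕ} {x : R} (h : x ∈ WW L a b c d n) :
    (a * d - b * c) * x ∈ WW L a b c d (n + 2) := by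
  induction h using Submodule.span_induction with
  | mem x h =>
    obtain ⟨r, w, σ, τ, e, rfl⟩ := h
    exact Submodule.subset_span ⟨r + 1, w, σ, τ, by omega, by ring⟩
  | zero => rw [mul_zero]; exact zero_mem _
  | add x y _ _ h1 h2 => rw [mul_add]; exact add_mem h1 h2
  | smul s x _ h1 => rw [mul_smul_comm]; exact Submodule.smul_mem _ _ h1

theorem coeff_WW {n j : ℕ} (hj : j ≤ n) (k : ℕ) :
    ((C a * X + C b) ^ j * (C c * X + C d) ^ (n - j)).coeff k ∈ WW L a b c d n := by
  refine coeff_mem _ _ (fun τ => ?_) k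
  have h1 := coeff_mem (WW L a b c d n)
    ((C (a * algebraMap L R τ + b) * X + C (c * algebraMap L R τ + d)) ^ n) (fun σ =>
      Submodule.subset_span ⟨0, n, σ, τ, by omega, by simp [mul_comm]⟩) j
  rw [coeff_lin_pow] at h1
  simpa using mem_of_nat (Nat.choose_pos hj).ne' h1

theorem mono_mem (n : ℕ) : ∀ p q r s : ℕ, p + q + r + s = n →
    a ^ p * b ^ q * c ^ r * d ^ s ∈ WW L a b c d n := by
  induction n using Nat.strong_induction_on with
  | _ n ih =>
    have st : ∀ e p q r s : ℕ, p + q + r + s + 2 * e = n →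
        a ^ (p + e) * b ^ q * c ^ r * d ^ (s + e) - a ^ p * b ^ (q + e) * c ^ (r + e) * d ^ s ∈
          WW L a b c d n := by
      intro e
      induction e with
      | zero => intro p q r s _; simp
      | succ e ih2 =>
        intro p q r s h
        have h1 := det_mul (ih (n - 2) (by omega) (p + e) q r (s + e) (by omega))
        rw [show n - 2 + 2 = n by omega] at h1
        have h2 := add_mem h1 (ih2 p (q + 1) (r + 1) s (by omega))
        convert h2 using 1
        ring
    have cg : ∀ p q r s p' q' r' s' : ℕ, p + q + r + s = n → p' + q' + r' + s' = n →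
        p + q = p' + q' → p + r = p' + r' →
        a ^ p * b ^ q * c ^ r * d ^ s - a ^ p' * b ^ q' * c ^ r' * d ^ s' ∈ WW L a b c d n := by
      intro p q r s p' q' r' s' h1 h2 h3 h4
      rcases le_total p p' with h | h
      · obtain ⟨e, rfl⟩ := Nat.exists_eq_add_of_le h
        obtain rfl : q = q' + e := by omega
        obtain rfl : r = r' + e := by omega
        obtain rfl : s' = s + e := by omega
        rw [← neg_mem_iff, neg_sub]
        exact st e p q' r' s (by omega)
      · obtain ⟨e, rfl⟩ := Nat.exists_eq_add_of_le h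
        obtain rfl : q' = q + e := by omega
        obtain rfl : r' = r + e := by omega
        obtain rfl : s = s' + e := by omega
        exact st e p' q r s' (by omega)
    intro p q r s h
    have h1 := coeff_WW (L := L) (a := a) (b := b) (c := c) (d := d) (n := n) (j := p + q)
      (by omega) (p + r)
    rw [coeff_mul, show n - (p + q) = r + s by omega] at h1
    simp only [coeff_lin_pow] at h1
    refine mem_of_nat (L := L) (k := (p + q + (r + s)).choose (p + r))
      (Nat.choose_pos (by omega)).ne' ?_
    rw [← Submodule.sub_mem_iff_left _ h1, Nat.add_choose_eq, Nat.cast_sum, Finset.sum_mul,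
      ← Finset.sum_sub_distrib]
    refine sum_mem fun x hx => ?_
    have h2 : x.1 + x.2 = p + r := by simpa using hx
    rcases Nat.lt_or_ge (p + q) x.1 with h3 | h3
    · simp [Nat.choose_eq_zero_of_lt h3]
    rcases Nat.lt_or_ge (r + s) x.2 with h4 | h4
    · simp [Nat.choose_eq_zero_of_lt h4]
    have h5 := (WW L a b c d n).smul_mem (((p + q).choose x.1 * (r + s).choose x.2 : ℕ) : L)
      (cg p q r s x.1 (p + q - x.1) x.2 (r + s - x.2) h (by omega) (by omega) (by omega))
    rw [Algebra.smul_def, map_natCast] at h5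
    convert h5 using 1
    push_cast
    ring

theorem pow_le (n : ℕ) : (Submodule.span L {a, b, c, d}) ^ n ≤ WW L a b c d n := by
  have h : ∀ n, (Submodule.span L {a, b, c, d}) ^ n ≤ Submodule.span L
      {x | ∃ p q r s : ℕ, p + q + r + s = n ∧ x = a ^ p * b ^ q * c ^ r * d ^ s} := by
    intro n
    induction n with
    | zero =>
      rw [pow_zero, Submodule.one_le]
      exact Submodule.subset_span ⟨0, 0, 0, 0, rfl, by simp⟩
    | succ n ih =>
      rw [pow_succ]
      refine (mul_le_mul_left ih _).trans ?_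
      rw [Submodule.span_mul_span, Submodule.span_le]
      rintro _ ⟨_, ⟨p, q, r, s, e, rfl⟩, y, hy, rfl⟩
      refine Submodule.subset_span ?_
      rcases hy with rfl | rfl | rfl | rfl
      · exact ⟨p + 1, q, r, s, by omega, by ring⟩
      · exact ⟨p, q + 1, r, s, by omega, by ring⟩
      · exact ⟨p, q, r + 1, s, by omega, by ring⟩
      · exact ⟨p, q, r, s + 1, by omega, by ring⟩
  refine (h n).trans (Submodule.span_le.2 ?_)
  rintro _ ⟨p, q, r, s, e, rfl⟩
  exact mono_mem n p q r s e

/-- **HARM** -/
theorem harm {ι : Type} {x : ι → R} (hx : ∀ i, x i ∈ Submodule.span L {a, b, c, d})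
    {P : MvPolynomial ι L} {n : ℕ} (hP : P.IsHomogeneous n) :
    MvPolynomial.aeval x P ∈ WW L a b c d n := by
  refine pow_le n ?_
  rw [P.as_sum, map_sum]
  refine sum_mem fun s hs => ?_
  rw [MvPolynomial.aeval_monomial, ← Algebra.smul_def, hP.degree_eq_sum_deg_support hs,
    ← Finset.prod_pow_eq_pow_sum]
  refine Submodule.smul_mem _ _ ?_
  rw [Finsupp.prod]
  induction s.support using Finset.cons_induction with
  | empty => exact Submodule.one_le.1 le_rfl
  | cons i t hi ih =>
    rw [Finset.prod_cons, Finset.prod_cons]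
    exact Submodule.mul_mem_mul (Submodule.pow_mem_pow _ (hx i) _) ih

omit [CharZero L] in
theorem aeval_fun {X ι : Type} (x : X → ι → L) (P : MvPolynomial ι L) :
    MvPolynomial.aeval (fun i y => x y i) P = fun y => MvPolynomial.eval (x y) P := by
  funext y
  exact (MvPolynomial.comp_aeval_apply (fun i y => x y i) (Pi.evalAlgHom L (fun _ => L) y) P).trans
    (congrArg (fun φ : MvPolynomial ι L →+* L => φ P) (MvPolynomial.coe_aeval_eq_eval (x y)))

/-- **HARM** for the sum of four squares -/
theorem harmD {X : Type} {I : L} (hI : I ^ 2 = -1) (x : X → Fin 4 → L) {P : MvPolynomial (Fin 4) L}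
    {n : ℕ} (hP : P.IsHomogeneous n) : (fun y => MvPolynomial.eval (x y) P) ∈ Submodule.span L
      {f : X → L | ∃ (r w : ℕ) (ξ : Fin 4 → L), 2 * r + w = n ∧ ∑ i, ξ i ^ 2 = 0 ∧
        f = fun y => (∑ i, x y i ^ 2) ^ r * (∑ i, ξ i * x y i) ^ w} := by
  rw [← aeval_fun]
  refine Submodule.span_mono ?_ (harm (L := L) (a := fun y => x y 0 + I * x y 1)
    (b := fun y => x y 2 + I * x y 3) (c := fun y => -x y 2 + I * x y 3)
    (d := fun y => x y 0 - I * x y 1) (fun i => ?_) hP)
  · rintro _ ⟨r, w, σ, τ, e, rfl⟩
    refine ⟨r, w, ![σ * τ + 1, I * (σ * τ - 1), σ - τ, I * (σ + τ)], e, ?_, funext fun y => ?_⟩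
    · simp only [Fin.sum_univ_four, Matrix.cons_val]
      linear_combination ((σ * τ - 1) ^ 2 + (σ + τ) ^ 2) * hI
    · simp only [Fin.sum_univ_four, Matrix.cons_val, Pi.mul_apply, Pi.pow_apply, Pi.sub_apply,
        Pi.add_apply, Pi.algebraMap_apply, Algebra.algebraMap_self, RingHom.id_apply]
      congr 2
      · linear_combination (-x y 1 ^ 2 - x y 3 ^ 2) * hI
      · ring
  · have key : ∀ s t u v : L, (∀ y, x y i = s * (x y 0 + I * x y 1) + t * (x y 2 + I * x y 3) +
        u * (-x y 2 + I * x y 3) + v * (x y 0 - I * x y 1)) → (fun y => x y i) ∈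
        Submodule.span L {(fun y => x y 0 + I * x y 1 : X → L), fun y => x y 2 + I * x y 3,
          fun y => -x y 2 + I * x y 3, fun y => x y 0 - I * x y 1} := fun s t u v h => by
      rw [funext h]
      exact add_mem (add_mem (add_mem (Submodule.smul_mem _ s (Submodule.subset_span (by simp)))
        (Submodule.smul_mem _ t (Submodule.subset_span (by simp))))
        (Submodule.smul_mem _ u (Submodule.subset_span (by simp))))
        (Submodule.smul_mem _ v (Submodule.subset_span (by simp)))
    fin_cases i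
    · exact key (1 / 2) 0 0 (1 / 2) fun y => by simp; ring
    · exact key (-I / 2) 0 0 (I / 2) fun y => by simp; linear_combination x y 1 * hI
    · exact key 0 (1 / 2) (-1 / 2) 0 fun y => by simp; ring
    · exact key 0 (-I / 2) (-I / 2) 0 fun y => by simp; linear_combination x y 3 * hI

/-- **HARM** for matrices -/
theorem harmA {ι : Type} (co : ι → Matrix (Fin 2) (Fin 2) L →ₗ[L] L) {P : MvPolynomial ι L}
    {n : ℕ} (hP : P.IsHomogeneous (2 * n)) :
    ∃ A : ∀ m : ℕ, Matrix (Fin (2 * m + 1)) (Fin (2 * m + 1)) L, ∀ g : GL (Fin 2) L,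
      MvPolynomial.eval (fun i => co i g.val) P / g.val.det ^ n =
        ∑ m ∈ Finset.range (n + 1), (syd m g * A m).trace := by
  classical
  have h1 := harm (L := L) (R := GL (Fin 2) L → L) (a := fun g => g.val 0 0)
    (b := fun g => g.val 0 1) (c := fun g => g.val 1 0) (d := fun g => g.val 1 1)
    (x := fun i g => co i g.val) (fun i => by
      have e : (fun g : GL (Fin 2) L => co i g.val) =
          co i (Matrix.single 0 0 1) • (fun g => g.val 0 0) +
          co i (Matrix.single 0 1 1) • (fun g => g.val 0 1) +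
          co i (Matrix.single 1 0 1) • (fun g => g.val 1 0) +
          co i (Matrix.single 1 1 1) • (fun g => g.val 1 1) := by
        funext g
        simp only [Pi.add_apply, Pi.smul_apply, smul_eq_mul, mul_comm (co i _)]
        simp only [← smul_eq_mul, ← map_smul, ← map_add]
        congr 1
        ext j k
        fin_cases j <;> fin_cases k <;> simp
      rw [e]
      exact add_mem (add_mem (add_mem (Submodule.smul_mem _ _ (Submodule.subset_span (by simp)))
        (Submodule.smul_mem _ _ (Submodule.subset_span (by simp))))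
        (Submodule.smul_mem _ _ (Submodule.subset_span (by simp))))
        (Submodule.smul_mem _ _ (Submodule.subset_span (by simp)))) hP
  rw [aeval_fun] at h1
  suffices H : ∀ f ∈ WW L (fun g : GL (Fin 2) L => g.val 0 0) (fun g => g.val 0 1)
      (fun g => g.val 1 0) (fun g => g.val 1 1) (2 * n),
      ∃ A : ∀ m : ℕ, Matrix (Fin (2 * m + 1)) (Fin (2 * m + 1)) L, ∀ g : GL (Fin 2) L,
        f g / g.val.det ^ n = ∑ m ∈ Finset.range (n + 1), (syd m g * A m).trace from
    H _ h1
  intro f hf
  induction hf using Submodule.span_induction with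
  | mem x h =>
    obtain ⟨r, w, σ, τ, e, rfl⟩ := h
    obtain ⟨m, rfl⟩ : ∃ m, w = 2 * m := ⟨n - r, by omega⟩
    obtain rfl : n = r + m := by omega
    refine ⟨Function.update (fun _ => 0) m (Matrix.of fun k j =>
      τ ^ (k : ℕ) * (σ ^ (j : ℕ) * ((2 * m).choose j : L))), fun g => ?_⟩
    rw [Finset.sum_eq_single_of_mem m (Finset.mem_range.2 (by omega)) fun i _ hi => by
      rw [Function.update_of_ne hi, mul_zero, Matrix.trace_zero], Function.update_self]
    have d0 : g.val.det ≠ 0 := g.det.ne_zero
    have e1 : syd m g = (g.val.det ^ m)⁻¹ • sy (2 * m) g.val := by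
      change ((g.det⁻¹ ^ m : Lˣ) : L) • sy (2 * m) g.val = _
      rw [Units.val_pow_eq_pow_val, Units.val_inv_eq_inv_val, inv_pow]
      rfl
    rw [e1, Matrix.smul_mul, Matrix.trace_smul, smul_eq_mul]
    simp only [Pi.mul_apply, Pi.pow_apply, Pi.sub_apply, Pi.add_apply, Pi.algebraMap_apply,
      Algebra.algebraMap_self, RingHom.id_apply, ← Matrix.det_fin_two]
    rw [pow_add, mul_div_mul_left _ _ (pow_ne_zero _ d0), div_eq_inv_mul, add_pow,
      Finset.sum_range]
    congr 1
    refine Finset.sum_congr rfl fun j _ => ?_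
    have h3 := sum_mon (S := L) (2 * m) g.val j τ 1
    simp only [one_pow, mul_one, Algebra.algebraMap_self, RingHom.id_apply] at h3
    simp only [Matrix.diag_apply, Matrix.mul_apply, Matrix.of_apply, sy_apply, ← mul_assoc,
      ← Finset.sum_mul, h3]
    rw [mul_pow]
    ring
  | zero => exact ⟨0, fun g => by simp⟩
  | add x y _ _ h1 h2 =>
    obtain ⟨A, hA⟩ := h1
    obtain ⟨B, hB⟩ := h2
    refine ⟨A + B, fun g => ?_⟩
    simp only [Pi.add_apply, add_div, hA, hB, mul_add, Matrix.trace_add, Finset.sum_add_distrib]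
  | smul s x _ h1 =>
    obtain ⟨A, hA⟩ := h1
    refine ⟨fun m => s • A m, fun g => ?_⟩
    simp only [Pi.smul_apply, smul_eq_mul, mul_div_assoc, hA, Matrix.mul_smul, Matrix.trace_smul,
      Finset.mul_sum]

end Vale.Agent.P004M.Harm
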