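import Vale.Agent.P004M.Gk
import Vale.Agent.P022.H565.StG
import Vale.Agent.P022.H472.Lit

/-!
# P004M: an absolutely irreducible representation is not Eisenstein
-/

set_option autoImplicit false
set_option linter.all false

noncomputable section

namespace Vale.Agent.P004M

open Vale.Agent.P022 Vale.Agent.P022K Matrix

section lin

variable {F : Type} [Field F]

theorem line {m : Matrix (Fin 2) (Fin 2) F} {w w' : Fin 2 → F} (hm : m ≠ 0) (hw : w ≠ 0)
    (h : m *ᵥ w = 0) (h' : m *ᵥ w' = 0) : ∃ a : F, w' = a • w := by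
  have e : ∀ i, m i 0 * w 0 + m i 1 * w 1 = 0 := fun i => by
    simpa [mulVec, dotProduct, Fin.sum_univ_two] using congrFun h i
  have e' : ∀ i, m i 0 * w' 0 + m i 1 * w' 1 = 0 := fun i => by
    simpa [mulVec, dotProduct, Fin.sum_univ_two] using congrFun h' i
  have d : w 0 * w' 1 - w 1 * w' 0 = 0 := by
    by_contra d
    refine hm (Matrix.ext fun i => Fin.forall_fin_two.2 ⟨?_, ?_⟩) <;>
      refine mul_right_cancel₀ d ?_ <;> rw [Matrix.zero_apply]
    · linear_combination w' 1 * e i - w 1 * e' i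
    · linear_combination w 0 * e' i - w' 0 * e i
  by_cases h0 : w 0 = 0
  · have h1 : w 1 ≠ 0 := fun h1 => hw (funext (Fin.forall_fin_two.2 ⟨h0, h1⟩))
    refine ⟨w' 1 / w 1, funext (Fin.forall_fin_two.2 ⟨?_, ?_⟩)⟩ <;>
      rw [Pi.smul_apply, smul_eq_mul] <;> field_simp
    linear_combination -d
  · refine ⟨w' 0 / w 0, funext (Fin.forall_fin_two.2 ⟨?_, ?_⟩)⟩ <;>
      rw [Pi.smul_apply, smul_eq_mul] <;> field_simp
    linear_combination d

theorem anti {n n' : Matrix (Fin 2) (Fin 2) F} (h : n.trace = 0) (h' : n'.trace = 0) :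
    n * n' + n' * n = (n * n').trace • (1 : Matrix (Fin 2) (Fin 2) F) := by
  rw [trace_fin_two] at h h'
  have e : n 1 1 = -n 0 0 := by linear_combination h
  have e' : n' 1 1 = -n' 0 0 := by linear_combination h'
  ext i j
  fin_cases i <;> fin_cases j <;>
    simp [Matrix.mul_apply, Fin.sum_univ_two, trace_fin_two, e, e'] <;> ring

theorem sq_zero {u : Matrix (Fin 2) (Fin 2) F} (h : u.trace = 2) (h' : u.det = 1) :
    (u - 1).trace = 0 ∧ (u - 1).det = 0 ∧ (u - 1) * (u - 1) = 0 := by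
  rw [trace_fin_two] at h
  rw [det_fin_two] at h'
  have e : u 1 1 = 2 - u 0 0 := by linear_combination h
  rw [e] at h'
  refine ⟨by simp [trace_fin_two, e], by simp [det_fin_two, e]; linear_combination h', ?_⟩
  ext i j
  fin_cases i <;> fin_cases j <;> simp [Matrix.mul_apply, Fin.sum_univ_two, e]
  · linear_combination -h'
  · ring
  · ring
  · linear_combination -h'

/-- a commutator with trace different from two -/
theorem ex_comm [IsAlgClosed F] {Γ : Type} [Group Γ] (ρ : Γ →* Matrix (Fin 2) (Fin 2) F)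
    (hi : ∀ w : Fin 2 → F, w ≠ 0 → ∃ g, ∀ a : F, ρ g *ᵥ w ≠ a • w) :
    ∃ g ∈ commutator Γ, (ρ g).trace ≠ 2 := by
  by_contra! ht
  have hd : ∀ g ∈ commutator Γ, (ρ g).det = 1 := fun g hg => Units.ext_iff.1
    (Abelianization.commutator_subset_ker (detMonoidHom.comp ρ).toHomUnits hg)
  have iv : ∀ g, ρ g⁻¹ * ρ g = 1 := fun g => by rw [← map_mul, inv_mul_cancel, map_one]
  by_cases h : ∀ u ∈ commutator Γ, ρ u = 1
  · obtain ⟨g₀, h0⟩ := hi (Pi.single 0 1) (by simp)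
    obtain ⟨μ, h1⟩ := Module.End.exists_eigenvalue (toLin' (ρ g₀))
    obtain ⟨w, h2⟩ := h1.exists_hasEigenvector
    obtain ⟨g, h3⟩ := hi w h2.2
    have h4 : (ρ g₀ - μ • 1) *ᵥ w = 0 := by
      rw [sub_mulVec, smul_mulVec, one_mulVec, ← toLin'_apply, h2.apply_eq_smul, sub_self]
    have h5 : ρ g₀ * ρ g = ρ g * ρ g₀ := by
      rw [← map_mul, ← map_mul, ← one_mul (ρ (g * g₀)),
        ← h _ (Subgroup.commutator_mem_commutator (Subgroup.mem_top g₀) (Subgroup.mem_top g)),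
        ← map_mul, commutatorElement_def]
      congr 1
      group
    obtain ⟨a, ha⟩ := line (w' := ρ g *ᵥ w) (fun e => h0 μ (by
      rw [sub_eq_zero.1 e, smul_mulVec, one_mulVec])) h2.2 h4 (by
      rw [mulVec_mulVec, sub_mul, h5, smul_mul_assoc, one_mul, ← mul_one (ρ g), mul_assoc,
        one_mul, ← mul_smul_comm, ← mul_sub, ← mulVec_mulVec, h4, mulVec_zero])
    exact h3 a ha
  · push Not at h
    obtain ⟨u, hu, h0⟩ := h
    obtain ⟨k1, k2, k3⟩ := sq_zero (ht u hu) (hd u hu)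
    obtain ⟨w, h2, h4⟩ := exists_mulVec_eq_zero_iff.2 k2
    obtain ⟨g, h3⟩ := hi w h2
    have hu' : g * u * g⁻¹ ∈ commutator Γ := (inferInstance : (commutator Γ).Normal).conj_mem u hu g
    obtain ⟨k4, -, k6⟩ := sq_zero (ht _ hu') (hd _ hu')
    have k7 := anti k1 k4
    rw [show ((ρ u - 1) * (ρ (g * u * g⁻¹) - 1)).trace = 0 by
      rw [sub_mul, mul_sub, ← map_mul, trace_sub, trace_sub, ht _ (mul_mem hu hu'), mul_one,
        one_mul, ht u hu, k4, sub_self, sub_self], zero_smul] at k7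
    obtain ⟨a, ha⟩ := line (w' := (ρ (g * u * g⁻¹) - 1) *ᵥ w) (sub_ne_zero.2 h0) h2 h4 (by
      rw [mulVec_mulVec, eq_neg_of_add_eq_zero_left k7, neg_mulVec, ← mulVec_mulVec, h4,
        mulVec_zero, neg_zero])
    have k8 : (a * a) • w = 0 := by
      rw [mul_smul, ← ha, ← mulVec_smul, ← ha, mulVec_mulVec, k6, zero_mulVec]
    rw [mul_self_eq_zero.1 ((smul_eq_zero.1 k8).resolve_right h2), zero_smul] at ha
    obtain ⟨b, hb⟩ := line (w' := ρ g *ᵥ w) (fun e => h0 (by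
      rw [show u = g⁻¹ * (g * u * g⁻¹) * g by group, map_mul, map_mul, sub_eq_zero.1 e, mul_one,
        iv])) h2 ha (by
      rw [mulVec_mulVec, sub_mul, ← map_mul, inv_mul_cancel_right, map_mul, one_mul,
        ← mul_sub_one, ← mulVec_mulVec, h4, mulVec_zero])
    exact h3 b hb

end lin

/-- **EIS** -/
theorem eis (N : ℕ) (h2 : 2 ∣ N) (hN : N ≠ 0) (r : GQ →* GL (Fin 2) ℚ_[2]) (hc : Continuous r)
    (hi : St.AbsIrr r) (a : ℕ → ℤ) (h : ∀ l : ℕ, l.Prime → ¬ l ∣ N → ∀ g, St.IsFrob l g →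
      (r g : Matrix (Fin 2) (Fin 2) ℚ_[2]).trace = a l) :
    ∃ v : ℕ, ∀ n : ℕ, n ≠ 0 → ∃ l : PA N, l.1 ≡ 1 [MOD n] ∧ ¬ (2 : ℤ) ^ v ∣ a l.1 - l.1 - 1 := by
  obtain ⟨g, hg, ht⟩ := ex_comm (((algebraMap ℚ_[2] (AlgebraicClosure ℚ_[2])).mapMatrix
    (m := Fin 2)).toMonoidHom.comp ((Units.coeHom _).comp r)) hi
  have h0 : (r g : Matrix (Fin 2) (Fin 2) ℚ_[2]).trace - 2 ≠ 0 := fun e => ht (by
    have := congrArg (algebraMap ℚ_[2] (AlgebraicClosure ℚ_[2])) (sub_eq_zero.1 e)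
    rwa [AddMonoidHom.map_trace, map_ofNat] at this)
  obtain ⟨v, hv⟩ := exists_pow_lt_of_lt_one (norm_pos_iff.2 h0) (by norm_num : (2⁻¹ : ℝ) < 1)
  have hv' : ((2 : ℕ) : ℝ) ^ (-v : ℤ) = 2⁻¹ ^ v := by simp
  have c : Continuous fun s : GQ => (r (g * s) : Matrix (Fin 2) (Fin 2) ℚ_[2]).trace :=
    (Units.continuous_val.comp (hc.comp (continuous_const_mul g))).matrix_trace
  haveI := H916.isGalois_Qb
  obtain ⟨V, hV⟩ := ProfiniteGrp.exist_openNormalSubgroup_sub_open_nhds_of_one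
    ((Metric.isOpen_ball (x := (r g : Matrix (Fin 2) (Fin 2) ℚ_[2]).trace)
      (ε := 2⁻¹ ^ v)).preimage c) (by simp)
  refine ⟨v, fun n hn => ?_⟩
  haveI : NeZero (n * 2 ^ v) := ⟨by positivity⟩
  obtain ⟨l, φ, k1, k2, k3, k4⟩ := Cheb.cheb (V.toSubgroup ⊓ (H853.cyc (n * 2 ^ v)).ker)
    inferInstance (V.isOpen.inter (H853.isOpen_cyc _)) g (N * (n * 2 ^ v)).primeFactors
  have k5 : ¬ l ∣ N * (n * 2 ^ v) := fun e => k2 (Nat.mem_primeFactors.2 ⟨k1, e, by positivity⟩)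
  have k6 : ¬ l ∣ N := fun e => k5 (e.mul_right _)
  have k7 : l ≡ 1 [MOD n * 2 ^ v] := by
    have e := H853.cyc_frob k1 (fun e => k5 (e.mul_left _)) k3
    rw [← mul_inv_cancel_left g φ, map_mul, show H853.cyc _ (g⁻¹ * φ) = 1 from k4.2,
      show H853.cyc (n * 2 ^ v) g = 1 from Abelianization.commutator_subset_ker _ hg] at e
    rw [← ZMod.natCast_eq_natCast_iff, ← e]
    simp
  refine ⟨⟨l, k1, fun e => k6 ((k1.dvd_mul.1 e).elim (fun e => e.trans h2) id)⟩,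
    k7.of_mul_right _, fun e => ?_⟩
  have e1 : (2 : ℤ) ^ v ∣ a l - 2 := by
    have := (Nat.modEq_iff_dvd.1 (k7.of_mul_left n).symm)
    push_cast at this
    rw [show a l - 2 = (a l - l - 1) + (l - 1) by ring]
    exact e.add this
  have e2 : ‖((a l - 2 : ℤ) : ℚ_[2])‖ ≤ 2⁻¹ ^ v :=
    hv' ▸ (Padic.norm_int_le_pow_iff_dvd (p := 2) _ v).2 (by exact_mod_cast e1)
  have e3 := hV k4.1
  rw [Set.mem_preimage, mul_inv_cancel_left, h l k1 k6 φ k3, mem_ball_iff_norm'] at e3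
  refine hv.not_ge (le_of_eq_of_le (congrArg _ ?_)
    ((IsUltrametricDist.norm_add_le_max _ _).trans (max_le e3.le e2)))
  push_cast
  ring

end Vale.Agent.P004M
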