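import Vale.Agent.P022K.UC.UcB
import Vale.Agent.P004N.H3.Cusp

/-!
# P004M: a well approximated integral system of weight two is the system of a cusp form
-/

set_option autoImplicit false
set_option linter.all false

open NumberField PowerSeries UpperHalfPlane CongruenceSubgroup
open scoped MatrixGroups ModularForm

noncomputable section

namespace Vale.Agent.P004M.End

open Vale.Agent.P022 Vale.Agent.P022.H218.L3 Vale.Agent.P022.H783 Vale.Agent.P022K.UC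
open Vale.Agent.P022K.UC.Hm

/-- **weight two** -/
theorem form (N : ℕ) [NeZero N] (h2 : 2 ∣ N) {L : Type*} [NormedField L] [IsUltrametricDist L]
    [CharZero L] (hL : ‖(2 : L)‖ < 1) {c : ℕ → ℤ} (c1 : c 1 = 1)
    (c2 : ∀ n, ¬ n.Coprime (2 * N) → c n = 0) (c3 : ∀ l : ℕ, l.Prime → ¬ l ∣ 2 * N → ∀ n,
      c (l * n) + (if l ∣ n then (l : ℤ) * c (n / l) else 0) = c l * c n)
    (hle : ∀ n, (|c n| : ℝ) ≤ ((n : ℝ) + 2) ^ 2) (h : UCN N fun l => (c l : L)) :
    ∃ (M : ℕ) (F : ℍ → ℂ), M ≠ 0 ∧ Sm (fun n => (c n : ℂ)) F ∧ IsMF (Gamma0 M) 2 F := by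
  have N0 := NeZero.ne N
  have hN : ∀ {l : ℕ}, l.Prime → (l ∣ 2 * N ↔ l ∣ N) := fun hl =>
    ⟨fun e => (hl.dvd_mul.1 e).elim (·.trans h2) id, fun e => e.mul_left 2⟩
  obtain ⟨O, _, _, _, _, _, ι, μ, o1, o2, o3⟩ := ex_dvr (Rat.castHom L) hL
  have hodd : ∀ n : ℕ, Odd n → IsUnit (n : O) := by
    rintro _ ⟨k, rfl⟩
    have := (IsLocalRing.isUnit_or_isUnit_one_sub_self (2 * -(k : O))).resolve_left
      fun e => o1 (isUnit_of_mul_isUnit_left e)
    convert this using 1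
    push_cast
    ring
  have x1 : Ew N fun n => (c n : O) := ⟨by simp [c1], fun n hn => by simp [c2 n hn], fun l n => by
    simpa [apply_ite] using congrArg (Int.cast : ℤ → O) (c3 l.1 l.2.1 l.2.2 n)⟩
  obtain ⟨al, be, C₀, a1, a2, a3, a4⟩ := h
  haveI : NeZero (2 * N) := ⟨mul_ne_zero two_ne_zero N0⟩
  obtain ⟨D, P, p0, p1, p2⟩ := ex_rel o1 ι (Gamma1 (N * (2 * N) ^ 2))
    (f := PowerSeries.mk fun n => (c n : 𝓞 ℚ)) one_ne_zero (A := 2)
    (fun n => (canonicalEmbedding.norm_le_iff _ _).2 fun ψ => by simpa using hle n)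
    a1 a2 a3 (C := C₀) (fun n hn => by
      rw [coeff_mk, c2 n fun e => (Nat.not_odd_iff_even.2 hn)
        (Nat.coprime_two_right.1 e.coprime_mul_right_right), Int.cast_zero]) fun j => by
      obtain ⟨B, b1, b2⟩ := a4 j
      obtain ⟨G, g1, g2⟩ := fun_rel (E := FractionRing O) hodd (ucr_of_uca h2 x1 (B := B) (j := j)
        fun P hP => o3 _ _ (by rw [map_lift]; simpa using b2 P hP))
      exact ⟨B, G, b1, by rwa [one_mul], fun n => by simpa using g2 n⟩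
  let φ := (Rat.castHom ℂ).comp (algebraMap (𝓞 ℚ) ℚ)
  have hS : ∀ {l : ℕ}, l.Prime → (l ∈ N.primeFactors ↔ l ∣ N) := fun hl => by simp [hl, N0]
  obtain ⟨s, M, F, k1, k2, -, k4, k5⟩ := am_of ama amb (S := N.primeFactors) (κ := 1) (D := 2 * D)
    (c := fun n => (c n : ℂ)) (P := MvPolynomial.map (algebraMap ℤ ℂ) P)
    ⟨(hS Nat.prime_two).2 h2, by simp [c1], fun p h3 h4 n h5 => by
        rw [c2 n fun e => h4.one_lt.ne' (Nat.eq_one_of_dvd_coprimes e h5
          (((hS h4).1 h3).mul_left 2)), Int.cast_zero], fun l n h3 h4 => by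
        simpa [apply_ite] using congrArg (Int.cast : ℤ → ℂ)
          (c3 l h3 (mt (fun e => (hS h3).2 ((hN h3).1 e)) h4) n), 2, fun n => by simpa using hle n⟩
    one_ne_zero
    (mt (map_eq_zero_iff _ (MvPolynomial.map_injective _ (algebraMap ℤ ℂ).injective_int)).1 p0)
    (fun d hd => by
      rw [← p1 (d := d) fun e => hd (by rw [MvPolynomial.coeff_map, e, map_zero])]
      simp [Finsupp.weight_apply, Finsupp.sum_fintype, Fin.sum_univ_four]
      ring)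
    (by
      rw [MvPolynomial.aeval_map_algebraMap, Rm.e2_eq, Rm.e4_eq, Rm.e6_eq]
      have := congrArg (PowerSeries.map φ) p2
      rw [map_aeval_int, map_zero] at this
      refine (congrArg (MvPolynomial.aeval · P) (funext fun i => ?_)).trans this
      fin_cases i
      · exact (Rm.map_Es _ _ _).symm
      · exact (Rm.map_Es _ _ _).symm
      · exact (Rm.map_Es _ _ _).symm
      · ext n
        simp)
  obtain rfl : s = 0 := by omega
  exact ⟨M, F, k2, by simpa using k4, by simpa using k5⟩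

/-- powers of one prime -/
theorem pw {u : ℕ → ℝ} {a s : ℝ} (hs : 0 ≤ s) (ha : a ^ 2 ≤ 4 * s ^ 2) (h1 : u 1 = a * u 0)
    (h2 : ∀ k, u (k + 2) = a * u (k + 1) - s ^ 2 * u k) (k : ℕ) :
    |u k| ≤ (k + 1) * s ^ k * |u 0| := by
  have q : ∀ k, u (k + 1) ^ 2 - a * u (k + 1) * u k + s ^ 2 * u k ^ 2 =
      (s ^ (k + 1) * |u 0|) ^ 2 := fun k => by
    induction k with
    | zero => rw [h1, mul_pow _ |u 0|, sq_abs]; ring
    | succ k ih => rw [h2]; linear_combination s ^ 2 * ih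
  have a2 : |a| ≤ 2 * s := abs_le_of_sq_le_sq' (by linarith) (by linarith) |> abs_le.2
  induction k with
  | zero => simp
  | succ k ih =>
    have h3 : |u (k + 1)| - s * |u k| ≤ s ^ (k + 1) * |u 0| := by
      refine (abs_le_of_sq_le_sq' ?_ (by positivity)).2
      have := le_abs_self (a * u (k + 1) * u k)
      rw [abs_mul, abs_mul] at this
      rw [← q, ← sq_abs (u (k + 1)), ← sq_abs (u k)]
      nlinarith [mul_le_mul_of_nonneg_right a2 (mul_nonneg (abs_nonneg (u (k + 1)))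
        (abs_nonneg (u k)))]
    have := mul_le_mul_of_nonneg_left ih hs
    push_cast
    rw [pow_succ] at h3 ⊢
    linarith

theorem four (k : ℕ) : (k + 1) ^ 4 ≤ 64 * 2 ^ k := by
  induction k with
  | zero => simp
  | succ k ih =>
    rcases lt_or_ge k 5 with h | h
    · interval_cases k <;> norm_num
    · obtain ⟨j, rfl⟩ := Nat.exists_eq_add_of_le h
      refine le_trans (b := 2 * (5 + j + 1) ^ 4) ?_ (by omega)
      nlinarith [Nat.zero_le (j ^ 4), Nat.zero_le (j ^ 3), Nat.zero_le (j ^ 2)]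

/-- the size of the coefficients -/
theorem size {M : ℕ} {c : ℕ → ℤ} (c1 : c 1 = 1) (c2 : ∀ n, ¬ n.Coprime M → c n = 0)
    (c0 : c 0 = 0) (c3 : ∀ l : ℕ, l.Prime → ¬ l ∣ M → c l ^ 2 ≤ 4 * l ∧ ∀ n,
      c (l * n) + (if l ∣ n then (l : ℤ) * c (n / l) else 0) = c l * c n) (n : ℕ) :
    ∀ b, (∀ p, p.Prime → p ∣ n → b ≤ p) → (c n : ℝ) ^ 4 ≤ 64 ^ (16 - b) * (n : ℝ) ^ 3 := by
  induction n using Nat.strong_induction_on with
  | _ n ih =>
    intro b hb
    by_cases hn : n.Coprime M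
    swap
    · simp [c2 n hn]
    rcases eq_or_ne n 0 with rfl | k0
    · simp [c0]
    rcases eq_or_ne n 1 with rfl | k1
    · simpa [c1] using one_le_pow₀ (by norm_num : (1 : ℝ) ≤ 64)
    obtain ⟨l, hl⟩ : ∃ l, l = n.minFac := ⟨_, rfl⟩
    have l1 : l.Prime := hl ▸ Nat.minFac_prime k1
    have l2 : l ∣ n := hl ▸ Nat.minFac_dvd n
    have l3 : ∀ p, p.Prime → p ∣ n → l ≤ p := fun p h e => hl ▸ Nat.minFac_le_of_dvd h.two_le e
    obtain ⟨e1, e2⟩ := c3 l l1 fun e => l1.one_lt.ne' (Nat.eq_one_of_dvd_coprimes hn l2 e)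
    obtain ⟨k, m, h3, rfl⟩ := Nat.exists_eq_pow_mul_and_not_dvd k0 l l1.ne_one
    have m0 : 0 < m := Nat.pos_of_ne_zero (right_ne_zero_of_mul k0)
    have i1 := ih m (lt_mul_left m0 (Nat.one_lt_pow (by rintro rfl; simp at l2; exact h3 l2)
      l1.one_lt)) (l + 1) fun p h e => lt_of_le_of_ne (l3 p h (e.mul_left _)) fun z => h3 (z ▸ e)
    have hs := Real.sq_sqrt (Nat.cast_nonneg (α := ℝ) l)
    have i2 := pw (u := fun k => (c (l ^ k * m) : ℝ)) (a := c l) (Real.sqrt_nonneg l)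
      (by rw [hs]; exact_mod_cast e1) (by
        have := e2 m
        rw [if_neg h3, add_zero] at this
        simp [this]) (fun k => by
        have := e2 (l ^ (k + 1) * m)
        rw [if_pos ((dvd_pow_self l k.succ_ne_zero).mul_right m), ← mul_assoc, ← pow_succ',
          pow_succ' l k, mul_assoc l, Nat.mul_div_cancel_left _ l1.pos, ← mul_assoc,
          ← pow_succ'] at this
        rw [hs]
        exact_mod_cast eq_sub_of_add_eq this) k
    have i3 := pow_le_pow_left₀ (abs_nonneg _) i2 4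
    rw [pow_zero, one_mul, mul_pow, mul_pow, Even.pow_abs (by decide), Even.pow_abs (by decide),
      ← pow_mul, show k * 4 = 2 * (2 * k) by ring, pow_mul, hs] at i3
    have i4 : (k + 1) ^ 4 * 64 ^ (16 - (l + 1)) ≤ 64 ^ (16 - b) * l ^ k := by
      have := hb l l1 l2
      rcases lt_or_ge l 16 with h | h
      · calc _ ≤ 64 * l ^ k * 64 ^ (16 - (l + 1)) := by
              gcongr
              exact (four k).trans (by gcongr; exact l1.two_le)
          _ = 64 ^ (16 - l) * l ^ k := by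
              rw [show 16 - l = 16 - (l + 1) + 1 by omega]; ring
          _ ≤ _ := by gcongr <;> omega
      · rw [show 16 - (l + 1) = 0 by omega, pow_zero, mul_one]
        calc _ ≤ (2 ^ k) ^ 4 := by gcongr; exact Nat.lt_two_pow_self
          _ = 16 ^ k := by rw [← pow_mul, mul_comm, pow_mul]; norm_num
          _ ≤ l ^ k := by gcongr
          _ ≤ _ := Nat.le_mul_of_pos_left _ (by positivity)
    have i5 : ((k : ℝ) + 1) ^ 4 * 64 ^ (16 - (l + 1)) ≤ 64 ^ (16 - b) * (l : ℝ) ^ k := by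
      exact_mod_cast i4
    calc _ ≤ ((k : ℝ) + 1) ^ 4 * (l : ℝ) ^ (2 * k) * (64 ^ (16 - (l + 1)) * (m : ℝ) ^ 3) :=
          i3.trans (by gcongr)
      _ = ((k : ℝ) + 1) ^ 4 * 64 ^ (16 - (l + 1)) * ((l : ℝ) ^ (2 * k) * (m : ℝ) ^ 3) := by ring
      _ ≤ 64 ^ (16 - b) * (l : ℝ) ^ k * ((l : ℝ) ^ (2 * k) * (m : ℝ) ^ 3) := by gcongr
      _ = _ := by push_cast; ring

theorem lin {K x n ε : ℝ} (hK : 0 ≤ K) (hn : 0 ≤ n) (hε : 0 < ε) (h : x ^ 4 ≤ K * n ^ 3) :
    |x| ≤ ε * n + K / ε ^ 3 := by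
  by_contra h1
  have h2 : 0 ≤ K / ε ^ 3 := by positivity
  have h3 : 0 ≤ ε * n := by positivity
  have h4 := (div_lt_iff₀ (pow_pos hε 3)).1 (show K / ε ^ 3 < |x| by linarith)
  have h5 := pow_le_pow_left₀ h3 (show ε * n ≤ |x| by linarith) 3
  rw [← Even.pow_abs (by decide)] at h
  nlinarith [mul_le_mul_of_nonneg_left h5 hK, mul_le_mul_of_nonneg_left h (pow_pos hε 3).le,
    mul_lt_mul_of_pos_left h4 (pow_pos (show 0 < |x| by linarith) 3)]

/-- the size of the sum -/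
theorem sum_le {c : ℕ → ℂ} {F : ℍ → ℂ} (hF : Sm c F) {ε C : ℝ} (hε : 0 ≤ ε) (hC : 0 ≤ C)
    (h : ∀ n, ‖c n‖ ≤ ε * n + C) (w : ℍ) :
    ‖F w‖ ≤ ε * ((1 + w.im) / w.im ^ 2) + C * ((1 + w.im) / w.im) := by
  obtain ⟨r, hr⟩ : ∃ r, r = ‖Function.Periodic.qParam 1 (w : ℂ)‖ := ⟨_, rfl⟩
  have y0 := w.im_pos
  have r0 : 0 ≤ r := hr ▸ norm_nonneg _
  have r1 : r * (1 + w.im) ≤ 1 := by
    rw [hr, Function.Periodic.norm_qParam, div_one, coe_im]
    have h1 := Real.add_one_le_exp (2 * Real.pi * w.im)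
    have h2 : Real.exp (-2 * Real.pi * w.im) * Real.exp (2 * Real.pi * w.im) = 1 := by
      rw [← Real.exp_add]; simp
    nlinarith [Real.exp_pos (-2 * Real.pi * w.im), Real.pi_gt_three,
      mul_pos (Real.exp_pos (-2 * Real.pi * w.im)) y0]
  have r2 : r < 1 := by nlinarith
  have h1 := ((hasSum_coe_mul_geometric_of_norm_lt_one (r := r)
    (by rwa [Real.norm_of_nonneg r0])).mul_left ε).add
      ((hasSum_geometric_of_lt_one r0 r2).mul_left C)
  refine ((hF w).norm_le_of_bounded h1 fun n => ?_).trans ?_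
  · rw [norm_smul, norm_pow, ← hr]
    nlinarith [mul_le_mul_of_nonneg_right (h n) (pow_nonneg r0 n)]
  have h2 : (1 - r)⁻¹ ≤ (1 + w.im) / w.im := by
    rw [inv_eq_one_div, div_le_div_iff₀ (by linarith) y0]
    linarith
  refine add_le_add (mul_le_mul_of_nonneg_left ?_ hε) (mul_le_mul_of_nonneg_left h2 hC)
  calc r / (1 - r) ^ 2 = r * (1 - r)⁻¹ ^ 2 := by rw [div_eq_mul_inv, inv_pow]
    _ ≤ r * ((1 + w.im) / w.im) ^ 2 := by gcongr
    _ = r * (1 + w.im) * ((1 + w.im) / w.im ^ 2) := by field_simp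
    _ ≤ _ := mul_le_of_le_one_left (by positivity) r1

/-- **cusp forms** -/
theorem zero {c : ℕ → ℂ} {F : ℍ → ℂ} {M : ℕ} (hM : M ≠ 0) (hF : Sm c F) (c0 : c 0 = 0)
    (hs : ∀ γ ∈ Gamma0 M, F ∣[(2 : ℤ)] γ = F)
    (h : ∀ ε > (0 : ℝ), ∃ C ≥ (0 : ℝ), ∀ n, ‖c n‖ ≤ ε * n + C) (γ : SL(2, ℤ)) :
    IsZeroAtImInfty (F ∣[(2 : ℤ)] γ) := by
  rw [isZeroAtImInfty_iff]
  intro ε hε
  by_cases h0 : γ 1 0 = 0
  · obtain ⟨C, hC, h⟩ := h 1 one_pos
    refine ⟨1 + 2 * (1 + C) / ε, fun z hz => ?_⟩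
    have p : 0 ≤ 2 * (1 + C) / ε := by positivity
    have y0 := z.im_pos
    rw [hs γ (by simp [Gamma0_mem, h0])]
    refine (sum_le hF (ε := 1 + C) (C := 0) (by positivity) le_rfl (fun n => ?_) z).trans ?_
    · rcases n with _ | n
      · simp [c0]
      · refine (h _).trans ?_
        push_cast
        nlinarith [mul_nonneg hC (Nat.cast_nonneg (α := ℝ) n)]
    · have : 2 * (1 + C) ≤ z.im * ε := (div_le_iff₀ hε).1 (by linarith)
      rw [zero_mul, add_zero, ← mul_div_assoc, div_le_iff₀ (by positivity)]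
      nlinarith
  obtain ⟨E, hE⟩ : ∃ E : ℝ, E = (|(γ 1 0 : ℝ)| * M + |(γ 1 1 : ℝ)|) ^ 2 + (γ 1 0 : ℝ) ^ 2 := ⟨_, rfl⟩
  have g1 : (1 : ℝ) ≤ (γ 1 0 : ℝ) ^ 2 := by exact_mod_cast (one_le_sq_iff_one_le_abs _).2 (Int.one_le_abs h0)
  have E0 : 0 < E := by rw [hE]; positivity
  obtain ⟨C, hC, h⟩ := h (ε / (4 * E)) (by positivity)
  have key : ∀ z : ℍ, |z.re| ≤ M → 1 + 4 * C / ε ≤ z.im → ‖(F ∣[(2 : ℤ)] γ) z‖ ≤ ε := by
    intro z hx hz
    have p : 0 ≤ 4 * C / ε := by positivity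
    have y0 := z.im_pos
    obtain ⟨D, hD⟩ : ∃ D, D = Complex.normSq (denom γ z) := ⟨_, rfl⟩
    have d1 : D = ((γ 1 0 : ℝ) * z.re + γ 1 1) ^ 2 + (γ 1 0 : ℝ) ^ 2 * z.im ^ 2 := by
      rw [hD, ModularGroup.denom_apply, Complex.normSq_apply]
      simp
      ring
    have d2 : z.im ^ 2 ≤ D := by nlinarith [sq_nonneg ((γ 1 0 : ℝ) * z.re + γ 1 1)]
    have d3 : D ≤ E * z.im ^ 2 := by
      have a1 : |(γ 1 0 : ℝ) * z.re + γ 1 1| ≤ |(γ 1 0 : ℝ)| * M + |(γ 1 1 : ℝ)| :=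
        (abs_add_le _ _).trans (by rw [abs_mul]; gcongr)
      have a2 := pow_le_pow_left₀ (abs_nonneg _) a1 2
      have a3 : 1 ≤ z.im ^ 2 := one_le_pow₀ (by linarith)
      rw [sq_abs] at a2
      rw [d1, hE]
      nlinarith [sq_nonneg (|(γ 1 0 : ℝ)| * M + |(γ 1 1 : ℝ)|)]
    have D0 : 0 < D := lt_of_lt_of_le (by positivity) d2
    have b := sum_le hF (by positivity) hC h (γ • z)
    rw [ModularGroup.im_smul_eq_div_normSq, ← hD] at b
    have y1 : z.im / D ≤ 1 := (div_le_one D0).2 (by nlinarith)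
    rw [ModularForm.SL_slash_apply, norm_mul, norm_zpow, zpow_neg, zpow_ofNat,
      ← Complex.normSq_eq_norm_sq, ← hD, ← div_eq_mul_inv, div_le_iff₀ D0]
    refine b.trans ?_
    have : 4 * C ≤ z.im * ε := (div_le_iff₀ hε).1 (by linarith)
    calc _ ≤ ε / (4 * E) * ((1 + 1) / (z.im / D) ^ 2) + C * ((1 + 1) / (z.im / D)) := by gcongr
      _ = (ε / 2 * (D / (E * z.im ^ 2)) + ε / 2 * (4 * C / (z.im * ε))) * D := by field_simp; ring
      _ ≤ (ε / 2 * 1 + ε / 2 * 1) * D := by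
          gcongr <;> exact (div_le_one (by positivity)).2 ‹_›
      _ = _ := by ring
  refine ⟨1 + 4 * C / ε, fun z hz => ?_⟩
  have M0 : (0 : ℝ) < M := by positivity
  let t := ModularGroup.T ^ (-(M * ⌊z.re / M⌋))
  have h1 : (F ∣[(2 : ℤ)] γ) ∣[(2 : ℤ)] t = F ∣[(2 : ℤ)] γ := by
    rw [← SlashAction.slash_mul, show γ * t = γ * t * γ⁻¹ * γ by group, SlashAction.slash_mul,
      hs _ (Gamma0_mem.2 (Gamma_mem.1 ((Gamma_normal M).conj_mem _
        (ModularGroup_T_pow_mem_Gamma M (-(M * ⌊z.re / M⌋)) (by simp)) γ)).2.2.1)]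
  rw [← h1, ModularForm.SL_slash_apply, ModularGroup.denom_apply, ModularGroup.coe_T_zpow]
  have := key (t • z) (by
    rw [ModularGroup.re_T_zpow_smul, abs_le]
    have a1 := (le_div_iff₀ M0).1 (Int.floor_le (z.re / M))
    have a2 := (div_lt_iff₀ M0).1 (Int.lt_floor_add_one (z.re / M))
    push_cast
    constructor <;> nlinarith) (by rwa [ModularGroup.im_T_zpow_smul])
  simpa using this

/-- **END** -/
theorem eig (N : ℕ) [NeZero N] (h2 : 2 ∣ N) {L : Type*} [NormedField L] [IsUltrametricDist L]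
    [CharZero L] (hL : ‖(2 : L)‖ < 1) (a : ℕ → ℤ)
    (hb : ∀ l : ℕ, l.Prime → ¬ l ∣ N → a l ^ 2 ≤ 4 * l) (h : UCN N fun l => (a l : L)) :
    ∃ (M : ℕ) (f : P004N.T8.CF M) (c : ℕ → ℤ), 0 < M ∧ P004N.QE f (fun n => (c n : ℂ)) ∧ c 1 = 1 ∧
      (∀ p : ℕ, p.Prime → ¬ p ∣ M → ∀ n,
        c (p * n) + (if p ∣ n then (p : ℤ) * c (n / p) else 0) = c p * c n) ∧
      ∀ l : ℕ, l.Prime → ¬ l ∣ N → c l = a l := by
  have N0 := NeZero.ne N
  have hN : ∀ {l : ℕ}, l.Prime → ¬ l ∣ N → ¬ l ∣ 2 * N := fun hl =>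
    mt fun e => (hl.dvd_mul.1 e).elim (·.trans h2) id
  obtain ⟨c, c1, c2, c3⟩ := ex_eig (M := 2 * N) (by omega) a fun l => (l : ℤ)
  have c0 := c2 0 (by simp)
  have hs := fun n => size c1 c2 c0 (fun l h1 h3 => ⟨(c3 l h1 h3).1 ▸ hb l h1
    fun e => h3 (e.mul_left 2), (c3 l h1 h3).2⟩) n 0 fun _ _ _ => Nat.zero_le _
  obtain ⟨M, F, m0, f1, f2⟩ := form N h2 (L := L) hL c1 c2 (fun l h1 h3 => (c3 l h1 h3).2)
    (fun n => by
      have := eig_le (M := 2 * N) (A := 1) (c := fun n => (c n : ℂ)) (d := fun l => (l : ℂ))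
        (by simp [c1]) (fun n hn => by simp [c2 n hn]) (by simp [c0]) (fun l h1 h3 => ⟨?_, ?_,
          fun n => by simpa [apply_ite] using congrArg (Int.cast : ℤ → ℂ) ((c3 l h1 h3).2 n)⟩) n
      · rw [Complex.norm_intCast] at this
        exact this.trans (pow_le_pow_left₀ (Nat.cast_nonneg n) (by linarith) _)
      · have k1 := hb l h1 fun e => h3 (e.mul_left 2)
        have k2 : (2 : ℤ) ≤ l := by exact_mod_cast h1.two_le
        rw [(c3 l h1 h3).1, Complex.norm_intCast, pow_one]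
        have : |a l| ≤ l := Int.lt_add_one_iff.1 (abs_lt_of_sq_lt_sq (by nlinarith) (by omega))
        exact_mod_cast this
      · rw [Complex.norm_natCast]
        exact le_self_pow₀ (by exact_mod_cast h1.one_le) (by omega))
    (by
      obtain ⟨al, be, C, a1, a2, a3, a4⟩ := h
      refine ⟨al, be, C, a1, a2, a3, ?_⟩
      rwa [show (fun l : PA N => (c l.1 : L)) = fun l : PA N => (a l.1 : L) from
        funext fun l => by rw [(c3 _ l.2.1 l.2.2).1]])
  have k : ∀ γ ∈ Gamma0 (M * (2 * N)), F ∣[(2 : ℤ)] γ = F := fun γ hγ => f2.slash γ (by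
    rw [Gamma0_mem, ZMod.intCast_zmod_eq_zero_iff_dvd] at hγ ⊢
    exact (Int.natCast_dvd_natCast.2 (dvd_mul_right _ _)).trans hγ)
  have M0 : 0 < M * (2 * N) := by positivity
  obtain ⟨f, rfl⟩ := P004N.T8.cusp_of_s2 M0 ⟨f2.hol, k, zero m0 f1 (by simp [c0]) f2.slash
    fun ε hε => ⟨64 ^ 16 / ε ^ 3, by positivity, fun n => by
      rw [Complex.norm_intCast]
      exact lin (by positivity) (Nat.cast_nonneg n) hε (hs n)⟩⟩
  refine ⟨_, f, c, M0, fun z => ?_, c1, fun p h1 h3 => (c3 p h1 fun e => h3 (e.mul_left M)).2,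
    fun l h1 h3 => (c3 l h1 (hN h1 h3)).1⟩
  convert f1 z using 2 with n
  rw [smul_eq_mul, Function.Periodic.qParam, ← Complex.exp_nat_mul]
  congr 2
  push_cast
  ring

end Vale.Agent.P004M.End
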