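import Vale.Agent.P022K.QT.ClU
import Vale.Agent.P022K.QT.Par
import Vale.Agent.P022.H472.Lit

/-!
# P004M, row wt2: words in the Hecke operators on functions on the adelic group
-/

set_option autoImplicit false

open scoped MatrixGroups

noncomputable section

namespace Vale.Agent.P004M.Wt

open Vale.Agent.P022 Vale.Agent.P022K.Sh Vale.Agent.P022K.QT Vale.Agent.P022K.QT.Cl

variable {N : ℕ} {B B' : Type} [AddCommGroup B] [AddCommGroup B']

/-- the prime -/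
abbrev pl (l : PA N) : Pr := ⟨l.1, l.2.1⟩

/-- the Hecke operator on all functions -/
def Tf (B : Type) [AddCommGroup B] (l : Pr) : Module.End ℤ (G → B) :=
  haveI := Fintype.ofFinite (IsLocalRing.ResidueField ℤ_[l])
  ∑ i, LinearMap.funLeft ℤ B fun x => x * io l ((lc l).tr i)

theorem Tf_apply (l : Pr) [Fintype (IsLocalRing.ResidueField ℤ_[l])] (f : G → B) (x : G) :
    Tf B l f x = ∑ i, f (x * io l ((lc l).tr i)) := by
  rw [Tf, LinearMap.sum_apply, Finset.sum_apply]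
  exact Finset.sum_congr (by congr!) fun _ _ => rfl

/-- words -/
def op (N : ℕ) (B : Type) [AddCommGroup B] : FreeAlgebra ℤ (PA N) →ₐ[ℤ] Module.End ℤ (G → B) :=
  FreeAlgebra.lift ℤ fun l => Tf B (pl l)

theorem op_ι (l : PA N) : op N B (FreeAlgebra.ι ℤ l) = Tf B (pl l) := FreeAlgebra.lift_ι_apply _ _

theorem Tf_hk {U : Subgroup G} (hU : U ∈ TQ.Lev) {l : Pr} (hl : (lc l).At (Kl l) U) {f : G → B}
    (hf : Inv U f) : Tf B l f = hk ((lc l).To U) U f := by
  let _ := Fintype.ofFinite (IsLocalRing.ResidueField ℤ_[l])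
  funext x
  rw [(hl.rep_To hU).hk hf, Tf_apply]
  rfl

/-- naturality -/
theorem op_nat (τ : G → G) (A : G → B →+ B')
    (h : ∀ x (l : PA N) g, τ (x * io (pl l) g) = τ x * io (pl l) g ∧ A (x * io (pl l) g) = A x)
    (Q : FreeAlgebra ℤ (PA N)) :
    ∀ f, op N B' Q (fun x => A x (f (τ x))) = fun x => A x (op N B Q f (τ x)) := by
  induction Q using FreeAlgebra.induction with
  | grade0 r => intro f; funext x; simp
  | grade1 l =>
    intro f
    let _ := Fintype.ofFinite (IsLocalRing.ResidueField ℤ_[pl l])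
    funext x
    simp only [op_ι, Tf_apply, map_sum, h]
  | mul a b ha hb => intro f; simp only [map_mul, Module.End.mul_apply, ha, hb]
  | add a b ha hb =>
    intro f
    funext x
    simp only [map_add, LinearMap.add_apply, Pi.add_apply, ha, hb]

variable [NeZero N] {M : ℕ}

omit [NeZero N] in
theorem nd (l : PA N) : ¬ (pl l : ℕ) ∣ N := fun d => l.2.2 (d.mul_left 2)

omit [NeZero N] in
theorem n2 (l : PA N) (n : ℕ) : ¬ (pl l : ℕ) ∣ 2 ^ n :=
  fun d => l.2.2 ((l.2.1.dvd_of_dvd_pow d).mul_right N)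

theorem lev (n : ℕ) : UU N (2 ^ n) ∈ TQ.Lev := UU_mem (pow_pos two_pos n)

theorem atl (l : PA N) (n : ℕ) : (lc (pl l)).At (Kl (pl l)) (UU N (2 ^ n)) := at_UU (nd l) (n2 l n)

theorem cor (l : PA N) (n : ℕ) :
    Cor (UU N (2 ^ n)) ((lc (pl l)).To (UU N (2 ^ n))) (UU N (2 ^ n)) :=
  Tw.Lc.L0.cor _ ⟨lev n, atl l n⟩

theorem op_inv (n : ℕ) (Q : FreeAlgebra ℤ (PA N)) :
    ∀ f : G → B, Inv (UU N (2 ^ n)) f → Inv (UU N (2 ^ n)) (op N B Q f) := by
  induction Q using FreeAlgebra.induction with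
  | grade0 r => intro f h x u hu; simp [h x u hu]
  | grade1 l =>
    intro f h
    rw [op_ι, Tf_hk (lev n) (atl l n) h]
    exact hk_inv (cor l n) h
  | mul a b ha hb => intro f h; exact map_mul (op N B) a b ▸ ha _ (hb f h)
  | add a b ha hb =>
    intro f h x u hu
    simp only [map_add, LinearMap.add_apply, Pi.add_apply, ha f h x u hu, hb f h x u hu]

variable {Λ : Type} [CommRing Λ] [Module Λ B] (ρ : Representation Λ G0 B)

omit [NeZero N] in
theorem op_lt (Q : FreeAlgebra ℤ (PA N)) (γ : G0) (f : G → B) :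
    op N B Q (TQ.lt ρ γ f) = TQ.lt ρ γ (op N B Q f) :=
  op_nat (fun x => (TQ.j γ)⁻¹ * x) (fun _ => (ρ γ).toAddMonoidHom)
    (fun _ _ _ => ⟨(mul_assoc _ _ _).symm, rfl⟩) Q f

variable {ρ}

theorem op_Z1 {n : ℕ} (Q : FreeAlgebra ℤ (PA N)) {z : G0 → G → B}
    (hz : z ∈ TQ.Z1 ρ (UU N (2 ^ n))) : (fun γ => op N B Q (z γ)) ∈ TQ.Z1 ρ (UU N (2 ^ n)) :=
  ⟨fun γ => op_inv n Q _ (hz.1 γ), fun γ δ => by
    beta_reduce
    rw [hz.2.1, map_add, op_lt], fun γ h => by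
    beta_reduce
    rw [hz.2.2 γ h, map_zero]⟩

theorem op_B1 {n : ℕ} (Q : FreeAlgebra ℤ (PA N)) {z : G0 → G → B}
    (hz : z ∈ TQ.B1 ρ (UU N (2 ^ n))) : (fun γ => op N B Q (z γ)) ∈ TQ.B1 ρ (UU N (2 ^ n)) := by
  obtain ⟨f, h1, h2⟩ := hz
  exact ⟨op N B Q f, op_inv n Q f h1, fun γ => by
    beta_reduce
    rw [h2, map_sub, op_lt]⟩

/-- **words on cohomology** -/
theorem op_mk (n : ℕ) (Q : FreeAlgebra ℤ (PA N)) : ∀ z : TQ.Z1 ρ (UU N (2 ^ n)),
    FreeAlgebra.lift ℤ (fun l : PA N => (TQ.hH ρ (cor l n) : Module.End Λ _)) Q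
      (Submodule.Quotient.mk z) = Submodule.Quotient.mk ⟨_, op_Z1 Q z.2⟩ := by
  induction Q using FreeAlgebra.induction with
  | grade0 r =>
    intro z
    rw [AlgHom.commutes, eq_intCast, Module.End.intCast_apply, ← Submodule.mkQ_apply, ← map_zsmul]
    exact congrArg Submodule.Quotient.mk (Subtype.ext (funext fun γ => by simp))
  | grade1 l =>
    intro z
    rw [FreeAlgebra.lift_ι_apply]
    refine congrArg Submodule.Quotient.mk (Subtype.ext (funext fun γ => ?_))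
    exact ((congrFun (congrArg _ (op_ι l)) _).trans (Tf_hk (lev n) (atl l n) (z.2.1 γ))).symm
  | mul a b ha hb =>
    intro z
    rw [map_mul, Module.End.mul_apply, hb, ha]
    simp only [map_mul, Module.End.mul_apply]
  | add a b ha hb =>
    intro z
    rw [map_add, LinearMap.add_apply, ha, hb, ← Submodule.Quotient.mk_add]
    simp only [map_add, LinearMap.add_apply]
    rfl

/-- the word kills the cohomology -/
def Kil (n : ℕ) (ρ : Representation Λ G0 B) (Q : FreeAlgebra ℤ (PA N)) : Prop :=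
  ∀ z ∈ TQ.Z1 ρ (UU N (2 ^ n)), (fun γ => op N B Q (z γ)) ∈ TQ.B1 ρ (UU N (2 ^ n))

/-- the prime two -/
abbrev q2 : Pr := ⟨2, Nat.prime_two⟩

/-- the twist by the component at two -/
def tw (m : ℕ) (x : G) (v : Vw ℚ Unit m) : Fin (2 * m + 1) → ℚ_[q2] :=
  (syd m (ev q2 x)⁻¹).mulVec fun k => (v fun _ => k : ℚ)

/-- integral cochains -/
def Itg (m : ℕ) (z : G0 → G → Vw ℚ Unit m) : Prop := ∀ γ x k, ‖tw m x (z γ x) k‖ ≤ 1

/-- the word maps integral cocycles to coboundaries modulo `2 ^ i` -/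
def Sm (m i : ℕ) (Q : FreeAlgebra ℤ (PA N)) : Prop :=
  ∀ z ∈ TQ.Z1 (rw ℚ m) (UU N (2 ^ 0)), Itg m z → ∃ v, ∀ γ ∈ TQ.Gam (UU N (2 ^ 0)) 1, ∀ k,
    ‖((op N (Vw ℚ Unit m) Q (z γ) 1 k - (rw ℚ m γ v k - v k) : ℚ) : ℚ_[2])‖ ≤ 2 ^ (-i : ℤ)

end Vale.Agent.P004M.Wt
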