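import Vale.Agent.P022K.FA.Main

/-!
# P004M, row FAI: the quantitative bound for the logarithmic derivative of a cycle
-/

set_option autoImplicit false
set_option linter.all false

open Vale.Agent.P019P P025H746 P025H492 P025H816 P027M.K Finsupp
open scoped LaurentSeries

noncomputable section

namespace Vale.Agent.P004M.Fai

open P022K P022K.FA P022K.FA.Mn P022K.FI

theorem faq0 (C : Type) [NontriviallyNormedField C] [IsUltrametricDist C] [IsAlgClosed C]
    [CharZero C] {K : Type} [Field K] [Algebra C K] [CFF C K] {x θ : K}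
    (hx : ∀ a : C, x ≠ algebraMap C K a) (hθ : θ ∈ LL C (wdv C x)) :
    ∃ c : ℝ, 0 ≤ c ∧ ∀ (F ι : Type) [Field F] [Algebra C F] [Fintype ι] (v₀ : NV C F)
      (d₀ : Derivation C F F) (ρ : ℝ), (∀ y, v₀ (d₀ y) ≤ ρ * v₀ y) →
      ∀ (φ : ι → K →ₐ[C] F) (n : ι → ℤ) (N : ℕ), N ≠ 0 → (∀ g : K, g ≠ 0 →
        (∀ P : Plk C K, (N : ℤ) ∣ ord P g) → ∃ y : F, ∏ i, φ i g ^ n i = y ^ N) →
      v₀ (∑ i, n i • (φ i θ * d₀ (φ i x))) ≤ ‖(N : C)‖ * (c * |ρ|) := by
  classical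
  obtain ⟨c₁, p₁, h₁⟩ := der C (P019P.gen C K)
  obtain ⟨c₂, p₂, h₂⟩ := bnd hx hθ
  refine ⟨c₂ * c₁, by positivity, fun F ι _ _ _ v₀ d₀ ρ h₀ φ n N pm b => ?_⟩
  obtain ⟨Ω, _, _, _, j, v, d, G, hB, j1, j2, j3⟩ := FA.gen C F v₀ d₀ ρ h₀
  obtain ⟨K', _, _, _, _, _, _, h, _⟩ := P025H941.exists_bc_cff C K Ω
  have : CharZero Ω := charZero_of_injective_algebraMap (algebraMap C Ω).injective
  choose Q hQ using fun i => exists_pt h (j.comp (φ i))
  obtain ⟨P, -⟩ := exists_pole hx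
  obtain ⟨R, hR⟩ := exists_cst h P
  obtain ⟨B, -, hb⟩ := pic0_div (Nat.cast_ne_zero.2 pm : ((N : ℕ) : Ω) ≠ 0) (cyc Q n R)
    (dg_cyc Q n R)
  obtain ⟨E, r, e0, e1, e2, e3⟩ := red Ω K' R B
  rw [h.to816.gen_eq] at e1
  have st : ∀ s ∈ G, ∀ (t : K' ≃+* K') (ht : Sm K s t),
      mapDomain (plEquiv t s.toRingEquiv ht.cst) E = E := fun s hs t ht => by
    have q1 := weil_step h hQ n hR pm ht (fun i z => j3 s hs _) (fun g g0 o => by
      obtain ⟨y, e⟩ := b g g0 o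
      exact ⟨j y, j3 s hs y, by
        simpa only [map_prod, map_pow, map_zpow₀, AlgHom.comp_apply] using congrArg j e⟩) hb
    obtain ⟨f, f0, hf⟩ := e2
    have q2 : mapDomain (plEquiv t s.toRingEquiv ht.cst) B -
        (mapDomain (plEquiv t s.toRingEquiv ht.cst) E + single R r) ∈ prn Ω K' := by
      refine ⟨t f, (map_ne_zero t).2 f0, ?_⟩
      have := map_sub (mapDomain.addMonoidHom (plEquiv t s.toRingEquiv ht.cst)) B (E + single R r)
      rw [map_add] at this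
      simp only [mapDomain.addMonoidHom_apply, mapDomain_single, hR.sm h ht] at this
      rw [dv_plEquiv t _ ht.cst, ← this, hf]
    refine e3 _ (fun S => ?_) ?_
    · obtain ⟨S, rfl⟩ := (plEquiv t s.toRingEquiv ht.cst).surjective S
      rw [mapDomain_apply (plEquiv t _ ht.cst).injective]
      exact e0 S
    · convert add_mem (sub_mem q1 q2) (show B - (E + single R r) ∈ prn Ω K' from ⟨f, f0, hf⟩)
        using 1
      abel
  have hρ : c₂ * (c₁ * ρ) ≤ c₂ * c₁ * |ρ| := by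
    rw [mul_assoc]
    gcongr
    exact le_abs_self _
  have bE : v (dlD K' d θ x E) ≤ c₂ * c₁ * |ρ| := by
    rw [dlD_apply]
    refine De.le_sum v.na (by positivity) fun S hS => (v_int v _ _).trans ?_
    rcases pt_or_cst h S with ⟨ψ, hψ⟩ | ⟨P', hP⟩
    · obtain ⟨H, a1, a2, a3, a4⟩ := idx h G st hψ (Finsupp.mem_support_iff.1 hS)
      have := card_le e0
      rw [hψ.dl_eq]
      exact (h₂ Ω v d _ ψ fun z => (h₁ Ω v d G ρ hB H a1 a2 (by omega)).bd _
        fun s hs => a4 s hs z).trans hρ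
    · rw [hP.dl_eq, map_zero]
      positivity
  have q3 := dlD_prn h d hx hθ hb
  have q4 := dlD_prn h d hx hθ e2
  rw [map_sub, map_add, dlD_single, hR.dl_eq, smul_zero, add_zero, sub_eq_zero] at q4
  rw [map_sub, map_nsmul, q4, cyc, map_sub, map_sum, dlD_single, hR.dl_eq, smul_zero, sub_zero,
    sub_eq_zero] at q3
  have q5 : j (∑ i, n i • (φ i θ * d₀ (φ i x))) = N • dlD K' d θ x E := by
    rw [← q3, map_sum]
    refine Finset.sum_congr rfl fun i _ => ?_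
    rw [dlD_single, (hQ i).dl_eq, map_zsmul, map_mul, ← j2]
    rfl
  rw [← j1, q5, nsmul_eq_mul, map_mul, ← map_natCast (algebraMap C Ω), v.ext']
  exact mul_le_mul_of_nonneg_left bE (by positivity)

variable {C : Type} [NontriviallyNormedField C] [IsUltrametricDist C] [CompleteSpace C]
  [IsAlgClosed C]

theorem dM_pt {r : ℝ} (hr : 0 < r) {c : C} (hc : ‖c‖ ≤ r) (y : MM C r) (hy : y ∈ ptR hr hc) :
    dM C hr y ∈ ptR hr hc := by
  by_cases y0 : (y : C⸨X⸩) = 0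
  · rw [show y = 0 from Subtype.ext y0, map_zero]
    exact zero_mem _
  obtain ⟨u, D, h1, -, -, -, h5, h6⟩ := fac hr y.2 y0
  obtain ⟨P, -, hP⟩ := pr_poly (D := D ⊔ 0) fun a => le_sup_right (a := D) a
  obtain ⟨Q, Q1, hQ⟩ := pr_poly (D := (-D) ⊔ 0) fun a => le_sup_right (a := -D) a
  have Q0 : (Q : PowerSeries C) ≠ 0 := fun e => pr_ne _ (by rw [hQ, e, map_zero])
  have a1 := h1.mul (cv_poly r P)
  have a2 := cv_poly r Q
  have e1 : (y : C⸨X⸩) = am C (u * P) / am C Q := by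
    rw [map_mul, ← hP, ← hQ, mul_div_assoc, ← pr_sub, h5]
    congr 2
    ext a
    simp only [Finsupp.sub_apply, Finsupp.sup_apply, Finsupp.neg_apply, Finsupp.zero_apply]
    omega
  have k : ∀ {f}, (h : Cv r f) → (⟨_, am_div_mem h a2⟩ : MM C r) ∈ ptR hr hc := fun {f} h => by
    rw [mem_ptR] at hy ⊢
    by_cases f0 : f = 0
    · simp [f0, od_zero hr hc]
    have := od_am_nonneg hr hc h
    rw [h6 c hc] at hy
    rw [od_div hr hc h.mem a2.mem (am_ne f0) (am_ne Q0), ← hQ, od_pr hr hc, Finsupp.sup_apply,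
      Finsupp.neg_apply, Finsupp.zero_apply]
    omega
  rw [show dM C hr y = ⟨_, am_div_mem (a1.deriv hr) a2⟩ -
    ⟨_, am_div_mem a1 a2⟩ * ⟨_, am_div_mem (a2.deriv hr) a2⟩ from Subtype.ext (by
      change dL y.1 = _
      rw [e1]
      exact dL_div _ Q0)]
  exact sub_mem (k (a1.deriv hr)) (mul_mem (k a1) (k (a2.deriv hr)))

/-- **the bound for the coefficients** -/
theorem faq {k K : Type} [Field k] [CharZero k] [Field K] [Algebra k K] [CFF k K] (e : k →+* C)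
    (nt : ∃ a, 1 < ‖e a‖) {x θ : K} (hx : ∀ a : k, x ≠ algebraMap k K a)
    (hθ : θ ∈ LL k (wdv k x)) :
    ∃ c : ℝ, ∀ (ι : Type) [Fintype ι] (φ : ι → K →+* C⸨X⸩) (n : ι → ℤ) (N : ℕ), N ≠ 0 →
      (∀ i a, φ i (algebraMap k K a) = algebraMap C _ (e a)) →
      (∀ r, 0 < r → r < 1 → ∀ i z, φ i z ∈ MM C r) →
      (∀ g : K, g ≠ 0 → (∀ P : Plk k K, (N : ℤ) ∣ ord P g) →
        ∃ y, (∀ r, 0 < r → r < 1 → y ∈ MM C r) ∧ ∏ i, φ i g ^ n i = y ^ N) →
      ∀ m : ℤ, ‖(∑ i, n i • (φ i θ * dL (φ i x))).coeff m‖ ≤ ‖(N : C)‖ * c := by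
  have : IsAlgClosed k := CFF.ac K
  let A := (NormedField.toAbsoluteValue C).comp e.injective
  letI : NontriviallyNormedField k := { A.toNormedField with non_trivial := nt }
  have ne : ∀ a : k, ‖a‖ = ‖e a‖ := fun _ => rfl
  haveI : IsUltrametricDist k := IsUltrametricDist.isUltrametricDist_of_isNonarchimedean_norm
    fun a b => by rw [ne, ne, ne, map_add]; exact IsUltrametricDist.norm_add_le_max _ _
  obtain ⟨c, c0, h⟩ := faq0 k hx hθ
  refine ⟨2 * c, fun ι _ φ n N N0 h1 h2 h3 m => ?_⟩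
  obtain ⟨r, hr, r1, r2⟩ : ∃ r : ℝ, 0 < r ∧ r < 1 ∧ r ^ (m.toNat + 1) = 2⁻¹ :=
    ⟨2⁻¹ ^ (((m.toNat + 1 : ℕ) : ℝ)⁻¹), by positivity, Real.rpow_lt_one (by norm_num) (by norm_num)
      (by positivity), Real.rpow_inv_natCast_pow (by norm_num) (Nat.succ_ne_zero _)⟩
  obtain ⟨F, _, _, j, v, d, a1, a2, a3, a4⟩ : ∃ (F : Type) (_ : Field F) (_ : Algebra C F)
      (j : F →ₐ[C] C⸨X⸩) (v : NV C F) (d : Derivation C F F), (∀ y, v (d y) ≤ r⁻¹ * v y) ∧
      (∀ y, j (d y) = dL (j y)) ∧ (∀ y ∈ MM C r, ∃ z, j z = y) ∧ ∀ z, (∀ O : ValuationSubring F,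
        (∀ a, algebraMap C F a ∈ O) → (∀ y ∈ O, d y ∈ O) → z ∈ O) →
        ‖(j z).coeff m‖ * r ^ m.toNat ≤ v z := by
    refine ⟨MM C r, inferInstance, inferInstance, (MM C r).val, nv C hr, dM C hr, dM_le hr,
      fun _ => rfl, fun y hy => ⟨⟨y, hy⟩, rfl⟩, fun z hz => ?_⟩
    obtain ⟨f, f1, f2⟩ := hol hr z.2 fun a ha => (mem_ptR hr ha z).1 (hz _ (fun b =>
      (mem_ptR hr ha _).2 (od_const hr ha b).ge) (dM_pt hr ha))
    change ‖z.1.coeff m‖ * _ ≤ nm r z.1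
    rw [f2, nm_am hr f1]
    rcases lt_or_ge m 0 with hm | hm
    · rw [coeff_am_neg _ hm, norm_zero, zero_mul]
      exact gn_nonneg hr f
    · lift m to ℕ using hm
      rw [coeff_am]
      exact le_gn f1 m
  letI : Algebra k F := ((algebraMap C F).comp e).toAlgebra
  have sm : ∀ (a : k) (y : F), a • y = e a • y := fun a y => (Algebra.smul_def (e a) y).symm
  choose ψ hψ using fun i z => a3 _ (h2 r hr r1 i z)
  have ji : ∀ {a b}, j a = j b → a = b := fun h => j.injective h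
  let χ : ι → K →ₐ[k] F := fun i =>
    { toFun := ψ i
      map_one' := ji (by rw [hψ, map_one, map_one])
      map_mul' := fun a b => ji (by rw [map_mul, hψ, hψ, hψ, map_mul])
      map_zero' := ji (by rw [hψ, map_zero, map_zero])
      map_add' := fun a b => ji (by rw [map_add, hψ, hψ, hψ, map_add])
      commutes' := fun a => ji (by rw [hψ, h1]; exact (j.commutes _).symm) }
  have hχ : ∀ i z, j (χ i z) = φ i z := hψ
  let d' : Derivation k F F := Derivation.mk'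
    { toFun := d
      map_add' := map_add d
      map_smul' := fun a y => by rw [sm, sm, d.map_smul, RingHom.id_apply] } d.leibniz
  have h4 := h F ι ⟨v.av, v.na, fun a => v.ext' (e a)⟩ d' r⁻¹ a1 χ n N N0 fun g g0 o => by
    obtain ⟨y, y1, y2⟩ := h3 g g0 o
    obtain ⟨z, rfl⟩ := a3 y (y1 r hr r1)
    exact ⟨z, ji (by simpa only [map_prod, map_pow, map_zpow₀, hχ] using y2)⟩
  have h5 := (a4 _ fun O o1 o2 => sum_mem fun i _ => zsmul_mem
    (no_pole hx hθ d' (χ i) O (fun a => o1 (e a)) o2) (n i)).trans h4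
  rw [ne, map_natCast, abs_of_pos (inv_pos.2 hr), ← mul_assoc, ← div_eq_mul_inv, le_div_iff₀ hr,
    mul_assoc, ← pow_succ, r2, map_sum] at h5
  have h6 : ∀ i, j (n i • (χ i θ * d' (χ i x))) = n i • (φ i θ * dL (φ i x)) := fun i => by
    rw [map_zsmul, map_mul, hχ, ← hχ i x, ← a2]
    rfl
  simp only [h6] at h5
  linarith

end Vale.Agent.P004M.Fai
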