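import Vale.Agent.P004M.FaiA
import Vale.Agent.P022K.QT.Cu1
import Vale.Agent.P022K.QT.Cu2a

/-!
# P004M, row FAI: flat Kummer functions and the size of the correspondence on differentials
-/

set_option autoImplicit false
set_option linter.all false

noncomputable section

open PowerSeries LaurentSeries P025H746
open scoped MatrixGroups

namespace Vale.Agent.P004M.Fai

open P022K P022K.FI P022K.WB P022K.QT.Cu Vale.Agent.P022 Vale.Agent.P027M.M
  Vale.Agent.P022.H236.L3 Vale.Agent.P019P P025H492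
open P022K.FA (dL)

variable {N : ℕ} {f : FF} {x : Qb⸨X⸩}

theorem ex_zpow (hN : 0 < N) (h : Ex N f x) (n : ℤ) : Ex N (f ^ n) (x ^ n) := by
  have k : ∀ m : ℕ, Ex N (f ^ m) (x ^ m) := fun m => by
    induction m with
    | zero => simpa using ex_const N 1
    | succ m ih => rw [pow_succ, pow_succ]; exact ih.mul h
  rcases Int.eq_nat_or_neg n with ⟨m, rfl | rfl⟩
  · simpa using k m
  · rw [zpow_neg, zpow_neg, zpow_natCast, zpow_natCast, Ex, map_inv₀, map_inv₀]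
    exact ExM.inv hN.ne' (k m)

theorem ex_prod {ι : Type} (s : Finset ι) {f : ι → FF} {x : ι → Qb⸨X⸩}
    (h : ∀ i, Ex N (f i) (x i)) : Ex N (∏ i ∈ s, f i) (∏ i ∈ s, x i) := by
  rw [Ex, map_prod, map_prod]
  exact ExM.prod s fun i _ => h i

theorem ex_per (hN : 0 < N) (h : H218.L3.act (ModularGroup.T ^ N) (cv f) = cv f) :
    ∃ s, Ex N f s := by
  obtain ⟨s, h1, -⟩ := P027M.M.exp.2.2.1 N f hN h
  exact (ex_of hN h1).imp fun _ h => h.2

theorem ex_hom {K : Type} [Field K] (χ : K →+* FF) (hN : 0 < N) (h : ∀ z, ∃ s, Ex N (χ z) s) :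
    ∃ θ : K →+* Qb⸨X⸩, ∀ z, Ex N (χ z) (θ z) := by
  choose θ hθ using h
  exact ⟨{ toFun := θ
           map_one' := (hθ 1).unique hN (by simpa using ex_const N 1)
           map_mul' := fun x y => (hθ _).unique hN (map_mul χ x y ▸ (hθ x).mul (hθ y))
           map_zero' := (hθ 0).unique hN (by simpa using ex_const N 0)
           map_add' := fun x y => (hθ _).unique hN (map_add χ x y ▸ (hθ x).add (hθ y)) }, hθ⟩

theorem mp_dL {A B : Type} [Field A] [Field B] (σ : A →+* B) (z : A⸨X⸩) :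
    mp σ (dL z) = dL (mp σ z) := by
  ext k
  simp only [coeff_mp, LaurentSeries.derivative_apply, LaurentSeries.hasseDeriv_coeff, map_zsmul]

variable {C : Type} [NontriviallyNormedField C] [IsUltrametricDist C] [CompleteSpace C]
  [IsAlgClosed C] [CharZero C] (e : Qb →+* C) {p : ℕ} [hp : Fact p.Prime]

theorem lg_gal' (X : Mdl) (h0 : f ≠ 0) (s : GQ) (r : ℚ) :
    lg (e.comp (s : Qb →+* Qb)) p f r = lg e p (X.gal s f) r := by
  obtain ⟨N, hN, x, h⟩ := ex_lev f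
  funext i
  rw [lg, lg, h.co _ hN h0, (h.gal X hN s).co e hN ((_root_.map_ne_zero _).2 h0)]
  rfl

variable (np : ‖(p : C)‖ < 1)

include np

/-- the expansion of a flat function is a power -/
theorem root (f0 : f ≠ 0) {a k M : ℕ} (hM : 0 < M) (h : Ex (p ^ a) f x)
    (hF : ∀ d : ℕ, ¬ p ∣ d → ∃ l ∈ BW p C, lg e p f d = p ^ k • l)
    (hD : ∀ r c, 0 < r → r < 1 → ‖c‖ ≤ r → ((p ^ k : ℕ) : ℤ) ∣ od r c (mp e (ex M hM x))) :
    ∃ y, (∀ r, 0 < r → r < 1 → y ∈ MM C r) ∧ mp e (ex M hM x) = y ^ p ^ k := by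
  have ha := pow_pos hp.out.pos a
  have hk := pow_pos hp.out.pos k
  obtain ⟨u, hu⟩ := h.hf e ha f0
  obtain ⟨c', w, hw, e1⟩ := injc p C np a k u hu.1 fun d hd => by
    obtain ⟨l, hl, e2⟩ := hF d hd
    exact ⟨d • l, nsmul_mem hl d, by
      rw [h.cu e ha f0 hu hd a (r := d) (by push_cast; rfl), e2, smul_comm]⟩
  have hw' := ((up_am hw).ex hM).1
  obtain ⟨h1, c, D, c0, h2, h3⟩ := hu.ex hM
  rw [← mp_ex] at h3
  have h4 : Fac (mp e (ex M hM x)) c D := fac_iff.2 ⟨c0, h2, _, h1, h3⟩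
  have h5 : ∀ b, ((p ^ k : ℕ) : ℤ) ∣ D b := fun b => by
    by_cases hb : ‖b‖ < 1
    · obtain ⟨r, a1, a2, a3, -⟩ := exists_r hb hb
      rw [← h4.od a1 a2 a3]
      exact hD r b a1 a2 a3
    · rw [h4.out hb]
      exact dvd_zero _
  obtain ⟨D, rfl⟩ : ∃ D', D = p ^ k • D' := ⟨D.mapRange (· / (p ^ k : ℕ)) (by simp),
    Finsupp.ext fun b => by
      rw [Finsupp.smul_apply, Finsupp.mapRange_apply, nsmul_eq_mul, Int.mul_ediv_cancel' (h5 b)]⟩
  obtain ⟨γ, hγ⟩ := IsAlgClosed.exists_pow_nat_eq (c * c') hk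
  refine ⟨algebraMap _ _ γ * am _ (expand M hM.ne' w) * pr D, fun r a1 a2 => mul_mem
    (mul_mem (IntermediateField.algebraMap_mem _ γ) (hw'.1.cv a1 a2).mem) (pr_mem r D), ?_⟩
  rw [h3, e1, mul_pow, mul_pow, ← map_pow, hγ, pr_nsmul, map_mul, map_mul, expand_C, map_mul, am_C,
    map_pow, map_pow]
  ring

/-- **flat correspondences are small on differentials** -/
theorem fab {K : Type} [Field K] [Algebra Qb K] [CFF Qb K] {t y : K}
    (ht : ∀ c : Qb, t ≠ algebraMap Qb K c) (hy : y ∈ LL Qb (wdv Qb t)) :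
    ∃ c : ℝ, ∀ (ι : Type) [Fintype ι] (χ : ι → K →ₐ[Qb] FF) (θ : ι → K →+* Qb⸨X⸩) (n : ι → ℤ)
      (k a M : ℕ), 0 < M → (∀ i z, Ex (p ^ a * M) (χ i z) (θ i z)) →
      (∀ g : K, g ≠ 0 → (∀ P : Plk Qb K, ((p ^ k : ℕ) : ℤ) ∣ ord P g) →
        (∃ x, Ex (p ^ a) (∏ i, χ i g ^ n i) x) ∧
        ∀ d : ℕ, ¬ p ∣ d → ∃ l ∈ BW p C, lg e p (∏ i, χ i g ^ n i) d = p ^ k • l) →
      ∀ m : ℤ, ‖e ((∑ i, n i • (θ i y * dL (θ i t))).coeff m)‖ ≤ ‖(p : C)‖ ^ k * c := by
  have p0 : (p : C) ≠ 0 := Nat.cast_ne_zero.2 hp.out.ne_zero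
  obtain ⟨c, h⟩ := faq e ⟨(p : Qb)⁻¹, by
    rw [map_inv₀, map_natCast, norm_inv]
    exact (one_lt_inv₀ (norm_pos_iff.2 p0)).2 np⟩ ht hy
  refine ⟨c, fun ι _ χ θ n k a M hM h1 h2 m => ?_⟩
  have ha := pow_pos hp.out.pos a
  have hN := Nat.mul_pos ha hM
  have ne : ∀ i {z : K}, z ≠ 0 → χ i z ≠ 0 := fun i z h => (_root_.map_ne_zero _).2 h
  have nn : ∀ i {z : K}, z ≠ 0 → mp e (θ i z) ≠ 0 := fun i z h => by simpa using h
  have mm : ∀ r, 0 < r → r < 1 → ∀ i z, mp e (θ i z) ∈ MM C r := fun r a1 a2 i z => by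
    by_cases z0 : z = 0
    · rw [z0, map_zero, map_zero]
      exact zero_mem _
    obtain ⟨c, D, h⟩ := hf_iff.1 ((h1 i z).hf e hN (ne i z0))
    exact h.mem a1 a2
  have cs : ∀ i b, mp e (θ i (algebraMap Qb K b)) = algebraMap C _ (e b) := fun i b => by
    rw [(h1 i _).unique hN ((χ i).commutes b ▸ ex_const _ b), mp_C]
  have := h ι (fun i => (mp e).comp (θ i)) n (p ^ k) (pow_pos hp.out.pos k).ne' cs mm
    (fun g g0 o => by
      obtain ⟨⟨x, h3⟩, h4⟩ := h2 g g0 o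
      have e1 : mp e (ex M hM x) = ∏ i, mp e (θ i g) ^ n i := by
        rw [(h3.up ha hM).unique hN (ex_prod _ fun i => ex_zpow hN (h1 i g) (n i)), map_prod]
        simp only [map_zpow₀]
      obtain ⟨z, z1, z2⟩ := root e np (Finset.prod_ne_zero_iff.2 fun i _ =>
        zpow_ne_zero _ (ne i g0)) hM h3 h4 fun r c a1 a2 a3 => by
          rw [e1]
          refine (Finset.prod_induction _ (fun w => w ∈ MM C r ∧ w ≠ 0 ∧
            ((p ^ k : ℕ) : ℤ) ∣ od r c w) (fun u v hu hv => ⟨mul_mem hu.1 hv.1,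
              mul_ne_zero hu.2.1 hv.2.1, ?_⟩) ⟨one_mem _, one_ne_zero, ?_⟩ fun i _ =>
              ⟨zpow_mem (mm r a1 a2 i g) _, zpow_ne_zero _ (nn i g0), ?_⟩).2.2
          · rw [od_mul a1 a3 hu.1 hv.1 hu.2.1 hv.2.1]
            exact dvd_add hu.2.2 hv.2.2
          · rw [od_one a1 a3]
            exact dvd_zero _
          · rw [od_zpow a1 a3 (mm r a1 a2 i g)]
            refine (dvd_of_val (k := Qb) (fun x => od r c (mp e (θ i x))) (fun x y hx hy => ?_)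
              (fun x y hx hy h => ?_) (fun b => ?_) g0 o).mul_left _
            · rw [map_mul, map_mul, od_mul a1 a3 (mm r a1 a2 i x) (mm r a1 a2 i y) (nn i hx)
                (nn i hy)]
            · rw [map_add, map_add]
              exact od_add a1 a3 (mm r a1 a2 i x) (mm r a1 a2 i y)
                (by rw [← map_add, ← map_add]; exact nn i h)
            · rw [cs, od_const a1 a3]
      exact ⟨z, z1, e1.symm.trans z2⟩) m
  rw [Nat.cast_pow, norm_pow] at this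
  rw [← coeff_mp, map_sum]
  simpa only [map_zsmul, map_mul, mp_dL, RingHom.comp_apply] using this

omit np

/-- complex conjugation -/
theorem ex_cc : ∃ s : GQ, ∀ a, io (s a) = (starRingEnd ℂ) (io a) := by
  letI : Algebra Qb ℂ := (io : Qb →+* ℂ).toAlgebra
  haveI : IsScalarTower ℚ Qb ℂ := IsScalarTower.of_algebraMap_eq fun a => (io.commutes a).symm
  haveI : IsAlgClosure ℚ Qb := ⟨inferInstance, AlgebraicClosure.isAlgebraic ℚ⟩
  haveI : Normal ℚ Qb := IsAlgClosure.normal ℚ Qb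
  exact ⟨(Complex.conjAe.restrictScalars ℚ).restrictNormal Qb, fun a =>
    (Complex.conjAe.restrictScalars ℚ).restrictNormal_commutes Qb a⟩

omit [CompleteSpace C] [IsAlgClosed C] [CharZero C] [IsUltrametricDist C] in
/-- **the projection to the algebraic numbers** -/
theorem proj {s : GQ} (hs : ∀ a, io (s a) = (starRingEnd ℂ) (io a)) {J : Type} [Fintype J]
    (w w' : J → ℂ) : ∃ c : ℝ, ∀ (v : ℤ) (A : J → Qb) (B : ℝ),
      (v : ℂ) = ∑ j, w j * io (A j) + (starRingEnd ℂ) (∑ j, w' j * io (A j)) →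
      (∀ j, ‖e (A j)‖ ≤ B) → (∀ j, ‖e (s (A j))‖ ≤ B) → ‖(v : C)‖ ≤ c * B := by
  letI : Algebra Qb ℂ := (io : Qb →+* ℂ).toAlgebra
  obtain ⟨l, hl⟩ := (Algebra.linearMap Qb ℂ).exists_leftInverse_of_injective
    (LinearMap.ker_eq_bot.2 io_inj)
  have h1 : ∀ a, l (io a) = a := fun a => LinearMap.congr_fun hl a
  have h2 : ∀ z a, l (z * io a) = l z * a := fun z a => by
    rw [mul_comm, mul_comm _ a]
    exact l.map_smul a z
  refine ⟨∑ j, ‖e (l (w j))‖ + ∑ j, ‖e (l ((starRingEnd ℂ) (w' j)))‖, fun v A B h a1 a2 => ?_⟩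
  have h3 := congrArg (fun z => e (l z)) h
  simp only [map_add, map_sum, map_mul, ← hs, h2] at h3
  rw [← map_intCast io, h1, map_intCast] at h3
  rw [h3, add_mul, Finset.sum_mul, Finset.sum_mul]
  refine (norm_add_le _ _).trans (add_le_add ?_ ?_) <;>
    refine (norm_sum_le _ _).trans (Finset.sum_le_sum fun j _ => ?_) <;> rw [norm_mul]
  exacts [mul_le_mul_of_nonneg_left (a1 j) (norm_nonneg _),
    mul_le_mul_of_nonneg_left (a2 j) (norm_nonneg _)]

end Vale.Agent.P004M.Fai
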