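import Vale.Agent.P004M.Wt0
import Vale.Agent.P004M.Mo.Wh
import Vale.Agent.P022K.QT.ThM
import Vale.Agent.P022K.QT.Locm

/-!
# P004M, row FAI: levels, components and words
-/

set_option autoImplicit false
set_option linter.all false

open scoped MatrixGroups

noncomputable section

namespace Vale.Agent.P004M.Fai

open Vale.Agent.P022 Vale.Agent.P022K.Sh Vale.Agent.P022K.QT Vale.Agent.P022K.QT.Cl
open Vale.Agent.P022K.Sh.Tw Vale.Agent.P004M.Wt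
open Vale.Agent.P027M.M (Mid Lv)

variable {N : ℕ}

/-- a word is a finite sum of translations away from two -/
theorem op_rep (Q : FreeAlgebra ℤ (PA N)) : ∃ (ι : Type) (_ : Fintype ι) (m : ι → ℤ) (g : ι → G),
    (∀ i, ev q2 (g i) = 1) ∧ ∀ (B : Type) [AddCommGroup B] (f : G → B) x,
      op N B Q f x = ∑ i, m i • f (x * g i) := by
  induction Q using FreeAlgebra.induction with
  | grade0 r => exact ⟨Unit, inferInstance, fun _ => r, fun _ => 1, fun _ => map_one _,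
      fun B _ f x => by simp⟩
  | grade1 l =>
    let _ := Fintype.ofFinite (IsLocalRing.ResidueField ℤ_[pl l])
    refine ⟨_, inferInstance, fun _ => 1, fun i => io (pl l) ((lc (pl l)).tr i), fun i =>
      ev_io_ne (fun e => n2 l 1 ?_) _, fun B _ f x => by simp only [op_ι, Tf_apply, one_smul]⟩
    rw [← e]
    exact dvd_rfl
  | mul a b ha hb =>
    obtain ⟨ι, _, m, g, h1, h2⟩ := ha
    obtain ⟨ι', _, m', g', h1', h2'⟩ := hb
    exact ⟨ι × ι', inferInstance, fun i => m i.1 * m' i.2, fun i => g i.1 * g' i.2,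
      fun i => by rw [map_mul, h1, h1', mul_one], fun B _ f x => by
        simp only [map_mul, Module.End.mul_apply, h2, h2', Fintype.sum_prod_type, mul_smul,
          Finset.smul_sum, mul_assoc]⟩
  | add a b ha hb =>
    obtain ⟨ι, _, m, g, h1, h2⟩ := ha
    obtain ⟨ι', _, m', g', h1', h2'⟩ := hb
    exact ⟨ι ⊕ ι', inferInstance, Sum.elim m m', Sum.elim g g', Sum.rec h1 h1', fun B _ f x => by
      simp only [map_add, LinearMap.add_apply, Pi.add_apply, h2, h2', Fintype.sum_sum_type,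
        Sum.elim_inl, Sum.elim_inr]⟩

variable [NeZero N] {M n : ℕ} {x u : G}

theorem conj_UU (hM : 0 < M) (hx : x ∈ UU N 1) (hu : u ∈ UU N M) : x⁻¹ * u * x ∈ UU N M :=
  mem_UU.2 ⟨mem_cj.1 ((conj_UN (mem_UU.1 hx).1 hM).ge (mem_UU.1 hu).1),
    (mem_UU.1 (mul_mem (mul_mem (inv_mem hx) (UU_le hM hu)) hx)).2⟩

theorem gam_iff (hM : 0 < M) (hx : x ∈ UU N 1) {γ : G0} :
    γ ∈ TQ.Gam (UU N M) x ↔ TQ.j γ ∈ UU N M :=
  TQ.mem_Gam.trans ⟨fun h => by simpa [mul_assoc] using conj_UU hM (inv_mem hx) h, conj_UU hM hx⟩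

theorem away (hu : u ∈ UU N 1) (h : ev q2 u = 1) (n : ℕ) : u ∈ UU N (2 ^ n) :=
  mem_PU.2 fun l => by
    by_cases e : l = q2
    · rw [e, h]
      exact one_mem _
    · have := mem_PU.1 hu l
      rw [VV, Nat.factorization_one, Finsupp.zero_apply] at this
      rwa [VV, Nat.factorization_eq_zero_of_not_dvd fun d => e (Subtype.ext
        ((Nat.prime_dvd_prime_iff_eq l.2 Nat.prime_two).1 (l.2.dvd_of_dvd_pow d)))]

omit [NeZero N] in
theorem T_KN {b : ℕ} (hM : 0 < M) (h : M ∣ b) : TQ.j (iZ (ModularGroup.T ^ b)) ∈ KN M :=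
  (j_KN hM).2 (by
    simpa using CongruenceSubgroup.ModularGroup_T_pow_mem_Gamma M b (Int.natCast_dvd_natCast.2 h))

theorem T_UU {b : ℕ} (hM : 0 < M) (h : M ∣ b) : TQ.j (iZ (ModularGroup.T ^ b)) ∈ UU N M := by
  refine mem_UU.2 ⟨KN_le M (T_KN hM h), ((mem_UU (M := 1)).1 (mem_PU.2 fun l => ?_)).2⟩
  rw [show iZ (ModularGroup.T ^ b) = tq 1 b 1 one_pos from Subtype.ext (Units.ext ?_)]
  · exact tq_VV one_pos l.2.not_dvd_one
  · ext i k
    rw [iZ_apply, ← zpow_natCast, ModularGroup.coe_T_zpow, tq_val]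
    fin_cases i <;> fin_cases k <;> simp

theorem per_odd (hx : x ∈ UU N 1) {g : G} (hg : ev q2 g = 1) (n : ℕ) : ∃ M, Odd M ∧ ∀ b,
    2 ^ n ∣ b → M ∣ b → iZ (ModularGroup.T ^ b) ∈ TQ.Gam (UU N (2 ^ n)) (x * g) := by
  obtain ⟨E, hE, h⟩ := ex_lev (lev (N := N) n) (x * g)⁻¹
  refine ⟨ordCompl[2] E, Nat.coprime_two_left.1 (Nat.coprime_ordCompl Nat.prime_two hE.ne'),
    fun b h1 h2 => TQ.mem_Gam.2 (mem_PU.2 fun l => ?_)⟩
  by_cases e : l = q2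
  · subst e
    simpa [hg] using mem_PU.1 (conj_UU (pow_pos two_pos n) hx (T_UU (pow_pos two_pos n) h1)) q2
  · have := mem_PU.1 (h (TQ.j (iZ (ModularGroup.T ^ b)) *
      (io q2 (ev q2 (TQ.j (iZ (ModularGroup.T ^ b)))))⁻¹) (mem_PU.2 fun r => ?_)) l
    · simpa only [map_mul, map_inv, ev_io_ne e, inv_one, mul_one, inv_inv] using this
    rw [map_mul, map_inv]
    by_cases e' : r = q2
    · rw [e', ev_io, mul_inv_cancel]
      exact one_mem _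
    · have := mem_PU.1 (T_KN (Nat.ordCompl_pos 2 hE.ne') h2) r
      rw [Nat.factorization_ordCompl, Finsupp.erase_ne fun d => e' (Subtype.ext d)] at this
      rwa [ev_io_ne e', inv_one, mul_one]

variable (N n) in
/-- the group of all components -/
def Gm : Subgroup SL(2, ℤ) := (UU N (2 ^ n)).comap (TQ.j.comp iZ)

theorem gex {γ : G0} (h : TQ.j γ ∈ UU N (2 ^ n)) :
    ∃ g ∈ Gm N n, g ∈ CongruenceSubgroup.Gamma0 N ∧ ∃ ζ ∈ TQ.Z0, γ = iZ g * ζ := by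
  obtain ⟨g, h1, ζ, h2, rfl⟩ := stab_UU (UU_le (pow_pos two_pos n) h)
  rw [map_mul] at h
  exact ⟨g, (Subgroup.mul_mem_cancel_right _ (Tw.Z_le (lev n) ((ok_z0 _).1 h2))).1 h, h1, ζ, h2, rfl⟩

theorem mid (h4 : 4 ∣ N) (n : ℕ) : ∃ E, 0 < E ∧ Mid (2 ^ n * E) (Gm N n) := by
  obtain ⟨E, hE, lo⟩ := ex_lv (lev (N := N) n) 1
  have h0 := Nat.mul_pos (pow_pos two_pos n) hE.pos
  refine ⟨E, hE.pos, ⟨h0, hE.four.mul_left _⟩, fun g hg => (by
    simpa using mem_cj.1 (lo (UN_anti h0 (dvd_mul_left _ _) (gt_UN h0 hg))) :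
      TQ.j (iZ g) ∈ UU N (2 ^ n)), fun g hg => ?_⟩
  obtain ⟨g', -, h1, ζ, h2, h3⟩ := gex (γ := iZ g) hg
  rw [← inv_mul_eq_iff_eq_mul, ← map_inv, ← map_mul] at h3
  obtain ⟨c, hc⟩ := scalar_of_mem (mem_Z0.1 (h3 ▸ h2))
  have h5 : (((g'⁻¹ * g) 1 0 : ℤ) : ℚ) = 0 := by
    rw [← iZ_apply, hc]
    simp
  rw [← mul_inv_cancel_left g' g]
  refine mul_mem (CongruenceSubgroup.Gamma0_mem.2 ?_) (CongruenceSubgroup.Gamma0_mem.2 ?_)
  · exact (ZMod.intCast_zmod_eq_zero_iff_dvd _ _).2 ((Int.natCast_dvd_natCast.2 h4).trans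
      ((ZMod.intCast_zmod_eq_zero_iff_dvd _ _).1 (CongruenceSubgroup.Gamma0_mem.1 h1)))
  · rw [Int.cast_eq_zero.1 h5, Int.cast_zero]

variable (N n) in
/-- a choice of components -/
structure Cp (S : Finset G) (κ : G → G0) (o : G → G) : Prop where
  uu : ∀ s ∈ S, s ∈ UU N 1
  two : ∀ s ∈ S, ∃ g, s = io q2 g
  sur : ∀ x, ∃ s ∈ (S : Set G), ∃ γ, ∃ u ∈ UU N (2 ^ n), x = TQ.j γ * s * u
  ik : Inv (UU N (2 ^ n)) κ
  io : Inv (UU N (2 ^ n)) o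
  mem : ∀ x, o x ∈ S
  eq : ∀ x, (TQ.j (κ x) * o x)⁻¹ * x ∈ UU N (2 ^ n)
  lf : ∀ γ x, o ((TQ.j γ)⁻¹ * x) = o x

variable (N n) in
theorem ex_cp : ∃ S κ o, Cp N n S κ o := by
  classical
  obtain ⟨S, hS⟩ := okq.fin _ (lev (N := N) n)
  have k : ∀ y ∈ UU N 1, (io q2 (ev q2 y))⁻¹ * y ∈ UU N (2 ^ n) ∧ io q2 (ev q2 y) ∈ UU N 1 :=
    fun y hy => by
      have : io q2 (ev q2 y) ∈ UU N 1 := mem_PU.2 fun l => by
        by_cases e : l = q2
        · rw [e, ev_io]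
          exact mem_PU.1 hy q2
        · rw [ev_io_ne e]
          exact one_mem _
      exact ⟨away (mul_mem (inv_mem this) hy) (by rw [map_mul, map_inv, ev_io, inv_mul_cancel]) n,
        this⟩
  let S' := S.image fun s => io q2 (ev q2 ((TQ.j (kp N s))⁻¹ * s))
  have h : ∀ x, ∃ s ∈ (S' : Set G), ∃ γ, ∃ u ∈ UU N (2 ^ n), x = TQ.j γ * s * u := fun x => by
    obtain ⟨s, hs, γ, u, hu, rfl⟩ := hS x
    exact ⟨_, Finset.mem_image_of_mem _ hs, γ * kp N s, _, mul_mem (k _ (kp_mem s)).1 hu, by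
      simp [mul_assoc]⟩
  obtain ⟨κ, o, h1, h2, h3, h4, h5⟩ := ex_cmp h
  exact ⟨S', κ, o, Finset.forall_mem_image.2 fun s _ => (k _ (kp_mem s)).2,
    Finset.forall_mem_image.2 fun s _ => ⟨_, rfl⟩, h, h1, h2, h3, h4, h5⟩

variable {S : Finset G} {κ : G → G0} {o : G → G}

theorem Cp.ch (h : Cp N n S κ o) (γ : G0) (x : G) : ∃ g ∈ Gm N n, ∃ ζ ∈ TQ.Z0,
    γ * κ ((TQ.j γ)⁻¹ * x) = κ x * (iZ g * ζ) := by
  obtain ⟨g, h1, -, ζ, h2, e⟩ := gex (N := N) (n := n)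
    (γ := (κ x)⁻¹ * (γ * κ ((TQ.j γ)⁻¹ * x))) ((gam_iff (pow_pos two_pos n)
      (h.uu _ (h.mem x))).1 (TQ.mem_Gam.2 (by
        have := mul_mem (h.eq x) (inv_mem (h.eq ((TQ.j γ)⁻¹ * x)))
        rw [h.lf] at this
        simpa [mul_assoc] using this)))
  exact ⟨g, h1, ζ, h2, by rw [← e, mul_inv_cancel_left]⟩

theorem Cp.per (h : Cp N n S κ o) {g : SL(2, ℤ)} (hg : iZ g ∈ TQ.Gam (UU N (2 ^ n)) x) :
    ∃ g' ∈ Gm N n, ∃ ζ ∈ TQ.Z0, iZ g * κ x = κ x * (iZ g' * ζ) := by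
  have := h.ch (iZ g) x
  rwa [show (TQ.j (iZ g))⁻¹ * x = x * (x⁻¹ * TQ.j (iZ g) * x)⁻¹ by group,
    h.ik _ _ (inv_mem (TQ.mem_Gam.1 hg))] at this

end Vale.Agent.P004M.Fai
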