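import Vale.Agent.P004M.FaiB
import Vale.Agent.P004M.FaiC
import Vale.Agent.P027M.Th.KDefs

/-!
# P004M, row FAI: the Kummer functions of one component
-/

set_option autoImplicit false
set_option linter.all false

open scoped MatrixGroups

noncomputable section

namespace Vale.Agent.P004M.Fai

open Vale.Agent.P022 Vale.Agent.P022K.Sh Vale.Agent.P022K.QT Vale.Agent.P022K.QT.Cl
open Vale.Agent.P022K.Sh.Tw Vale.Agent.P004M.Wt
open Vale.Agent.P027M.M (Mid Lv Mdl FF FS L cv mkF cv_inj cv_mem cv_alg M2)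
open Vale.Agent.P022K.WB (cl BW G2 cl_eq_zero)
open Vale.Agent.P022K.FI (CS)
open Vale.Agent.P022.H218.L3 (Mer)
open Vale.Agent.P019P P025H492 P025H816

/-- the action on the modular functions -/
def ac (X : Mdl) (δ : G0) : FF →ₐ[Qb] FF where
  toFun f := mkF _ (act_FS X δ (cv_mem f))
  map_one' := cv_inj ((congrArg (TQ.act δ) (map_one cv)).trans ((map_one _).trans (map_one cv).symm))
  map_mul' f g := cv_inj ((congrArg (TQ.act δ) (map_mul cv f g)).trans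
    ((map_mul _ _ _).trans (map_mul cv (mkF _ _) (mkF _ _)).symm))
  map_zero' := cv_inj ((congrArg (TQ.act δ) (map_zero cv)).trans
    ((map_zero _).trans (map_zero cv).symm))
  map_add' f g := cv_inj ((congrArg (TQ.act δ) (map_add cv f g)).trans
    ((map_add _ _ _).trans (map_add cv (mkF _ _) (mkF _ _)).symm))
  commutes' a := cv_inj ((congrArg (TQ.act δ) (cv_alg a)).trans
    (((TQ.act δ).commutes _).trans (cv_alg a).symm))

theorem cv_ac (X : Mdl) (δ : G0) (f : FF) : cv (ac X δ f) = TQ.act δ (cv f) := rfl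

/-- words on classes modulo `r` -/
abbrev wH (N : ℕ) [NeZero N] (r n : ℕ) :
    FreeAlgebra ℤ (PA N) →ₐ[ℤ] Module.End (ZMod r) (TQ.Hn r (UU N (2 ^ n))) :=
  FreeAlgebra.lift ℤ fun l : PA N => TQ.hH _ (cor l n)

variable {N : ℕ} [NeZero N] {n k : ℕ}

/-- all Kummer functions in the image of the word are flat -/
def Hy (X : Mdl) (e : Qb →+* CS 2) (n k : ℕ) (P : FreeAlgebra ℤ (PA N)) : Prop :=
  ∀ b φ, TQ.Kf (2 ^ k) (UU N (2 ^ n)) (wH N _ n P b) φ → FV φ →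
    ∀ (s : GQ) (g : G2 2) (d : ℕ) (hd : 0 < d * 1), Odd d →
      ∀ f, cv f = th X s φ (TQ.j (tq d 0 1 hd) * io q2 g) → cl 2 k (Cu.lg e 2 f 1) = 0

variable {P : FreeAlgebra ℤ (PA N)} {ι : Type} [Fintype ι] {m : ι → ℤ} {g : ι → G}
  (hP : ∀ (B : Type) [AddCommGroup B] (f : G → B) x, op N B P f x = ∑ i, m i • f (x * g i))

include hP in
theorem kum_op {a : ℕ} (ha : 0 < a) {h : G → Mer} {z : G0 → G → ZMod a}
    (c : TQ.Kum a (UU N (2 ^ n)) h z) : TQ.Kum a (UU N (2 ^ n)) (fun x => ∏ i, h (x * g i) ^ m i)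
      fun γ => op N (ZMod a) P (z γ) := by
  refine ⟨fun x => Finset.prod_ne_zero_iff.2 fun i _ => zpow_ne_zero _ (c.1 _), fun x u hu => ?_,
    fun γ x => ?_⟩
  · have := op_inv n P (fun x => Additive.ofMul (Units.mk0 (h x) (c.1 x))) (fun x u hu => by
      simp only [c.2.1 x u hu]) x u hu
    rw [hP, hP] at this
    simpa using congrArg (fun w => ((Additive.toMul w : Merˣ) : Mer)) this
  · change _ = eM a (op N (ZMod a) P (z γ) x) * _
    rw [hP, eM_sum ha, ← Finset.prod_mul_distrib, map_prod]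
    refine Finset.prod_congr rfl fun i _ => ?_
    rw [map_zpow₀, mul_assoc, c.eq, mul_zpow]
    congr 1
    exact ((⟨eM a, eM_zero a, eM_add ha⟩ : AddChar (ZMod a) Mer).map_zsmul_eq_zpow _ _).symm

theorem fix {Γ : Subgroup SL(2, ℤ)} (y : L Γ) {c : SL(2, ℤ)} (hc : c ∈ Γ) {ζ : G0}
    (hζ : ζ ∈ TQ.Z0) (δ : G0) : TQ.act (δ * (iZ c * ζ)) (cv y) = TQ.act δ (cv y) := by
  rw [act_mul, act_mul, act_Z0 hζ, act_iZ, y.2 c hc]

variable {S : Finset G} {κ : G → G0} {o : G → G}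

theorem ex_ac (X : Mdl) (h : Cp N n S κ o) {x : G} {b : ℕ} (hb : 0 < b)
    (hx : iZ (ModularGroup.T ^ b) ∈ TQ.Gam (UU N (2 ^ n)) x) (y : L (Gm N n)) :
    ∃ s, Cu.Ex b (ac X (κ x) y) s := by
  obtain ⟨c, hc, ζ, hζ, e⟩ := h.per hx
  exact ex_per hb (by rw [cv_ac, ← act_iZ, ← act_mul, e, fix y hc hζ])

include hP in
open Classical in
theorem flat (hK : P027M.Th.KAP) {X : Mdl} {e : Qb →+* CS 2} (h : Cp N n S κ o) {E : ℕ}
    (hm : Mid E (Gm N n)) [CFF Qb (L (Gm N n))] (hy : Hy X e n k P) {x : G} (hx : x ∈ S) (o₀ : G)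
    (s : GQ) (y : L (Gm N n)) (y0 : y ≠ 0) (hd : ∀ Q : Plk Qb (L (Gm N n)),
      ((2 ^ k : ℕ) : ℤ) ∣ ord Q y) {f : FF}
    (hf : f = ∏ i, ac X (κ (x * g i)) y ^ (if o (x * g i) = o₀ then m i else 0)) :
    (∃ w, Cu.Ex (2 ^ n) f w) ∧ ∀ d : ℕ, ¬ 2 ∣ d →
      ∃ l ∈ BW 2 (CS 2), Cu.lg (e.comp (s : Qb →+* Qb)) 2 f d = 2 ^ k • l := by
  have hn : 0 < 2 ^ k := pow_pos two_pos k
  let φ : G → Mer := fun x => if o x = o₀ then TQ.act (κ x) (cv y) else 1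
  have hφ : φ ∈ TQ.RU (UU N (2 ^ n)) := ⟨fun γ x => by
      obtain ⟨c, hc, ζ, hζ, e1⟩ := h.ch γ (TQ.j γ * x)
      have e2 := h.lf γ (TQ.j γ * x)
      rw [inv_mul_cancel_left] at e1 e2
      simp only [φ, ← e2]
      split_ifs
      · rw [← act_mul, e1, fix y hc hζ]
      · rw [map_one],
    fun x u hu => by simp only [φ, h.ik x u hu, h.io x u hu]⟩
  obtain ⟨_, kk⟩ := hK E _ hm _ hn
  obtain ⟨r, r0, r1, -⟩ := kk.rep ⟨Units.mk0 y y0, hd⟩
  obtain ⟨H, z, c, e1⟩ := ex_kum_rt hn hφ fun x => ⟨x, Rel.refl x,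
    if o x = o₀ then TQ.act (κ x) r else 1, by
      split_ifs
      exacts [(map_ne_zero _).2 r0, one_ne_zero], by
      simp only [φ]
      split_ifs
      · rw [← map_pow, r1]
        rfl
      · rw [one_pow]⟩
  have hz := c.mem0 okq (lev n) hn
  have c' := kum_op hP hn c
  obtain ⟨ψ, hψ⟩ : ∃ ψ, ψ = (fun x => ∏ i, H (x * g i) ^ m i) ^ 2 ^ k := ⟨_, rfl⟩
  have e2 : ∀ x, ψ x = ∏ i, φ (x * g i) ^ m i := fun x => by
    rw [hψ, Pi.pow_apply, ← Finset.prod_pow, ← e1]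
    exact Finset.prod_congr rfl fun i _ => by
      rw [Pi.pow_apply, ← zpow_natCast, ← zpow_natCast, ← zpow_mul, ← zpow_mul, mul_comm]
  have fv : FV ψ := fun x => by
    rw [e2]
    refine prod_mem fun i _ => zpow_mem ?_ _
    simp only [φ]
    split_ifs
    exacts [act_FS X _ (cv_mem _), one_mem _]
  have ru : ψ ∈ TQ.RU (UU N (2 ^ n)) := hψ ▸ c'.pow_mem hn
  have e3 : cv f = ψ x := by
    rw [e2, hf, map_prod]
    refine Finset.prod_congr rfl fun i _ => ?_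
    simp only [φ]
    split_ifs
    · rw [map_zpow₀, cv_ac]
    · rw [zpow_zero, map_one, one_zpow]
  have f0 : f ≠ 0 := fun e => (hψ ▸ c'.pow_ne x : ψ x ≠ 0) (by rw [← e3, e, map_zero])
  refine ⟨ex_per (pow_pos two_pos n) ?_, fun d hd => ?_⟩
  · rw [e3, ← act_iZ, ← RU_val ru _ x (inv_mem (conj_UU (pow_pos two_pos n) (h.uu x hx)
      (T_UU (pow_pos two_pos n) dvd_rfl)))]
    congr 1
    group
  have d0 : 0 < d := Nat.pos_of_ne_zero fun e => hd (e ▸ dvd_zero 2)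
  have d1 : 0 < d * 1 := by omega
  have hA : 0 < (!![(d : ℤ), 0; 0, ((1 : ℕ) : ℤ)] : M2).det := by simpa using d0
  have e4 : gz _ hA = tq d 0 1 d1 := Subtype.ext (Units.ext (by
    rw [gz_val, tq_val]
    ext i j
    fin_cases i <;> fin_cases j <;> simp))
  have e5 : f = X.pb _ hA (ac X (tq d 0 1 d1) f) := cv_inj (by
    rw [X.pb_coe, ← act_gz, cv_ac, ← act_mul, e4, inv_mul_cancel, act_one])
  have f1 : ac X (tq d 0 1 d1) f ≠ 0 := (map_ne_zero _).2 f0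
  obtain ⟨g₀, rfl⟩ := h.two x hx
  obtain ⟨w1, w2⟩ := Mo.dl_mem q2 N s
  obtain ⟨l, hl, e6⟩ := cl_eq_zero.1 (hy _ ψ ⟨⟨_, op_Z1 P hz⟩, _, (op_mk n P ⟨z, hz⟩).symm, c',
    hψ.symm⟩ fv s (dO ℚ_[q2] (chi q2 s) * g₀) d d1 (Nat.odd_iff.2 (Nat.two_dvd_ne_zero.1 hd))
    (X.gal s (ac X (tq d 0 1 d1) f)) (th_val fv (by
      rw [cv_ac, e3, ← RU_val ru _ _ (away w1 w2 n), mul_assoc (TQ.j _), (io_com _ _ _ w2).eq,
        ← mul_assoc (dl s), show dl s * TQ.j (tq d 0 1 d1) = TQ.j (tq d 0 1 d1) * dl s from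
          G_ext fun l => Units.ext ?_, map_mul, mul_assoc, mul_assoc]
      change (dO ℚ_[l] _).val * (jl l (tq d 0 1 d1).1).val =
        (jl l (tq d 0 1 d1).1).val * (dO ℚ_[l] _).val
      rw [jl_tq]
      simp [dO, dg_val, mul_comm])).symm)
  refine ⟨l, hl, ?_⟩
  rw [← e6, ← lg_gal' e X f1]
  funext i
  conv_lhs => rw [e5]
  rw [Cu.lg_pb _ 2 X f1 0 d0 one_pos hA]
  simp [Cu.E_zero, d0.ne']

end Vale.Agent.P004M.Fai
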