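import Vale.Agent.P004M.FaiD
import Vale.Agent.P027M.ES.Prim

/-!
# P004M, row FAI: words with flat Kummer functions kill the parabolic classes
-/

set_option autoImplicit false
set_option linter.all false

open UpperHalfPlane Filter
open scoped MatrixGroups LaurentSeries

noncomputable section

namespace Vale.Agent.P004M.Fai

open Vale.Agent.P022 Vale.Agent.P022K.Sh Vale.Agent.P022K.QT Vale.Agent.P022K.QT.Cl
open Vale.Agent.P022K.Sh.Tw Vale.Agent.P004M.Wt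
open Vale.Agent.P027M.M (Mid Lv Mdl FF FS L cv ioL)
open Vale.Agent.P022K.FI (CS)
open Vale.Agent.P022.H218.L3 (Mer Bdd IsMF)
open Vale.Agent.P022.H236.L3 (ExL)
open Vale.Agent.P022.H542.L3 (LS)
open Vale.Agent.P027M.ES (Prim per AddOn)
open Vale.Agent.P022K.FA (dL)
open Vale.Agent.P019P P025H492 P025H816

/-- **algebraic forms** -/
def FMA (X : Mdl) : Prop := ∀ (N : ℕ) (Γ : Subgroup SL(2, ℤ)) (h : Mid N Γ) [CFF Qb (L Γ)],
  (∀ c : Qb, X.tL h.hi ≠ algebraMap _ _ c) ∧ ∃ (a : ℕ) (y : Fin a → L Γ) (F : Fin a → ℍ → ℂ),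
    (∀ j, y j ∈ LL Qb (wdv Qb (X.tL h.hi))) ∧
    (∀ φ, AddOn Γ φ → (∀ γ ∈ Γ, (γ : Matrix (Fin 2) (Fin 2) ℤ).trace ^ 2 = 4 → φ γ = 0) →
      ∃ α β : Fin a → ℂ, ∀ γ ∈ Γ, ∀ τ, φ γ = per (∑ j, α j • F j) (∑ j, β j • F j) γ τ) ∧
    ∀ j (δ : G0) (M : ℕ) (f g : FF) (s s' : Qb⸨X⸩), 0 < M → cv f = TQ.act δ (cv (y j : FF)) →
      cv g = TQ.act δ (cv X.t) → Cu.Ex M f s → Cu.Ex M g s' →
      ∃ w, Bdd 2 w ∧ Prim w (fun τ => F j ((TQ.r δ)⁻¹ • τ)) ∧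
        ExL M (ioL ((M : Qb)⁻¹ • (HahnSeries.single 1 1 * (s * dL s')))) w

/-- **periods are combinations of coefficients** -/
def FMB : Prop := ∀ (N : ℕ) (Γ : Subgroup SL(2, ℤ)), Mid N Γ → ∀ γ ∈ Γ,
  ∃ (S : Finset ℕ) (u : ℕ → ℂ), ∀ w W w' W', Bdd 2 w → Bdd 2 w' → Prim w W → Prim w' W' →
    (∀ δ ∈ Γ, ∀ τ τ', per W W' δ τ = per W W' δ τ') → ∀ (M : ℕ) (s s' : LS), 0 < M →
    ExL (N * M) s w → ExL (N * M) s' w' → ∀ τ, per W W' γ τ =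
      ∑ m ∈ S, u m * s.coeff (m * M : ℕ) + (starRingEnd ℂ) (∑ m ∈ S, u m * s'.coeff (m * M : ℕ))

theorem bdd_sum {ι : Type} (s : Finset ι) (c : ι → ℂ) {w : ι → ℍ → ℂ} (h : ∀ i, Bdd 2 (w i)) :
    Bdd 2 (∑ i ∈ s, c i • w i) :=
  have := P027M.ES.isMF_sum (Γ := ⊥) s fun i _ => ((h i).isMF fun γ hγ => by
    rw [Subgroup.mem_bot.1 hγ, SlashAction.slash_one]).smul (c i)
  ⟨this.hol, this.bdd⟩

variable {N : ℕ} [NeZero N] {n : ℕ} {S : Finset G} {κ : G → G0} {o : G → G} {z : G0 → G → ℤ}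

theorem prim_coc (h : Cp N n S κ o) (hz : z ∈ TQ.Z1 (Representation.trivial ℤ G0 ℤ) (UU N (2 ^ n)))
    {H : G → ℍ → ℂ} (hH : ∀ v ∈ S, ∀ c ∈ Gm N n, ∀ τ, (z (iZ c) v : ℂ) = H v (c • τ) - H v τ)
    {P : FreeAlgebra ℤ (PA N)} {ι : Type} [Fintype ι] {m : ι → ℤ} {g : ι → G}
    (hP : ∀ (B : Type) [AddCommGroup B] (f : G → B) x, op N B P f x = ∑ i, m i • f (x * g i))
    {x : G} (hx : x ∈ S) {c : SL(2, ℤ)} (hc : c ∈ Gm N n) (τ : ℍ) :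
    (op N ℤ P (z (iZ c)) x : ℂ) = ∑ i, m i * (H (o (x * g i)) ((TQ.r (κ (x * g i)))⁻¹ • c • τ) -
      H (o (x * g i)) ((TQ.r (κ (x * g i)))⁻¹ • τ)) := by
  let Φ : ℍ → G → ℂ := fun τ x => z (κ x) x + H (o x) ((TQ.r (κ x))⁻¹ • τ)
  have a1 : Inv (UU N (2 ^ n)) (Φ τ) := fun x u hu => by
    simp only [Φ, h.ik x u hu, h.io x u hu, hz.1 _ x u hu]
  have a2 : ∀ x, (z (iZ c) x : ℂ) = Φ (c • τ) x - Φ τ ((TQ.j (iZ c))⁻¹ * x) := fun x => by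
    obtain ⟨d, hd, ζ, hζ, e⟩ := h.ch (iZ c) x
    have e1 := coc_nf hz (δ' := κ ((TQ.j (iZ c))⁻¹ * x)) (γ := iZ c) (h.eq x)
    rw [e, inv_mul_cancel_left, coc_z0 hz _ hζ, Representation.trivial_apply,
      Representation.trivial_apply] at e1
    have e2 := hH _ (h.mem x) d hd ((TQ.r (κ ((TQ.j (iZ c))⁻¹ * x)))⁻¹ • τ)
    rw [← e1, show d • _ = (TQ.r (κ x))⁻¹ • c • τ by
      rw [← mnq.act, ← mnq.act, ← mem_Z0.1 hζ ((TQ.r _)⁻¹ • τ), ← mul_smul, ← map_mul,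
        ← inv_mul_cancel_left (κ x) (iZ d * ζ), ← e, map_mul, map_mul, map_inv, mul_smul, mul_smul,
        smul_inv_smul]] at e2
    simp only [Φ, h.lf]
    push_cast at e2
    linear_combination e2
  have a3 := op_inv n P _ a1 x _ (inv_mem (conj_UU (pow_pos two_pos n) (h.uu x hx) hc))
  rw [show x * _ = (TQ.j (iZ c))⁻¹ * x by simp [mul_assoc], hP, hP] at a3
  rw [hP, Int.cast_sum]
  simp only [Int.cast_mul, Int.cast_id, a2, zsmul_eq_mul, mul_sub, Finset.sum_sub_distrib,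
    ← mul_assoc] at a3 ⊢
  rw [a3, ← Finset.sum_sub_distrib, ← Finset.sum_sub_distrib]
  exact Finset.sum_congr rfl fun i _ => by simp only [Φ]; ring

open Classical in
theorem sum_id (T : Finset ℕ) {ι κ : Type} [Fintype ι] [Fintype κ] {o : ι → G} (ho : ∀ i, o i ∈ S)
    (u : ℕ → ℂ) (c : G → κ → ℂ) (m : ι → ℤ) (b : Qb) (s : ι → κ → Qb⸨X⸩) (M : ℕ) :
    ∑ r ∈ T, u r * (∑ i : ι × κ, HahnSeries.C (m i.1 * c (o i.1) i.2) *
      ioL (b • (HahnSeries.single 1 1 * s i.1 i.2))).coeff (r * M : ℕ) =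
      ∑ j : T × S × κ, u j.1 * c j.2.1 j.2.2 * P027M.M.io
        (b * (∑ i, (if o i = j.2.1 then m i else 0) • s i j.2.2).coeff ((j.1 * M : ℕ) - 1)) := by
  refine (Finset.sum_coe_sort T _).symm.trans (Eq.trans ?_ (Fintype.sum_prod_type _).symm)
  refine Finset.sum_congr rfl fun r _ => ?_
  simp only [mul_assoc, ← Finset.mul_sum]
  congr 1
  simp only [HahnSeries.coeff_sum, HahnSeries.C_mul_eq_smul, HahnSeries.coeff_smul]
  simp only [Fintype.sum_prod_type, map_mul, map_sum, Finset.mul_sum]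
  rw [Finset.sum_comm, Finset.sum_comm (s := Finset.univ (α := S))]
  refine Finset.sum_congr rfl fun j _ => ?_
  rw [Finset.sum_comm]
  refine Finset.sum_congr rfl fun i _ => ?_
  rw [Finset.sum_eq_single ⟨_, ho i⟩ (fun v _ hv => by
    rw [if_neg fun d => hv (Subtype.ext d.symm), zero_smul, map_zero, mul_zero, mul_zero])
    (by simp), if_pos rfl, P027M.M.coeff_ioL, HahnSeries.coeff_smul, HahnSeries.coeff_single_mul,
    one_mul, smul_eq_mul, smul_eq_mul, map_mul, map_zsmul, zsmul_eq_mul]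
  ring

theorem core (hK : P027M.Th.KAP) {X : Mdl} (hA : FMA X) (hB : FMB) (e : Qb →+* CS 2) (h4 : 4 ∣ N)
    (h : Cp N n S κ o) (hz : z ∈ TQ.Z1 (Representation.trivial ℤ G0 ℤ) (UU N (2 ^ n)))
    (pz : Par (UU N (2 ^ n)) z) {x : G} (hx : x ∈ S) {γ : SL(2, ℤ)} (hγ : γ ∈ Gm N n) :
    ∃ c : ℝ, ∀ k P, Hy X e n k P →
      ‖((op N ℤ P (z (iZ γ)) x : ℤ) : CS 2)‖ ≤ c * ‖((2 : ℕ) : CS 2)‖ ^ k := by
  classical
  have np := P022K.FI.CS.norm_p_lt 2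
  have h2n : 0 < 2 ^ n := pow_pos two_pos n
  obtain ⟨E, hE, hm⟩ := mid h4 n
  have := P027M.M.x_cffs _ hm.hi
    (have := (P027M.M.grp _ hm.lv).1; Subgroup.finiteIndex_of_le hm.lo)
  obtain ⟨ht, a, y, F, h1, h2, h3⟩ := hA _ _ hm
  obtain ⟨s, hs⟩ := ex_cc
  choose c₁ hc₁ using fun (b : GQ) j => fab (e.comp (b : Qb →+* Qb)) np ht (h1 j)
  have gi : ∀ v ∈ S, ∀ c ∈ Gm N n, iZ c ∈ TQ.Gam (UU N (2 ^ n)) v := fun v hv c hc =>
    (gam_iff h2n (h.uu v hv)).2 hc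
  choose! α β hab using fun v (hv : v ∈ S) => h2 (fun c => (z (iZ c) v : ℂ))
    (fun c hc d _ => by simp only []; rw [map_mul, coc_mul hz (gi v hv c hc), Int.cast_add]) fun c hc tr => by
      rw [pz v _ (gi v hv c hc), Int.cast_zero]
      rw [show (iZ c).1.val.det = 1 from congrArg Units.val (det_iZ c), mul_one]
      simp only [Matrix.trace_fin_two, iZ_apply] at tr ⊢
      exact_mod_cast tr
  obtain ⟨T, u, hu⟩ := hB _ _ hm γ hγ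
  obtain ⟨c, hc⟩ := proj e hs (J := T × S × Fin a) (fun j => u j.1 * α j.2.1 j.2.2)
    fun j => u j.1 * β j.2.1 j.2.2
  refine ⟨c * (‖((2 ^ n * E : ℕ) : CS 2)‖⁻¹ * (∑ j, |c₁ 1 j| + ∑ j, |c₁ s j|)), fun k P hy => ?_⟩
  obtain ⟨ι, _, m, g, g2, hP⟩ := op_rep P
  choose M hM1 hM2 using fun i => per_odd (h.uu x hx) (g2 i) n
  obtain ⟨M₀, M1, M2⟩ : ∃ M₀, Odd M₀ ∧ ∀ i, M i ∣ M₀ := ⟨∏ i, M i, Finset.prod_induction _ Odd
    (fun _ _ => Odd.mul) odd_one fun i _ => hM1 i, fun i => Finset.dvd_prod_of_mem _ (by simp)⟩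
  have hb := Nat.mul_pos (Nat.mul_pos h2n hE) M1.pos
  let χ : ι → L (Gm N n) →ₐ[Qb] FF := fun i => (ac X (κ (x * g i))).comp (L _).val
  choose θ hθ using fun i => ex_hom (χ i : L (Gm N n) →+* FF) hb
    (ex_ac X h hb (hM2 i _ (mul_assoc _ E M₀ ▸ dvd_mul_right _ _) ((M2 i).mul_left _)))
  choose w w1 w2 w3 using fun i j => h3 j (κ (x * g i)) _ _ _ _ _ hb rfl rfl (hθ i (y j))
    (hθ i (X.tL hm.hi))
  let q : (G → Fin a → ℂ) → ι × Fin a → ℂ := fun c i => m i.1 * c (o (x * g i.1)) i.2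
  have key : ∀ c ∈ Gm N n, ∀ τ, (op N ℤ P (z (iZ c)) x : ℂ) =
      per (∑ i, q α i • fun τ => F i.2 ((TQ.r (κ (x * g i.1)))⁻¹ • τ))
        (∑ i, q β i • fun τ => F i.2 ((TQ.r (κ (x * g i.1)))⁻¹ • τ)) c τ := fun c hc τ => by
    rw [prim_coc h hz (H := fun v τ => ∑ j, α v j * F j τ + (starRingEnd ℂ) (∑ j, β v j * F j τ))
      (fun v hv d hd τ => by
        rw [hab v hv d hd τ]
        simp only [per, Finset.sum_apply, Pi.smul_apply, smul_eq_mul, map_sub]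
        ring) hP hx hc τ]
    simp only [per, q, Finset.sum_apply, Pi.smul_apply, smul_eq_mul, map_sub, map_sum, map_mul,
      map_intCast, Fintype.sum_prod_type, mul_assoc, ← Finset.mul_sum, ← Finset.sum_sub_distrib,
      ← Finset.sum_add_distrib]
    exact Finset.sum_congr rfl fun i _ => by
      simp only [Finset.sum_sub_distrib, Finset.sum_add_distrib]
      ring
  have e1 := hu _ _ _ _ (bdd_sum Finset.univ (q α) fun i => w1 i.1 i.2)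
    (bdd_sum Finset.univ (q β) fun i => w1 i.1 i.2)
    (Prim.sum _ fun i _ => (w2 i.1 i.2).smul _) (Prim.sum _ fun i _ => (w2 i.1 i.2).smul _)
    (fun c hc τ τ' => (key c hc τ).symm.trans (key c hc τ')) M₀ _ _ M1.pos
    (ExL.sum _ fun i _ => (w3 i.1 i.2).smul _) (ExL.sum _ fun i _ => (w3 i.1 i.2).smul _) I
  let A : T × S × Fin a → Qb := fun j => ((2 ^ n * E * M₀ : ℕ) : Qb)⁻¹ *
    (∑ i, (if o (x * g i) = j.2.1 then m i else 0) •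
      (θ i (y j.2.2) * dL (θ i (X.tL hm.hi)))).coeff ((j.1 * M₀ : ℕ) - 1)
  have bd : ∀ (b : GQ) j, ‖e (b (A j))‖ ≤
      ‖((2 ^ n * E : ℕ) : CS 2)‖⁻¹ * (‖((2 : ℕ) : CS 2)‖ ^ k * |c₁ b j.2.2|) := fun b j => by
    rw [map_mul, map_mul, map_inv₀, map_inv₀, map_natCast, map_natCast, norm_mul, norm_inv,
      Nat.cast_mul _ M₀, norm_mul, P022K.WB.Cu.norm_nat np M1.not_two_dvd_nat, mul_one]
    refine mul_le_mul_of_nonneg_left ((hc₁ b j.2.2 ι χ θ _ k n (E * M₀) (Nat.mul_pos hE M1.pos)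
      (mul_assoc _ E M₀ ▸ hθ) (fun y y0 hd => flat hP hK h hm hy hx j.2.1 b y y0 hd rfl) _).trans
      (mul_le_mul_of_nonneg_left (le_abs_self _) (by positivity))) (by positivity)
  have sm : ∀ (b : GQ) j, |c₁ b j| ≤ ∑ j, |c₁ b j| := fun b j =>
    Finset.single_le_sum (f := fun j => |c₁ b j|) (fun _ _ => abs_nonneg _) (Finset.mem_univ j)
  have s0 : ∀ b : GQ, 0 ≤ ∑ j, |c₁ b j| := fun b => by positivity
  have e2 := fun c => sum_id T (fun i => h.mem (x * g i)) u c m ((2 ^ n * E * M₀ : ℕ) : Qb)⁻¹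
    (fun i j => θ i (y j) * dL (θ i (X.tL hm.hi))) M₀
  rw [← key γ hγ, e2, e2] at e1
  refine (hc _ A (‖((2 ^ n * E : ℕ) : CS 2)‖⁻¹ * (‖((2 : ℕ) : CS 2)‖ ^ k *
    (∑ j, |c₁ 1 j| + ∑ j, |c₁ s j|))) e1 (fun j => (bd 1 j).trans ?_)
    fun j => (bd s j).trans ?_).trans_eq (by ring)
  · gcongr
    linarith [sm 1 j.2.2, s0 s]
  · gcongr
    linarith [sm s j.2.2, s0 1]

theorem dvd_of_norm {C : Type} [NontriviallyNormedField C] [IsUltrametricDist C] [CharZero C]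
    {p i : ℕ} [hp : Fact p.Prime] (np : ‖(p : C)‖ < 1) {v : ℤ} (h : ‖(v : C)‖ ≤ ‖(p : C)‖ ^ i) :
    ((p ^ i : ℕ) : ℤ) ∣ v := by
  by_cases v0 : v = 0
  · rw [v0]
    exact dvd_zero _
  obtain ⟨a, d, h1, h2⟩ := Nat.exists_eq_pow_mul_and_not_dvd (Int.natAbs_ne_zero.2 v0) p
    hp.out.ne_one
  have : ‖(v : C)‖ = ‖(p : C)‖ ^ a := by
    rw [← mul_one (_ ^ a), ← P022K.WB.Cu.norm_nat np h1, ← norm_pow, ← norm_mul, ← Nat.cast_pow,
      ← Nat.cast_mul, ← h2, Nat.cast_natAbs]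
    rcases abs_choice v with e | e <;> simp [e]
  rw [this, pow_le_pow_iff_right_of_lt_one₀
    (norm_pos_iff.2 (Nat.cast_ne_zero.2 hp.out.ne_zero)) np] at h
  exact Int.natCast_dvd.2 (h2 ▸ (pow_dvd_pow p h).mul_right d)

theorem fai_of (hK : P027M.Th.KAP) {X : Mdl} (hA : FMA X) (hB : FMB) (e : Qb →+* CS 2) (N : ℕ)
    [NeZero N] (h4 : 4 ∣ N) (n i : ℕ) : ∃ k, ∀ P, Hy X e n k P →
      ∀ a, (∃ z ∈ TQ.Z1 (Representation.trivial ℤ G0 ℤ) (UU N (2 ^ n)), Par (UU N (2 ^ n)) z ∧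
        ∃ z' : TQ.Z1 (Representation.trivial (ZMod (2 ^ i)) G0 (ZMod (2 ^ i))) (UU N (2 ^ n)),
          Submodule.Quotient.mk z' = a ∧ ∀ γ x, z'.1 γ x = (z γ x : ZMod (2 ^ i))) → wH N (2 ^ i) n P a = 0 := by
  obtain ⟨S, κ, o, h⟩ := ex_cp N n
  have := okq.finHn (lev (N := N) n) (2 ^ i)
  have np := P022K.FI.CS.norm_p_lt 2
  suffices H : ∀ a b : TQ.Hn (2 ^ i) (UU N (2 ^ n)), ∀ᶠ k in atTop, ∀ P, Hy X e n k P → _ →
      wH N (2 ^ i) n P a = b → b = 0 from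
    (eventually_all.2 fun a => eventually_all.2 (H a)).exists.imp fun k hk P hP a ha =>
      hk a _ P hP ha rfl
  intro a b
  by_cases hb : b = 0
  · exact .of_forall fun _ _ _ _ _ => hb
  refine (em _).elim (fun ha => ?_) fun ha => .of_forall fun _ _ _ h => absurd h ha
  obtain ⟨z, hz, pz, z', rfl, e1⟩ := ha
  obtain ⟨w, rfl⟩ := Submodule.Quotient.mk_surjective _ b
  obtain ⟨x, hx, c, hc, h0⟩ : ∃ x ∈ S, ∃ c ∈ Gm N n, w.1 (iZ c) x ≠ 0 := by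
    by_contra! H
    refine hb ((Submodule.Quotient.mk_eq_zero _).2 (B1_of w.2 h.sur fun x hx => ⟨0, fun γ hγ => ?_⟩))
    obtain ⟨c, hc, -, ζ, hζ, rfl⟩ := gex ((gam_iff (pow_pos two_pos n) (h.uu x hx)).1 hγ)
    rw [Submodule.subtype_apply, coc_z0 w.2 _ hζ, H x hx c hc, map_zero, sub_zero]
  obtain ⟨C, hC⟩ := core hK hA hB e h4 h hz pz hx hc
  have t := ((tendsto_pow_atTop_nhds_zero_of_lt_one (norm_nonneg _) np).const_mul C)
  rw [mul_zero] at t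
  refine (t.eventually (ge_mem_nhds (pow_pos (norm_pos_iff.2 (Nat.cast_ne_zero.2 two_ne_zero :
    ((2 : ℕ) : CS 2) ≠ 0)) i))).mono fun k hk P hP _ e2 => absurd ?_ h0
  rw [op_mk] at e2
  obtain ⟨f, f1, f2⟩ := mem_B1.1 (mk_eq_mk.1 e2)
  have e3 := f2 (iZ c) x
  rw [← f1 _ _ (conj_UU (pow_pos two_pos n) (h.uu x hx) hc), show (TQ.j (iZ c))⁻¹ * x * _ = x by
    simp [mul_assoc], sub_self, Pi.sub_apply, Pi.sub_apply, sub_eq_zero] at e3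
  rw [← e3]
  change op N (ZMod (2 ^ i)) P (z'.1 (iZ c)) x = 0
  rw [show z'.1 (iZ c) = fun x => Int.castAddHom _ (z (iZ c) x) from funext (e1 _)]
  exact (congrFun (op_nat id (fun _ => Int.castAddHom (ZMod (2 ^ i))) (fun _ _ _ => ⟨rfl, rfl⟩) P _)
    x).trans ((ZMod.intCast_zmod_eq_zero_iff_dvd _ _).2 (dvd_of_norm np ((hC k P hP).trans hk)))

end Vale.Agent.P004M.Fai
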