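import Vale.Agent.P004M.FaiF1
import Vale.Agent.P022K.QT.Cu1
import Vale.Agent.P022K.QT.Defs
import Vale.Agent.P022K.FA.Fa2

/-! # P004M, row FMA: periods of the differentials of the first kind and their expansions -/

set_option autoImplicit false
set_option linter.all false

open UpperHalfPlane
open scoped MatrixGroups ModularForm LaurentSeries Derivative

noncomputable section

namespace Vale.Agent.P004M.Fai

open Vale.Agent.P022 Vale.Agent.P022.H218.L3 Vale.Agent.P022.H236.L3 Vale.Agent.P019P P025H816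
  P025H492 Vale.Agent.P027M.ES Vale.Agent.P022K Vale.Agent.P022K.QT Vale.Agent.P022K.QT.Cu Fm
open Vale.Agent.P027M.M hiding G0
open Vale.Agent.P022K.FA (dL)

namespace Fm

theorem ioL_form (M : ℕ) (s s' : Qb⸨X⸩) :
    ioL ((M : Qb)⁻¹ • (HahnSeries.single 1 1 * (s * dL s'))) = HahnSeries.C (M : ℂ)⁻¹ *
      (HahnSeries.single 1 1 * (ioL s * LaurentSeries.derivative ℂ (ioL s'))) := by
  have e : ioL (HahnSeries.single 1 1 * dL s') =
      HahnSeries.single 1 1 * LaurentSeries.derivative ℂ (ioL s') := by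
    ext n
    rw [coeff_ioL, coeff_th, coeff_th, map_mul, map_intCast, coeff_ioL]
  rw [mul_left_comm _ s, mul_left_comm _ (ioL s), ← e, ← map_mul]
  ext n
  rw [coeff_ioL, HahnSeries.C_mul_eq_smul, HahnSeries.coeff_smul, HahnSeries.coeff_smul, coeff_ioL,
    smul_eq_mul, smul_eq_mul, map_mul, map_inv₀, map_natCast]

theorem act_inc' (δ : G0) {Y : ℍ → ℂ} (hY : Y ∈ Hol) :
    TQ.act δ (inc Y hY) = inc (fun τ => Y ((TQ.r δ)⁻¹ • τ)) (Sh.comp_mem _ hY) :=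
  Sh.actM_algebraMap _ _

end Fm

/-- **FMA** -/
theorem fma (X : Mdl) {N : ℕ} {Γ : Subgroup SL(2, ℤ)} (h : Mid N Γ) [CFF Qb (L Γ)] :
    (∀ c : Qb, X.tL h.hi ≠ algebraMap _ _ c) ∧
    ∃ (a : ℕ) (y : Fin a → L Γ) (F : Fin a → ℍ → ℂ), (∀ j, y j ∈ LL Qb (wdv Qb (X.tL h.hi))) ∧
      (∀ φ, AddOn Γ φ → (∀ γ ∈ Γ, (γ : Matrix (Fin 2) (Fin 2) ℤ).trace ^ 2 = 4 → φ γ = 0) →
        ∃ α β : Fin a → ℂ, ∀ γ ∈ Γ, ∀ τ, φ γ = per (∑ j, α j • F j) (∑ j, β j • F j) γ τ) ∧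
      ∀ j (δ : G0) (M : ℕ) (f g : FF) (s s' : Qb⸨X⸩), 0 < M → cv f = TQ.act δ (cv (y j : FF)) →
        cv g = TQ.act δ (cv X.t) → Ex M f s → Ex M g s' →
        ∃ w, Bdd 2 w ∧ Prim w (fun τ => F j ((TQ.r δ)⁻¹ • τ)) ∧
          ExL M (ioL ((M : Qb)⁻¹ • (HahnSeries.single 1 1 * (s * dL s')))) w := by
  obtain ⟨P, hP, e, hd, h2, -⟩ := X.hol
  obtain ⟨a, y, Y, hY, h1, h3⟩ := basis X h hP e hd h2
  choose F hF using fun j => P027M.ES.prim _ (h1 j).2.2.1.hol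
  refine ⟨t_nc X h, a, y, F, fun j => (h1 j).1, fun φ hφ hp => ?_,
    fun j δ M f g s s' hM ef eg hs hs' => ?_⟩
  · obtain ⟨f, g, F', G', hf, hg, hF', hG', e'⟩ := par_cf h hφ hp
    obtain ⟨α, rfl⟩ := h3 f hf
    obtain ⟨β, rfl⟩ := h3 g hg
    obtain ⟨c, hc⟩ := hF'.exists_sub (Prim.sum Finset.univ fun j _ => (hF j).smul (α j))
    obtain ⟨c', hc'⟩ := hG'.exists_sub (Prim.sum Finset.univ fun j _ => (hF j).smul (β j))
    refine ⟨α, β, fun γ hγ τ => ?_⟩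
    rw [e' γ hγ τ, per, per, eq_add_of_sub_eq (hc τ), eq_add_of_sub_eq (hc (γ • τ)),
      eq_add_of_sub_eq (hc' τ), eq_add_of_sub_eq (hc' (γ • τ)), add_sub_add_left_eq_sub,
      add_sub_add_left_eq_sub]
  · rw [Ex, ef, (h1 j).2.1, act_inc'] at hs
    rw [Ex, eg, e, act_inc'] at hs'
    have hg := ((TQ.r δ)⁻¹).2
    refine ⟨_, ?_, (hF j).comp _ hg, ?_⟩
    · rw [← map_inv]
      exact bdd_rat (h1 j).2.2.1.toBdd (δ⁻¹).1
    · rw [ioL_form]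
      exact exL_form hM.ne' (prim_D hP) hg (Dim.exL_of_exM hM.ne' _ hs)
        (Dim.exL_of_exM hM.ne' _ hs')

end Vale.Agent.P004M.Fai
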