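import Vale.Agent.P027M.ES.Prim
import Vale.Agent.P027M.B.Hol

/-! # P004M, row FMA, file 0: the expansion of a derivative -/

set_option autoImplicit false
set_option linter.all false

open UpperHalfPlane Filter Topology Function.Periodic
open scoped MatrixGroups Manifold ModularForm Real

noncomputable section

namespace Vale.Agent.P004M.Fai.Fm

open Vale.Agent.P022 Vale.Agent.P022.H218.L3 Vale.Agent.P022.H231.L3 Vale.Agent.P022.H236
  Vale.Agent.P022.H236.L3 Vale.Agent.P022.H542.L3 Vale.Agent.P027M Vale.Agent.P027M.ES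

theorem coeff_th {C : Type} [Field C] (s : LaurentSeries C) (k : ℤ) :
    (HahnSeries.single 1 1 * LaurentSeries.derivative C s : LaurentSeries C).coeff k =
      k * s.coeff k := by
  rw [HahnSeries.coeff_single_mul, one_mul, LaurentSeries.derivative_apply,
    LaurentSeries.hasseDeriv_coeff, Ring.choose_one_right, Nat.cast_one, sub_add_cancel,
    zsmul_eq_mul]

theorem th_ls (m : ℤ) (F : PowerSeries ℂ) :
    HahnSeries.single 1 1 * LaurentSeries.derivative ℂ (ls m F) =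
      ls m ((m : ℂ) • F + PowerSeries.X * PowerSeries.derivative ℂ F) := by
  refine ls_ext (fun n => ?_) fun k hk => by rw [coeff_th, coeff_ls_of_lt _ _ hk, mul_zero]
  rw [coeff_th, coeff_ls, map_add, PowerSeries.coeff_smul, smul_eq_mul]
  rcases n with _ | n
  · simp
  · rw [PowerSeries.coeff_succ_X_mul, PowerSeries.coeff_derivative]
    push_cast
    ring

theorem q_der (M : ℕ) (z : ℂ) :
    HasDerivAt (qParam M) (qParam M z * (2 * π * Complex.I / M)) z := by
  have := (((hasDerivAt_id z).const_mul (2 * π * Complex.I)).div_const ((M : ℝ) : ℂ)).cexp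
  rw [mul_one] at this
  exact this

/-- **the expansion of the derivative** -/
theorem exL_D {M : ℕ} (hM : M ≠ 0) {s : LS} {w W : ℍ → ℂ} (h : Prim w W) (hs : ExL M s W) :
    ExL M (HahnSeries.C (M : ℂ)⁻¹ * (HahnSeries.single 1 1 * LaurentSeries.derivative ℂ s)) w := by
  obtain ⟨m, F, rfl, hF⟩ := hs
  have hM' : (0 : ℝ) < M := Nat.cast_pos.2 (Nat.pos_of_ne_zero hM)
  have hMC : (M : ℂ) ≠ 0 := Nat.cast_ne_zero.2 hM
  rw [th_ls, ← ls_C, ls_mul, zero_add, ← PowerSeries.smul_eq_C_mul]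
  refine Exq.exL ?_
  obtain ⟨A, hA⟩ := (atImInfty_mem _).1 hF
  obtain ⟨τ0, h0⟩ : ∃ τ0 : ℍ, A ≤ τ0.im :=
    Filter.Eventually.exists ((atImInfty_mem {τ : ℍ | A ≤ τ.im}).2 ⟨A, fun _ h => h⟩)
  have hc : B.Conv ‖qParam M τ0‖ F := fun ρ r0 r1 => by
    refine Summable.of_nonneg_of_le (fun n => by positivity) (fun n => ?_) (hA τ0 h0).summable.norm
    rw [norm_mul, norm_pow]
    gcongr
  obtain ⟨c1, c2⟩ := B.Hol.diff hc
  have lt : ∀ z : ℂ, τ0.im < z.im → ‖qParam M z‖ < ‖qParam M τ0‖ := fun z hz => by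
    rw [norm_qParam, norm_qParam, Real.exp_lt_exp, div_lt_div_iff_of_pos_right hM', coe_im]
    nlinarith [Real.pi_pos]
  refine (atImInfty_mem _).2 ⟨τ0.im + 1, fun τ hτ => ?_⟩
  have hτ' : τ0.im < (τ : ℂ).im := by rw [coe_im]; linarith
  have q0 := qne M τ
  have d1 := ((c2 _ (lt _ hτ')).comp (τ : ℂ) (q_der M τ)).mul
    ((hasDerivAt_zpow m _ (Or.inl q0)).comp (τ : ℂ) (q_der M τ))
  have d2 := (h τ).unique (d1.congr_of_eventuallyEq (by
    filter_upwards [(isOpen_lt continuous_const Complex.continuous_im).mem_nhds hτ'] with z hz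
    have hz' : 0 < z.im := τ0.im_pos.trans hz
    have e := (hA ⟨z, hz'⟩ (h0.trans (le_of_lt hz))).unique (B.Hol.hasSum hc (lt z hz))
    simp only [Function.comp_apply, Pi.mul_apply, ofComplex_apply_of_im_pos hz']
    rw [← e, mul_assoc, ← zpow_add₀ (qne M _), neg_add_cancel, zpow_zero, mul_one]))
  have e1 : Ev F _ _ := B.Hol.hasSum hc (lt _ hτ')
  have e2 : Ev _ _ _ := B.Hol.hasSum c1 (lt _ hτ')
  have e3 : Ev _ _ _ := B.Hol.hasSum_X (qParam M τ)
  have e4 := ((e1.smul (m : ℂ)).add (e3.mul e2)).smul (M : ℂ)⁻¹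
  show Ev _ _ _
  convert e4 using 1
  have := tpi_ne
  have q1 := zpow_ne_zero m q0
  simp only [Function.comp_apply, zpow_sub_one₀ q0] at d2
  rw [zpow_neg]
  refine mul_left_cancel₀ tpi_ne ?_
  rw [← mul_assoc, d2]
  field_simp
  ring

theorem slash_mul' (Y f : ℍ → ℂ) {g : GL (Fin 2) ℝ} (hg : 0 < g.det.val) :
    (Y * f) ∣[(2 : ℤ)] g = (fun τ => Y (g • τ)) * f ∣[(2 : ℤ)] g := by
  funext τ
  have hs : ∀ z, UpperHalfPlane.σ g z = z := by
    intro z
    simp only [UpperHalfPlane.σ, if_pos hg]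
    rfl
  simp only [Pi.mul_apply, ModularForm.slash_apply, hs]
  ring

/-- the expansion of a translate of `Y dP` -/
theorem exL_form {M : ℕ} (hM : M ≠ 0) {s s' : LS} {Y P DP : ℍ → ℂ} (h : Prim DP P)
    {g : GL (Fin 2) ℝ} (hg : 0 < g.det.val) (hs : ExL M s fun τ => Y (g • τ))
    (hs' : ExL M s' fun τ => P (g • τ)) :
    ExL M (HahnSeries.C (M : ℂ)⁻¹ * (HahnSeries.single 1 1 * (s * LaurentSeries.derivative ℂ s')))
      ((Y * DP) ∣[(2 : ℤ)] g) := by
  rw [slash_mul' _ _ hg]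
  convert hs.mul (exL_D hM (h.comp g hg) hs') using 1
  ring

/-- rational translates stay bounded at the cusps -/
theorem bdd_rat {k : ℤ} {f : ℍ → ℂ} (h : Bdd k f) (g : GL (Fin 2) ℚ) :
    Bdd k (f ∣[k] (g.map (algebraMap ℚ ℝ))) := by
  refine ⟨slash_mem' h.1 k _, fun γ => ?_⟩
  obtain ⟨δ, hδ⟩ := OnePoint.exists_mem_SL2 ℤ
    ((g * Matrix.SpecialLinearGroup.mapGL ℚ γ) • (OnePoint.infty : OnePoint ℚ))
  have e := congrArg (OnePoint.map (algebraMap ℚ ℝ)) hδ
  rw [OnePoint.map_smul, OnePoint.map_smul, OnePoint.map_infty, map_mul,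
    Matrix.SpecialLinearGroup.map_mapGL, Matrix.SpecialLinearGroup.map_mapGL] at e
  have h1 := (OnePoint.isBoundedAt_iff e).2 (h.2 δ) _ rfl
  rwa [SlashAction.slash_mul] at h1

end Vale.Agent.P004M.Fai.Fm
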