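import Vale.Agent.P004M.FaiF0
import Vale.Agent.P027M.ES.All

/-! # P004M, row FMA, file 1: the cusp forms `y dt` span the space of cusp forms of weight two -/

set_option autoImplicit false
set_option linter.all false

open UpperHalfPlane Filter Topology
open scoped MatrixGroups Manifold ModularForm Real IntermediateField Derivative

noncomputable section

namespace Vale.Agent.P004M.Fai.Fm

open Vale.Agent.P022 Vale.Agent.P022.H218.L3 Vale.Agent.P022.H231.L3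
  Vale.Agent.P022.H236.L3 Vale.Agent.P022.H542.L3 Vale.Agent.P019P P025H816 P025H492
  Vale.Agent.P027M Vale.Agent.P027M.M Vale.Agent.P027M.M.Dim Vale.Agent.P027M.ES

variable {N : ℕ} {Γ : Subgroup SL(2, ℤ)}

/-- the upper bound for the dimensions -/
theorem card_le (h : Mid N Γ) {a b : ℕ} {f : Fin a → ℍ → ℂ} {g : Fin b → ℍ → ℂ}
    (hf : ∀ i, IsMF Γ 2 (f i)) (hg : ∀ j, IsCF Γ (g j)) (hfi : LinearIndependent ℂ f)
    (hgi : LinearIndependent ℂ g) : a + b ≤ Γ.relIndex G0 + 1 := by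
  have := Mid.finiteIndex grp h
  choose F hF using fun i => ES.prim (f i) (hf i).hol
  choose G hG using fun j => ES.prim (g j) (hg j).1.hol
  have z0 : ∀ γ ∈ Γ, (0 : ℍ → ℂ) ∣[(2 : ℤ)] γ = 0 := fun γ _ => SlashAction.zero_slash _ _
  have h2 := homd ES.gen Γ h.hi (h.lo (neg_one_mem _ _)) (Fin a ⊕ Fin b)
    (Sum.elim (fun i γ => per (F i) 0 γ I) fun j γ => per 0 (G j) γ I) (by
      rintro (i | j)
      · exact addOn_per (hF i) Prim.zero (hf i).slash z0 I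
      · exact addOn_per Prim.zero (hG j) z0 (hg j).1.slash I) (by
      rw [Fintype.linearIndependent_iff]
      intro c hc
      have h1 : IsMF Γ 2 (∑ i, c (.inl i) • f i) := isMF_sum _ fun i _ => (hf i).smul _
      have h2 : IsCF Γ (∑ j, (starRingEnd ℂ) (c (.inr j)) • g j) :=
        IsCF.sum _ fun j _ => IsCF.smul _ (hg j)
      have h3 := Prim.sum Finset.univ fun i _ => (hF i).smul (c (.inl i))
      have h4 := Prim.sum Finset.univ fun j _ => (hG j).smul ((starRingEnd ℂ) (c (.inr j)))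
      obtain ⟨e1, e2⟩ := inj0 Γ _ _ _ _ h1 h2 h3 h4 fun γ hγ τ => by
        rw [per_base h3 h4 (h1.slash γ hγ) (h2.1.slash γ hγ) τ I, per_sum]
        have := congrFun hc ⟨γ, hγ⟩
        simpa only [Finset.sum_apply, Pi.smul_apply, smul_eq_mul, Pi.zero_apply,
          Fintype.sum_sum_type, Sum.elim_inl, Sum.elim_inr, Pi.add_apply] using this
      rintro (i | j)
      · exact Fintype.linearIndependent_iff.1 hfi _ e1 i
      · exact (map_eq_zero (starRingEnd ℂ)).1 (Fintype.linearIndependent_iff.1 hgi _ e2 j))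
  simpa using h2

/-- a parabolic homomorphism is a period of two cusp forms -/
theorem par_cf (h : Mid N Γ) {φ : SL(2, ℤ) → ℂ} (hφ : AddOn Γ φ)
    (hp : ∀ γ ∈ Γ, (γ : Matrix (Fin 2) (Fin 2) ℤ).trace ^ 2 = 4 → φ γ = 0) :
    ∃ f g F G : ℍ → ℂ, IsCF Γ f ∧ IsCF Γ g ∧ Prim f F ∧ Prim g G ∧
      ∀ γ ∈ Γ, ∀ τ, φ γ = per F G γ τ := by
  obtain ⟨f, g, F, G, hf, hg, hF, hG, e⟩ := esc.1 N Γ h φ hφ
  obtain ⟨-, hn, -, -, hT, -⟩ := grp N h.lv
  refine ⟨f, g, F, G, ⟨hf, fun γ => ?_⟩, hg, hF, hG, e⟩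
  have hw := h.lo (hn γ _ hT)
  refine (cusp_of_par cusp hf hF h.lv.pos hw fun τ => ?_).2
  have h1 := (e _ hw τ).symm.trans (hp _ hw (by
    rw [Matrix.SpecialLinearGroup.coe_mul, Matrix.SpecialLinearGroup.coe_mul,
      Matrix.trace_mul_cycle, ← Matrix.SpecialLinearGroup.coe_mul,
      ← Matrix.SpecialLinearGroup.coe_mul, inv_mul_cancel, one_mul, ← zpow_natCast,
      ModularGroup.coe_T_zpow, Matrix.trace_fin_two_of]
    norm_num))
  have h2 := (cusp_prim cusp hg hG h.lv.pos hw).2 (γ⁻¹ • τ)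
  rw [smul_inv_smul, ← mul_smul, ← mul_smul] at h2
  rw [per, h2, sub_self, map_zero, add_zero] at h1
  exact sub_eq_zero.1 h1

theorem ord_pos {k K : Type*} [Field k] [Field K] [Algebra k K] [CFF k K] [CharZero k] {t y : K}
    (ht : ∀ a : k, t ≠ algebraMap k K a) (hy0 : y ≠ 0) (hy : y ∈ LL k (wdv k t)) (Q : Plk k K) :
    ∃ c : k, 1 ≤ ord Q y + ord Q (t - algebraMap k K c) := by
  have h1 := ((mem_LL.1 hy).resolve_left hy0) Q
  rw [wdv_apply ht, wd] at h1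
  split_ifs at h1 with h
  · exact ⟨vl Q t, by omega⟩
  · exact ⟨0, by rw [map_zero, sub_zero]; omega⟩

theorem van {s u : LS} (c c' : ℂ) (h : 0 < s.order + (u - HahnSeries.C c).order) :
    0 ≤ (HahnSeries.C c' * (HahnSeries.single 1 1 * (s * LaurentSeries.derivative ℂ u))).order ∧
    (HahnSeries.C c' * (HahnSeries.single 1 1 * (s * LaurentSeries.derivative ℂ u))).coeff 0 = 0 := by
  rw [mul_left_comm _ s]
  obtain ⟨v, hv⟩ : ∃ v, v = HahnSeries.single 1 1 * LaurentSeries.derivative ℂ u := ⟨_, rfl⟩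
  rw [← hv]
  by_cases z : HahnSeries.C c' * (s * v) = 0
  · rw [z]
    exact ⟨HahnSeries.order_zero.ge, rfl⟩
  have n1 := left_ne_zero_of_mul z
  have n2 := right_ne_zero_of_mul z
  have n3 := right_ne_zero_of_mul n2
  have h1 : (u - HahnSeries.C c).order ≤ v.order := by
    refine HahnSeries.order_le_of_coeff_ne_zero ?_
    have h2 := HahnSeries.coeff_order_eq_zero.not.2 n3
    generalize v.order = k at h2
    rw [hv, coeff_th] at h2
    rw [HahnSeries.coeff_sub, HahnSeries.C_apply, HahnSeries.coeff_single_of_ne (by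
      rintro rfl
      simp at h2), sub_zero]
    exact right_ne_zero_of_mul h2
  have h3 : 0 < (HahnSeries.C c' * (s * v)).order := by
    rw [HahnSeries.order_mul n1 n2, HahnSeries.order_mul (left_ne_zero_of_mul n2) n3,
      HahnSeries.order_C]
    omega
  exact ⟨h3.le, HahnSeries.coeff_eq_zero_of_lt_order h3⟩

theorem act_inc (γ : SL(2, ℤ)) {Y : ℍ → ℂ} (hY : Y ∈ Hol) :
    act γ⁻¹ (inc Y hY) = inc (fun τ => Y ((γ : GL (Fin 2) ℝ) • τ)) (comp_mem γ hY) := by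
  rw [← pb_SL, pb_inc]

theorem prim_D {P : ℍ → ℂ} (hP : P ∈ Hol) : Prim (D P) P := fun τ => by
  refine (UpperHalfPlane.mdifferentiableAt_iff.1 (hP τ)).hasDerivAt.congr_deriv ?_
  unfold Derivative.normalizedDerivOfComplex
  rw [mul_inv_cancel_left₀ tpi_ne]

variable (X : Mdl)

theorem t_nc (h : Mid N Γ) [CFF Qb (L Γ)] (c : Qb) : X.tL h.hi ≠ algebraMap _ _ c := by
  obtain ⟨Q, hQ⟩ := Pla.exists_simple X h.hi (a := 0) (by norm_num) (by norm_num)
  rw [map_zero, sub_zero] at hQ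
  exact nc_of_ord (P := Q) (z := X.tL h.hi) (by omega) c

/-- the cusp form `y dt` -/
theorem cf (h : Mid N Γ) [CFF Qb (L Γ)] {P : ℍ → ℂ} (hP : P ∈ Hol) (e : cv X.t = inc P hP)
    (h2 : ∀ τ, P τ ≠ 2 ∧ P τ ≠ -2) {y : L Γ} (hy0 : y ≠ 0) (hy : y ∈ LL Qb (wdv Qb (X.tL h.hi))) :
    ∃ (Y : ℍ → ℂ) (hY : Y ∈ Hol), cv (y : FF) = inc Y hY ∧ IsCF Γ (Y * D P) := by
  have hN := h.lv.pos
  have ht := t_nc X h
  have : CharZero Qb := inferInstance
  have hA := artin X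
  obtain ⟨Z, hZ, eZ⟩ := exists_hol X h.hi
    (mul_ne_zero hy0 (mul_ne_zero (sub_ne_zero.2 (ht 2)) (sub_ne_zero.2 (ht (-2))))) fun Q =>
    (diff_ord ht (pla X hA (cffs X hA) grp N Γ h) hy0 hy Q).1
  have m1 : ∀ c : ℂ, P + (fun _ => c) ∈ Hol := fun c => Hol.add_mem hP (Bdd.const c).1
  have m2 := Hol.mul_mem (m1 (-2)) (m1 2)
  have n2 : ∀ τ, ((P + fun _ => (-2 : ℂ)) * (P + fun _ => (2 : ℂ)) : ℍ → ℂ) τ ≠ 0 := fun τ =>
    mul_ne_zero (sub_ne_zero.2 (h2 τ).1) fun e => (h2 τ).2 (eq_neg_of_add_eq_zero_left e)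
  have hY : Z / ((P + fun _ => (-2 : ℂ)) * (P + fun _ => (2 : ℂ))) ∈ Hol :=
    (mem_Hol.1 hZ).div (mem_Hol.1 m2) n2
  have eY : cv (y : FF) = inc _ hY := by
    refine mul_right_cancel₀ (inc_ne_zero m2 fun e => n2 I (congrFun e I)) ?_
    rw [← inc_mul, inc_congr _ (show Z / _ * _ = Z from funext fun τ => div_mul_cancel₀ _ (n2 τ)), ← eZ,
      inc_mul (m1 _) (m1 _), inc_add hP (Bdd.const _).1, inc_add hP (Bdd.const _).1, inc_const,
      inc_const, ← e]
    show _ = cv ((y : FF) * ((X.t - algebraMap Qb FF 2) * (X.t - algebraMap Qb FF (-2))))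
    simp only [map_mul, map_sub, map_neg, map_ofNat]
    ring
  generalize Z / ((P + fun _ => (-2 : ℂ)) * (P + fun _ => (2 : ℂ))) = Y at hY eY
  have hD := prim_D hP
  have key : ∀ γ : SL(2, ℤ), IsZeroAtImInfty ((Y * D P) ∣[(2 : ℤ)] γ) := fun γ => by
    obtain ⟨φ, hφ⟩ := exists_phi X exp grp h γ
    obtain ⟨Q, r, hr, h1, -⟩ := cusp_ord X h fun x => (hφ x).1
    obtain ⟨c, hc⟩ := ord_pos ht hy0 hy Q
    have a1 := (hφ y).1
    have a2 : ExM N _ (act γ⁻¹ (cv X.t)) := (hφ (X.tL h.hi)).1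
    rw [eY, act_inc] at a1
    rw [e, act_inc] at a2
    obtain ⟨b1, b2⟩ := van (s := φ y) (u := φ (X.tL h.hi)) (io c) (N : ℂ)⁻¹ (by
      rw [← phi_const hN.ne' (fun x => (hφ x).1), ← map_sub, h1, h1, ← mul_add]
      exact mul_pos hr hc)
    have := tendsto_of_exL hN.ne' (exL_form hN.ne' hD (SL_det_pos γ) (exL_of_exM hN.ne' _ a1)
      (exL_of_exM hN.ne' _ a2)) b1
    rwa [b2] at this
  refine ⟨Y, hY, eY, ⟨Hol.mul_mem hY (H29.L3.D_mem hP), fun γ hγ => ?_,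
    fun γ => (key γ).isBoundedAtImInfty⟩, key⟩
  have a1 := y.2 _ (Γ.inv_mem hγ)
  have a2 : act γ⁻¹ (cv X.t) = cv X.t := (X.tL h.hi).2 _ (Γ.inv_mem hγ)
  rw [eY, act_inc] at a1
  rw [e, act_inc] at a2
  have a3 := hD.comp _ (SL_det_pos γ)
  rw [inc_injective _ _ a2] at a3
  rw [ModularForm.SL_slash, slash_mul' _ _ (SL_det_pos γ), inc_injective _ _ a1, a3.unique hD]

/-- **a basis of the space of cusp forms** -/
theorem basis (h : Mid N Γ) [CFF Qb (L Γ)] {P : ℍ → ℂ} (hP : P ∈ Hol) (e : cv X.t = inc P hP)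
    (hd : ∀ τ : ℍ, deriv (P ∘ ofComplex) (τ : ℂ) ≠ 0) (h2 : ∀ τ, P τ ≠ 2 ∧ P τ ≠ -2) :
    ∃ (a : ℕ) (y : Fin a → L Γ) (Y : Fin a → ℍ → ℂ) (hY : ∀ j, Y j ∈ Hol),
      (∀ j, y j ∈ LL Qb (wdv Qb (X.tL h.hi)) ∧ cv (y j : FF) = inc (Y j) (hY j) ∧
        IsCF Γ (Y j * D P)) ∧
      ∀ g, IsCF Γ g → ∃ α : Fin a → ℂ, ∑ j, α j • (Y j * D P) = g := by
  have hA := artin X
  have hC := cffs X hA
  obtain ⟨hfi, -, -, hm0, -⟩ := grp N h.lv
  have hfi' : Γ.FiniteIndex := Subgroup.finiteIndex_of_le h.lo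
  have : CharZero Qb := inferInstance
  have h1 := count (t_nc X h)
  rw [finrank_tL X hC hA h.hi hfi', (faith X ser grp hA).2.2 N G0 Γ h.hi hm0 h] at h1
  let b1 := Module.finBasis Qb (LL Qb (pol Qb (X.tL h.hi)))
  let b2 := Module.finBasis Qb (LL Qb (wdv Qb (X.tL h.hi)))
  have i1 : LinearIndependent Qb fun i => (b1 i : L Γ) :=
    b1.linearIndependent.map' (Submodule.subtype _) (Submodule.ker_subtype _)
  have i2 : LinearIndependent Qb fun i => (b2 i : L Γ) :=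
    b2.linearIndependent.map' (Submodule.subtype _) (Submodule.ker_subtype _)
  choose f hf e1 _ using fun i => exists_form X exp grp h (i1.ne_zero i)
    ((mem_LL.1 (b1 i).2).resolve_left (i1.ne_zero i))
  choose Y hY e2 hc using fun i => cf X h hP e h2 (i2.ne_zero i) (b2 i).2
  refine ⟨_, fun i => b2 i, Y, hY, fun j => ⟨(b2 j).2, e2 j, hc j⟩, fun g hg => ?_⟩
  have i3 := indep X exp grp h i2 (f := fun i => Y i * Af)
    (fun i => Hol.mul_mem (hY i) Pre.Af_hol) fun i => by rw [e2, inc_mul]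
  have i4 : LinearIndependent ℂ fun j => Y j * D P := by
    rw [Fintype.linearIndependent_iff] at i3 ⊢
    refine fun c hc => i3 c (funext fun τ => ?_)
    have := congrFun hc τ
    simp only [Finset.sum_apply, Pi.smul_apply, Pi.mul_apply, smul_eq_mul, ← mul_assoc,
      ← Finset.sum_mul, Pi.zero_apply] at this ⊢
    rw [(mul_eq_zero.1 this).resolve_right
      (mul_ne_zero (inv_ne_zero Complex.two_pi_I_ne_zero) (hd τ)), zero_mul]
  refine (Submodule.mem_span_range_iff_exists_fun ℂ).1 (by_contra fun hn => ?_)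
  have := card_le h hf (g := Fin.cons g fun j => Y j * D P) (Fin.cases hg hc)
    (indep X exp grp h i1 _ e1) (linearIndependent_finCons.2 ⟨i4, hn⟩)
  omega

end Vale.Agent.P004M.Fai.Fm
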