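import Vale.Agent.P027M.ES.All
import Vale.Agent.P022.H236.L3.Exl

/-!
# P004M, row FAI: periods in weight two are finite combinations of Fourier coefficients
-/

set_option autoImplicit false
set_option linter.all false

open UpperHalfPlane
open scoped MatrixGroups Manifold ModularForm Real

noncomputable section

namespace Vale.Agent.P004M.Fai

open Vale.Agent.P022.H218.L3 Vale.Agent.P027M.M Vale.Agent.P027M.ES Vale.Agent.P022.H236
open Vale.Agent.P022.H236.L3 Vale.Agent.P022.H542.L3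

namespace Pf

theorem anti {f g F G : ℍ → ℂ} (h : Prim f F) (h' : Prim g G)
    (e : ∀ τ τ', F τ + (starRingEnd ℂ) (G τ) = F τ' + (starRingEnd ℂ) (G τ')) : f = 0 ∧ g = 0 := by
  have k : ∀ τ, f τ = 0 ∧ g τ = 0 := fun τ => by
    have h1 := ((h τ).hasFDerivAt.restrictScalars ℝ).add
      (Complex.conjCLE.hasFDerivAt.comp _ ((h' τ).hasFDerivAt.restrictScalars ℝ))
    have h3 := h1.unique ((hasFDerivAt_const (F τ + (starRingEnd ℂ) (G τ)) _).congr_of_eventuallyEq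
      (.of_forall fun z => e _ _))
    have a := DFunLike.congr_fun h3 1
    have b := DFunLike.congr_fun h3 Complex.I
    simp only [ContinuousLinearMap.add_apply, ContinuousLinearMap.coe_restrictScalars',
      ContinuousLinearMap.toSpanSingleton_apply, ContinuousLinearMap.comp_apply, smul_eq_mul,
      ContinuousLinearEquiv.coe_coe, Complex.conjCLE_apply, ContinuousLinearMap.zero_apply,
      one_mul, map_mul (starRingEnd ℂ) Complex.I, Complex.conj_I] at a b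
    have c : 2 * π * Complex.I * f τ = 0 := by
      linear_combination (1 / 2) * a - Complex.I / 2 * b + (2 * π * Complex.I * f τ -
        (starRingEnd ℂ) (2 * π * Complex.I * g τ)) / 2 * Complex.I_mul_I
    rw [c, zero_add, map_eq_zero] at a
    exact ⟨(mul_eq_zero.1 c).resolve_left tpi_ne, (mul_eq_zero.1 a).resolve_left tpi_ne⟩
  exact ⟨funext fun τ => (k τ).1, funext fun τ => (k τ).2⟩

/-- the forms of weight two -/
def V (Γ : Subgroup SL(2, ℤ)) : Submodule ℂ (ℍ → ℂ) where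
  carrier := {f | IsMF Γ 2 f}
  add_mem' := IsMF.add
  zero_mem' := IsCF.zero.1
  smul_mem' c _ h := h.smul c

/-- the periods -/
theorem ex_per (Γ : Subgroup SL(2, ℤ)) : ∃ L : V Γ →ₗ[ℂ] Γ → ℂ, ∀ (f : V Γ) F, Prim f F →
    ∀ (δ : Γ) τ, L f δ = F (δ.1 • τ) - F τ := by
  choose P hP using fun f : V Γ => prim f f.2.hol
  have k : ∀ (f : V Γ) F, Prim f F → ∀ (δ : Γ) τ, P f (δ.1 • I) - P f I = F (δ.1 • τ) - F τ :=
    fun f F h δ τ => by
    obtain ⟨c, hc⟩ := (hP f).exists_sub h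
    linear_combination (hP f).period (f.2.slash _ δ.2) I τ + hc (δ.1 • τ) - hc τ
  exact ⟨⟨⟨fun f δ => P f (δ.1 • I) - P f I, fun f g => funext fun δ =>
    (k _ _ ((hP f).add (hP g)) δ I).trans (add_sub_add_comm _ _ _ _)⟩, fun c f => funext fun δ =>
    (k _ _ ((hP f).smul c) δ I).trans (mul_sub _ _ _).symm⟩, k⟩

variable {N : ℕ} {Γ : Subgroup SL(2, ℤ)} (h : Mid N Γ)

include h

theorem fd : FiniteDimensional ℂ (V Γ) := by
  classical
  have := Mid.finiteIndex grp h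
  obtain ⟨L, hL⟩ := ex_per Γ
  choose P hP using fun f : V Γ => prim f f.2.hol
  refine Module.rank_lt_aleph0_iff.1 ((rank_le (n := Γ.relIndex G0 + 1) fun s hs => ?_).trans_lt
    Cardinal.natCast_lt_aleph0)
  rw [← Fintype.card_coe]
  refine homd gen Γ h.hi (h.lo (P022.H231.L3.neg_one_mem _ _)) s (fun i γ => per (P i) 0 γ I)
    (fun i => addOn_per (hP i) Prim.zero i.1.2.slash (fun γ _ => SlashAction.zero_slash _ _) I) ?_
  rw [show (fun (i : s) (γ : Γ) => per (P i) 0 γ I) = L ∘ fun i : s => i.1 from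
    funext fun i => funext fun γ => by simpa [per] using (hL _ _ (hP i) γ I).symm]
  exact hs.map' L (LinearMap.ker_eq_bot'.2 fun f e => Subtype.ext
    (inj0 Γ f 0 _ 0 f.2 IsCF.zero (hP f) Prim.zero fun γ hγ τ => by
      simpa [per, e] using (hL f _ (hP f) ⟨γ, hγ⟩ τ).symm).1)

theorem ex_co : ∃ c : ℕ → V Γ →ₗ[ℂ] ℂ, (∀ f, (∀ m, c m f = 0) → f = 0) ∧
    ∀ (f : V Γ) (M : ℕ) (s : LS), 0 < M → ExL (N * M) s f → ∀ m, c m f = s.coeff (m * M : ℕ) := by
  have N0 : N ≠ 0 := h.lv.1.ne'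
  have k : ∀ f : V Γ, ExL N (ls 0 (qExpansion (N : ℝ) f.1)) f := fun f =>
    (exq_qExpansion N0 (Maxp.peri fun τ => by
      rw [← Inj.slash_T N f.1, f.2.slash _ (h.lo (grp N h.lv).2.2.2.2.1)]) f.2.hol
      (by simpa using f.2.bdd 1)).exL
  refine ⟨fun m => ⟨⟨fun f => (ls 0 (qExpansion (N : ℝ) f.1)).coeff m, fun f g => ?_⟩,
    fun c f => ?_⟩, fun f e => Subtype.ext (ExL.hol_zero (N := N) f.2.hol ?_),
    fun f M s hM hs m => ?_⟩
  · rw [(k (f + g)).unique N0 ((k f).add (k g)), HahnSeries.coeff_add]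
  · refine (congrArg (·.coeff (m : ℤ)) ((k (c • f)).unique N0 ((k f).smul c))).trans ?_
    simp
  · convert k f
    exact (ls_eq_zero.2 (PowerSeries.ext fun m => by
      rw [← coeff_ls 0, zero_add]
      exact e m)).symm
  · rw [hs.unique (mul_ne_zero N0 hM.ne') (exL_period hM N0 (k f)), Nat.cast_mul, mul_comm,
      coeff_sb_mul]
    rfl

end Pf

open Pf

/-- **FMB** -/
theorem fmb {N : ℕ} {Γ : Subgroup SL(2, ℤ)} (h : Mid N Γ) {γ : SL(2, ℤ)} (hγ : γ ∈ Γ) :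
    ∃ (S : Finset ℕ) (u : ℕ → ℂ), ∀ w W w' W', Bdd 2 w → Bdd 2 w' → Prim w W → Prim w' W' →
      (∀ δ ∈ Γ, ∀ τ τ', per W W' δ τ = per W W' δ τ') → ∀ (M : ℕ) (s s' : LS), 0 < M →
      ExL (N * M) s w → ExL (N * M) s' w' → ∀ τ, per W W' γ τ =
        ∑ m ∈ S, u m * s.coeff (m * M : ℕ) +
          (starRingEnd ℂ) (∑ m ∈ S, u m * s'.coeff (m * M : ℕ)) := by
  have := fd h
  obtain ⟨L, hL⟩ := ex_per Γ
  obtain ⟨c, c1, c2⟩ := ex_co h
  obtain ⟨u, hu⟩ := Finsupp.mem_span_range_iff_exists_finsupp.1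
    (FiniteDimensional.mem_span_of_iInf_ker_le_ker (L := c)
      (K := LinearMap.proj ⟨γ, hγ⟩ ∘ₗ L) fun f hf => by
      rw [c1 f ((Submodule.mem_iInf _).1 hf)]
      exact zero_mem _)
  refine ⟨u.support, u, fun w W w' W' b b' p p' e M s s' hM x x' τ => ?_⟩
  have k : ∀ δ ∈ Γ, _ := fun δ hδ => anti ((p.compSL δ).sub p) ((p'.compSL δ).sub p') (e δ hδ)
  have q : ∀ w W (b : IsMF Γ 2 w), Prim w W → ∀ s, ExL (N * M) s w →
      W (γ • τ) - W τ = ∑ m ∈ u.support, u m * s.coeff (m * M : ℕ) := fun w W b p s x => by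
    rw [← hL ⟨w, b⟩ W p ⟨γ, hγ⟩ τ]
    simpa [Finsupp.sum, c2 ⟨w, b⟩ M s hM x] using (LinearMap.congr_fun hu ⟨w, b⟩).symm
  rw [per, q w W ⟨b.1, fun δ hδ => sub_eq_zero.1 (k δ hδ).1, b.2⟩ p s x,
    q w' W' ⟨b'.1, fun δ hδ => sub_eq_zero.1 (k δ hδ).2, b'.2⟩ p' s' x']

end Vale.Agent.P004M.Fai
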