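import Vale.Agent.P022K.WB.Fg
import Vale.Agent.P022K.WB.R1

/-!
# P004M: the fibre of a module with an injective Whittaker functional
-/

set_option autoImplicit false
set_option linter.all false

open Polynomial
open scoped Pointwise

noncomputable section

namespace Vale.Agent.P004M

open Vale.Agent.P022K.WB

/-- Nakayama and the determinant -/
theorem trick {R A : Type*} [CommRing R] [AddCommGroup A] [Module R A] [Module.Finite R A]
    (lam : R →+* ℤ) {p : ℕ} (hp : p.Prime) (c : ℕ) {T : Set A} (hT : T.Finite)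
    (h1 : ⊤ ≤ Submodule.span R T ⊔ (Ideal.span {(p : ℤ)}).comap lam • (⊤ : Submodule R A))
    (h2 : ∀ a : A, p ^ c • a ∈ RingHom.ker lam • (⊤ : Submodule R A)) :
    ∃ t : R, (∀ a : A, t • a = 0) ∧ ¬ (p : ℤ) ^ (c * T.ncard + 1) ∣ lam t := by
  obtain ⟨u, u1, u2⟩ := Submodule.exists_sub_one_mem_and_smul_le_of_fg_of_le_sup
    Module.Finite.fg_top le_rfl h1
  have u3 : ∀ a : A, u • a ∈ Submodule.span R T := fun a =>
    u2 (Submodule.smul_mem_pointwise_smul a u ⊤ trivial)
  have : Module.Finite R (Submodule.span R T) := Module.Finite.span_of_finite R hT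
  obtain ⟨q, q1, q2, q3, q4⟩ :=
    LinearMap.exists_monic_and_natDegree_eq_and_coeff_mem_pow_and_aeval_eq_zero R
      (algebraMap R (Module.End R (Submodule.span R T)) (u * p ^ c)) (RingHom.ker lam) (by
      rintro _ ⟨a, rfl⟩
      rw [Submodule.mem_smul_top_iff, Module.algebraMap_end_apply, Submodule.coe_smul, mul_smul,
        ← Nat.cast_pow, Nat.cast_smul_eq_nsmul]
      refine Submodule.smul_induction_on (h2 a.1) (fun r hr x _ => ?_) fun x y hx hy => ?_
      · rw [smul_comm]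
        exact Submodule.smul_mem_smul hr (u3 x)
      · rw [smul_add]
        exact add_mem hx hy)
  rw [Submodule.spanFinrank_top] at q2
  replace q2 := q2.trans_le (Submodule.spanFinrank_span_le_ncard_of_finite hT)
  refine ⟨q.eval (u * p ^ c) * u, fun a => ?_, fun h => ?_⟩
  · have := congrArg Subtype.val (LinearMap.congr_fun q4 ⟨_, u3 a⟩)
    rwa [aeval_algebraMap_apply, coe_aeval_eq_eval, Module.algebraMap_end_apply, Submodule.coe_smul,
      ← mul_smul] at this
  · have e : lam (q.eval (u * p ^ c)) = (lam u * p ^ c) ^ q.natDegree := by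
      rw [q1.as_sum, eval_add, eval_finsetSum, map_add, map_sum, Finset.sum_eq_zero, add_zero,
        ← q1.as_sum]
      · simp
      · intro i hi
        have := Ideal.pow_le_self (Nat.sub_ne_zero_of_lt (Finset.mem_range.1 hi)) (q3 i)
        rw [eval_mul, eval_C, map_mul, (RingHom.mem_ker).1 this, zero_mul]
    have k : IsCoprime (p : ℤ) (lam u) := by
      obtain ⟨k, hk⟩ := Ideal.mem_span_singleton'.1 (Ideal.mem_comap.1 u1)
      exact ⟨-k, 1, by rw [map_sub, map_one] at hk; linear_combination -hk⟩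
    rw [map_mul, e, mul_pow, mul_right_comm, ← pow_succ, ← pow_mul] at h
    have := (pow_dvd_pow_iff (Nat.cast_ne_zero.2 hp.ne_zero) (Nat.prime_iff_prime_int.1 hp).not_isUnit).1
      (k.pow.dvd_of_dvd_mul_left h)
    nlinarith [Nat.mul_le_mul_left c q2]

section defs

variable {R Γ : Type} [CommRing R] [Group Γ] (p : ℕ) (lam : R →+* ℤ) (M : Type) [AddCommGroup M]
  [Module R M]

/-- `lam` is continuous for the action on `M` -/
def Pro : Prop := ∀ j : ℕ, ∃ S : Finset M, ∀ c : R, (∀ v ∈ S, c • v = 0) → (p : ℤ) ^ j ∣ lam c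

/-- the fibre at `lam` has unbounded exponent -/
def Fib : Prop := ∀ k : ℕ, ∃ v : M, (∀ c, lam c = 0 → c • v = 0) ∧ p ^ k • v ≠ 0

variable {M}

/-- the residual images of `Γ` are bounded -/
def Gen (γ : Representation R Γ M) : Prop := ∃ g : ℕ, ∀ (E : Type) [Ring E] [Finite E]
  (f : MonoidAlgebra R Γ →+* E) (S : Finset M),
  (∀ x, (∀ v ∈ S, ∀ s, γ.asAlgebraHom x (γ s v) = 0) → f x = 0) →
  (∀ c, (p : ℤ) ∣ lam c → f (MonoidAlgebra.single 1 c) = 0) →
  (Set.range fun s => f (MonoidAlgebra.single s 1)).ncard ≤ g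

end defs

variable {p : ℕ} [Fact p.Prime] {C : Type} [NontriviallyNormedField C] [IsUltrametricDist C]
  [CharZero C] [CompleteSpace C] [IsAlgClosed C] {ψ : ℚ_[p] → C} {H : Type} [Group H]
  {act : H →* Iso C} {R M Γ : Type} [CommRing R] [AddCommGroup M] [Module R M] [Group Γ]

theorem km (I : Ideal R) {Z Z' : Type} [AddCommGroup Z] [Module R Z] [AddCommGroup Z']
    [Module R Z'] (f : Z →ₗ[R] Z') : ∀ y ∈ I • (⊤ : Submodule R Z),
    f y ∈ I • (⊤ : Submodule R Z') := fun y hy => by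
  have := Submodule.mem_map_of_mem (f := f) hy
  rw [Submodule.map_smul''] at this
  exact Submodule.smul_mono le_rfl le_top this

/-- the dual of the fibre -/
theorem core (rw : R1.Rows p C) (ok : Ok p ψ act) (ρ : Representation R (G2 p) M) {V : Type}
    [AddCommGroup V] [Module R V] (β : H →* Module.End R V) (w : V →+ M →+ Y p C)
    (wa : ∀ h y v, w (β h y) v = Y.gal (act h) (w y v))
    (wn : ∀ b y v, w y (ρ (nn b) v) = ok.psi.n b (w y v))
    (wt : ∀ y v, w y (ρ (tt p) v) = Y.phi p C (w y v))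
    (ws : ∀ (c : R) y v, w (c • y) v = w y (c • v)) (wi : ∀ v, (∀ y, w y v = 0) → v = 0)
    (Q : AddSubgroup M) (q1 : ∀ x, ∀ v ∈ Q, ρ x v ∈ Q) (N : Submodule R V)
    (hN : ∀ y, y ∈ N ↔ ∀ v ∈ Q, w y v = 0) [fN : Finite (V ⧸ N)] (s : Finset C)
    (o1 : ∀ a ∈ s, Alg a) (o2 : ∀ h, (∀ a ∈ s, (act h).1 a = a) → ∀ y, β h y - y ∈ N) (m : ℕ)
    (o3 : ∀ y, p ^ m • y ∈ N) {lam : R →+* ℤ} {c : ℕ}
    (hc : ∀ v : M, (∀ a, lam a = 0 → a • v = 0) → p ^ c • v = 0) (y : V) :
    p ^ c • y ∈ N ⊔ RingHom.ker lam • (⊤ : Submodule R V) := by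
  let α : H →* AddMonoid.End V :=
    { toFun := fun h => (β h).toAddMonoidHom
      map_one' := by rw [map_one]; rfl
      map_mul' := fun h h' => by rw [map_mul]; rfl }
  let N' := N ⊔ RingHom.ker lam • (⊤ : Submodule R V)
  have s1 : ∀ h, ∀ y ∈ N.toAddSubgroup, α h y ∈ N.toAddSubgroup := fun h y hy =>
    (hN _).2 fun v hv => (wa h y v).trans (by rw [(hN _).1 hy v hv, map_zero])
  have s2 : ∀ h, ∀ y ∈ N'.toAddSubgroup, α h y ∈ N'.toAddSubgroup := fun h y hy => by
    obtain ⟨y, h1, z, h2, rfl⟩ := Submodule.mem_sup.1 hy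
    exact map_add (α h) y z ▸ Submodule.add_mem_sup (s1 h y h1) (km _ (β h) z h2)
  have op : ∀ (D : AddSubgroup V) (hD : ∀ h, ∀ y ∈ D, α h y ∈ D), (∀ y ∈ N, y ∈ D) →
      Opn act (quoA α D hD) ∧ ∃ m : ℕ, ∀ y : V ⧸ D, p ^ m • y = 0 := fun D hD h => by
    refine ⟨⟨s, o1, fun i hi => AddMonoidHom.ext fun y => ?_⟩, m, fun y => ?_⟩ <;>
      obtain ⟨y, rfl⟩ := QuotientAddGroup.mk_surjective y
    · exact (QuotientAddGroup.eq_iff_sub_mem).2 (h _ (o2 i hi y))
    · exact (QuotientAddGroup.eq_zero_iff _).2 (h _ (o3 y))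
  have NN : ∀ y ∈ N, y ∈ N'.toAddSubgroup := fun y h => Submodule.mem_sup_left h
  have : Finite (V ⧸ N.toAddSubgroup) := fN
  have : Finite (V ⧸ N'.toAddSubgroup) := Finite.of_surjective _
    (QuotientAddGroup.map_surjective_of_surjective (N := N.toAddSubgroup) N'.toAddSubgroup (.id V)
      QuotientAddGroup.mk_surjective NN)
  by_contra h
  obtain ⟨x, x1, x2⟩ := rw.ex ψ H _ act _ ok (op _ s2 NN).1 (op _ s2 NN).2
    (QuotientAddGroup.mk (p ^ c • y)) (mt (QuotientAddGroup.eq_zero_iff _).1 h)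
  refine x2 (rw.nfix ψ ok.psi ok.np _ ((op _ s2 NN).2.imp fun k hk => by
    rw [← map_nsmul, hk, map_zero]) fun b => ?_)
  let U : AddSubgroup (V ⧸ N.toAddSubgroup →+ Y p C) :=
    { carrier := {u | ∃ v ∈ Q, ∀ y : V, u (QuotientAddGroup.mk y) = w y v}
      add_mem' := fun ⟨v, h, e⟩ ⟨v', h', e'⟩ => ⟨v + v', add_mem h h', fun y => by
        rw [AddMonoidHom.add_apply, e, e', map_add]⟩
      zero_mem' := ⟨0, zero_mem _, fun y => by simp⟩
      neg_mem' := fun ⟨v, h, e⟩ => ⟨-v, neg_mem h, fun y => by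
        rw [AddMonoidHom.neg_apply, e, map_neg]⟩ }
  obtain ⟨v, hv, e⟩ := rw.surj ψ H _ act _ ok (op _ s1 fun _ => id).1 (op _ s1 fun _ => id).2 U
    (by
      rintro u ⟨v, -, e⟩ h y
      obtain ⟨y, rfl⟩ := QuotientAddGroup.mk_surjective y
      exact (e _).trans ((wa h y v).trans (by rw [e])))
    (by
      rintro u ⟨v, h, e⟩ b
      exact ⟨_, q1 (nn b) v h, fun y => by rw [wn, ← e]; rfl⟩)
    (by
      rintro u ⟨v, h, e⟩
      exact ⟨_, q1 (tt p) v h, fun y => by rw [wt, ← e]; rfl⟩)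
    (by
      rintro u ⟨v, h, e⟩
      refine ⟨_, q1 (tt p)⁻¹ v h, fun y => (Y.phi p C).symm_apply_eq.2 ?_⟩
      rw [← wt, rho_inv', e])
    (fun y hy => by
      obtain ⟨y, rfl⟩ := QuotientAddGroup.mk_surjective y
      exact (QuotientAddGroup.eq_zero_iff _).2 ((hN y).2 fun v hv => hy (QuotientAddGroup.lift _
        (w.flip v) fun z hz => (hN z).1 hz v hv) ⟨v, hv, fun _ => rfl⟩))
    (x.comp (QuotientAddGroup.map _ N'.toAddSubgroup (.id V) NN))
    (fun h y => by
      obtain ⟨y, rfl⟩ := QuotientAddGroup.mk_surjective y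
      exact x1 h (QuotientAddGroup.mk y)) b
  replace e : ∀ y : V, ok.psi.n b (x (QuotientAddGroup.mk y)) - x (QuotientAddGroup.mk y) =
    w y v := e
  refine sub_eq_zero.1 ((e _).trans ?_)
  rw [map_nsmul, AddMonoidHom.nsmul_apply, ← map_nsmul, hc v fun r hr => wi _ fun z => ?_,
    map_zero]
  rw [← ws, ← e, (QuotientAddGroup.eq_zero_iff (N := N'.toAddSubgroup) _).2
    (Submodule.mem_sup_right (Submodule.smul_mem_smul hr trivial)), map_zero, map_zero, sub_zero]

/-- **the fibre is not killed by a power of `p`** -/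
theorem fib (rw : R1.Rows p C) (ok : Ok p ψ act) (ρ : Representation R (G2 p) M)
    (γ : Representation R Γ M) (j : H →* Γ) {ι : Type} [Finite ι] (W : ι → M →+ Y p C)
    (hW : ∀ i, Wf ok (fun x => ρ x) (fun h => γ (j h)) Set.univ (W i))
    (com : ∀ x s v, ρ x (γ s v) = γ s (ρ x v)) (tor : ∀ v : M, ∃ k : ℕ, p ^ k • v = 0)
    (fin : ∀ v, (Set.range fun x => γ.asAlgebraHom x v).Finite)
    (opn : ∀ v, ∃ s : Finset C, (∀ a ∈ s, Alg a) ∧
      ∀ h, (∀ a ∈ s, (act h).1 a = a) → γ (j h) v = v)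
    (inj : ∀ v, (∀ i x, W i (γ.asAlgebraHom x v) = 0) → v = 0) {lam : R →+* ℤ} (hg : Gen p lam γ)
    (hp : Pro p lam M) : Fib p lam M := by
  classical
  have := Fintype.ofFinite ι
  intro c
  by_contra hc
  replace hc : ∀ v : M, (∀ a, lam a = 0 → a • v = 0) → p ^ c • v = 0 := fun v hv =>
    not_not.1 fun e => hc ⟨v, hv, e⟩
  obtain ⟨g, hg⟩ := hg
  obtain ⟨S, hS⟩ := hp (c * (Fintype.card ι * g) + 1)
  let B := MonoidAlgebra R Γ
  let a : B →ₐ[R] Module.End R M := γ.asAlgebraHom
  have a1 : ∀ s, a (MonoidAlgebra.single s 1) = γ s := γ.asAlgebraHom_single_one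
  have am : ∀ x y v, a (x * y) v = a x (a y v) := fun x y v => by rw [map_mul]; rfl
  have as : ∀ (c : R) x v, a (c • x) v = a x (c • v) := fun c x v => by
    rw [map_smul, map_smul]; rfl
  have cm : ∀ x y v, ρ x (a y v) = a y (ρ x v) := fun x y v => by
    induction y using MonoidAlgebra.induction_on with
    | of s => rw [MonoidAlgebra.of_apply, a1, com]
    | add y z hy hz => simp only [map_add, LinearMap.add_apply, hy, hz]
    | smul r y hy => simp only [map_smul, LinearMap.smul_apply, hy]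
  let S' : Set M := {w | ∃ v ∈ S, ∃ y, a y v = w}
  have f' : S'.Finite := (S.finite_toSet.biUnion fun v _ => fin v).subset fun w ⟨v, hv, e⟩ =>
    Set.mem_biUnion hv e
  let Q : AddSubgroup M := AddSubgroup.closure {w | ∃ x, ∃ v ∈ S', ρ x v = w}
  have ind : ∀ {Z : Type} [AddCommGroup Z] (f : M →+ Z) (D : AddSubgroup Z),
      (∀ x, ∀ v ∈ S', f (ρ x v) ∈ D) → ∀ v ∈ Q, f v ∈ D := fun f D h =>
    (AddSubgroup.closure_le (D.comap f)).2 (by
      rintro _ ⟨x, v, hv, rfl⟩
      exact h x v hv)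
  have q0 : ∀ x, ∀ v ∈ S', ρ x v ∈ Q := fun x v hv => AddSubgroup.subset_closure ⟨x, v, hv, rfl⟩
  have q1 : ∀ x, ∀ v ∈ Q, ρ x v ∈ Q := fun x => ind (ρ x).toAddMonoidHom Q fun y v hv =>
    (rho_mul (ρ := ρ) x y v ▸ q0 (x * y) v hv :)
  have q2 : ∀ y, ∀ v ∈ Q, a y v ∈ Q := fun y => ind (a y).toAddMonoidHom Q (by
    rintro x _ ⟨v, hv, z, rfl⟩
    exact (cm x y _ ▸ q0 x _ ⟨v, hv, y * z, am _ _ _⟩ :))
  have q3 : ∀ (c : R), ∀ v ∈ Q, c • v ∈ Q := fun c v hv => by
    simpa [as] using q2 (c • 1) v hv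
  have q4 : ∀ y, (∀ v ∈ S', a y v = 0) → ∀ v ∈ Q, a y v = 0 := fun y h =>
    ind (a y).toAddMonoidHom ⊥ fun x v hv => by
      show a y (ρ x v) = 0
      rw [← cm, h v hv, map_zero]
  let J : Ideal B :=
    { carrier := {y | ∀ v ∈ Q, a y v = 0}
      add_mem' := fun h h' v hv => by rw [map_add, LinearMap.add_apply, h v hv, h' v hv, add_zero]
      zero_mem' := fun v _ => by simp
      smul_mem' := fun x y h v hv => by rw [smul_eq_mul, am, h v hv, map_zero] }
  have fJ : Finite (B ⧸ J) := by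
    have := f'.to_subtype
    let k : B →+ (S' → M) := AddMonoidHom.mk' (fun y v => a y v) fun y z => by
      ext v
      simp
    have : Finite k.range := (Set.Finite.pi' fun _ : S' => f').subset (by
      rintro _ ⟨y, rfl⟩ ⟨_, v, hv, z, rfl⟩
      exact ⟨v, hv, y * z, am _ _ _⟩)
    have := Finite.of_equiv _ (QuotientAddGroup.quotientKerEquivRange k).symm.toEquiv
    exact Finite.of_surjective _ (QuotientAddGroup.map_surjective_of_surjective (N := k.ker)
      J.toAddSubgroup (.id B) QuotientAddGroup.mk_surjective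
      fun y hy => q4 y fun v hv => congrFun hy ⟨v, hv⟩)
  let V := ι → B
  let w : V →+ M →+ Y p C := AddMonoidHom.mk'
    (fun y => ∑ i, (W i).comp (a (y i)).toAddMonoidHom) fun y z => by
      rw [← Finset.sum_add_distrib]
      exact Finset.sum_congr rfl fun i _ => AddMonoidHom.ext fun v =>
        (congrArg (W i) (LinearMap.congr_fun (map_add a (y i) (z i)) v)).trans (map_add _ _ _)
  have we : ∀ y v, w y v = ∑ i, W i (a (y i) v) := fun y v => AddMonoidHom.finsetSum_apply _ _ _
  have ws : ∀ (c : R) y v, w (c • y) v = w y (c • v) := fun c y v => by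
    rw [we, we]
    exact Finset.sum_congr rfl fun i _ => congrArg (W i) (as c (y i) v)
  have wi : ∀ v, (∀ y, w y v = 0) → v = 0 := fun v h => inj v fun i x => by
    rw [← h (Pi.single i x), we, Finset.sum_eq_single i (fun k _ e => by
      rw [Pi.single_eq_of_ne e, map_zero, LinearMap.zero_apply, map_zero]) (by simp),
      Pi.single_eq_same]
  let N : Submodule R V :=
    { carrier := {y | ∀ v ∈ Q, w y v = 0}
      add_mem' := fun h h' v hv => by
        rw [map_add, AddMonoidHom.add_apply, h v hv, h' v hv, add_zero]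
      zero_mem' := fun v _ => by rw [map_zero, AddMonoidHom.zero_apply]
      smul_mem' := fun x y h v hv => by rw [ws, h _ (q3 x v hv)] }
  have JN : ∀ y : V, (∀ i, y i ∈ J) → y ∈ N := fun y h v hv => by
    rw [we]
    exact Finset.sum_eq_zero fun i _ => by rw [h i v hv, map_zero]
  have fQ : ∀ D : AddSubgroup V, (∀ y : V, (∀ i, y i ∈ J) → y ∈ D) → Finite (V ⧸ D) := fun D h =>
    Finite.of_surjective (fun x : ι → B ⧸ J => (QuotientAddGroup.mk fun i => (x i).out : V ⧸ D))
      fun y => by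
      obtain ⟨y, rfl⟩ := QuotientAddGroup.mk_surjective y
      exact ⟨fun i => Submodule.Quotient.mk (y i), QuotientAddGroup.eq_iff_sub_mem.2
        (h _ fun i => (Submodule.Quotient.eq J).1 (Quotient.out_eq' _))⟩
  have fN : Finite (V ⧸ N) := fQ N.toAddSubgroup JN
  let m : Ideal R := (Ideal.span {(p : ℤ)}).comap lam
  obtain ⟨T, T1, T2, T3⟩ : ∃ T : Set (V ⧸ N), T.Finite ∧ T.ncard ≤ Fintype.card ι * g ∧
      ⊤ ≤ Submodule.span R T ⊔ m • (⊤ : Submodule R (V ⧸ N)) := by
    let I : Ideal B :=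
      { carrier := {y | ∃ z ∈ J, y - z ∈ m • (⊤ : Submodule R B)}
        add_mem' := fun ⟨z, h, e⟩ ⟨z', h', e'⟩ =>
          ⟨z + z', add_mem h h', by rw [add_sub_add_comm]; exact add_mem e e'⟩
        zero_mem' := ⟨0, zero_mem _, by simp⟩
        smul_mem' := fun x y ⟨z, h, e⟩ => ⟨x * z, J.mul_mem_left x h, by
          rw [smul_eq_mul, ← mul_sub]; exact km m (LinearMap.mulLeft R x) _ e⟩ }
    have : I.IsTwoSided := ⟨by
      rintro y x ⟨z, h, e⟩
      exact ⟨z * x, fun v hv => by rw [am, h _ (q2 x v hv)],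
        by rw [← sub_mul]; exact km m (LinearMap.mulRight R x) _ e⟩⟩
    have JI : ∀ y ∈ J, y ∈ I := fun y h => ⟨y, h, by simp⟩
    have : Finite (B ⧸ I) := @Finite.of_surjective _ _ fJ _
      (QuotientAddGroup.map_surjective_of_surjective (N := J.toAddSubgroup) I.toAddSubgroup (.id B)
        QuotientAddGroup.mk_surjective JI)
    have h1 := hg (B ⧸ I) (Ideal.Quotient.mk I) S (fun x hx => Ideal.Quotient.eq_zero_iff_mem.2
      (JI x (q4 x (by
        rintro _ ⟨v, hv, y, rfl⟩
        induction y using MonoidAlgebra.induction_on with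
        | of s => rw [MonoidAlgebra.of_apply, a1, hx v hv]
        | add y z hy hz => simp only [map_add, LinearMap.add_apply, hy, hz, add_zero]
        | smul r y hy => simp only [map_smul, LinearMap.smul_apply, hy, smul_zero]))))
      fun c hc => Ideal.Quotient.eq_zero_iff_mem.2 ⟨0, zero_mem _, by
        rw [sub_zero, ← mul_one c, ← smul_eq_mul, ← MonoidAlgebra.smul_single]
        exact Submodule.smul_mem_smul (Ideal.mem_span_singleton.2 hc) trivial⟩
    let u : Γ → B ⧸ I := fun s => Ideal.Quotient.mk I (MonoidAlgebra.single s 1)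
    let e : ι → B →ₗ[R] V ⧸ N := fun i => N.mkQ ∘ₗ LinearMap.single R (fun _ => B) i
    let k : ι × (B ⧸ I) → V ⧸ N := fun x => e x.1 (MonoidAlgebra.single (Function.invFun u x.2) 1)
    refine ⟨k '' Set.univ ×ˢ Set.range u, Set.toFinite _, (Set.ncard_image_le (Set.toFinite _)).trans
      (by rw [Set.ncard_prod, Set.ncard_univ, Nat.card_eq_fintype_card]
          exact Nat.mul_le_mul_left _ h1), fun y _ => ?_⟩
    obtain ⟨y, rfl⟩ := N.mkQ_surjective y
    rw [← Finset.univ_sum_single y, map_sum]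
    refine sum_mem fun i _ => ?_
    change e i (y i) ∈ _
    induction y i using MonoidAlgebra.induction_on with
    | of s =>
      obtain ⟨z, h, o⟩ := Ideal.Quotient.eq.1 (Function.invFun_eq (f := u) ⟨s, rfl⟩).symm
      refine Submodule.mem_sup.2 ⟨_, Submodule.subset_span ⟨(i, u s), ⟨trivial, s, rfl⟩, rfl⟩, _,
        km m (e i) _ o, ?_⟩
      rw [map_sub, map_sub, show e i z = 0 from (Submodule.Quotient.mk_eq_zero N).2 (JN _ fun l => by
        show Pi.single (M := fun _ => B) i z l ∈ J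
        by_cases hl : l = i
        · rwa [hl, Pi.single_eq_same]
        · rw [Pi.single_eq_of_ne hl]
          exact zero_mem _), sub_zero, add_sub_cancel]
      rfl
    | add y z hy hz => exact map_add (e i) y z ▸ add_mem hy hz
    | smul r y hy => exact map_smul (e i) r y ▸ Submodule.smul_mem _ r hy
  choose s o1 o2 using opn
  choose k hk using tor
  obtain ⟨t, t1, t2⟩ := trick lam (Fact.out : p.Prime) c T1 T3 fun y => by
    obtain ⟨y, rfl⟩ := N.mkQ_surjective y
    obtain ⟨x, h1, z, h2, e⟩ := Submodule.mem_sup.1 (core rw ok ρ (V := V)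
      { toFun := fun h => (LinearMap.mulLeft R (MonoidAlgebra.single (j h) 1 : B)).compLeft ι
        map_one' := LinearMap.ext fun y => funext fun i => by
          show (MonoidAlgebra.single (j 1) 1 : B) * y i = y i
          rw [map_one]
          exact one_mul _
        map_mul' := fun h h' => LinearMap.ext fun y => funext fun i => by
          show _ * y i = _ * (_ * y i)
          rw [← mul_assoc, MonoidAlgebra.single_mul_single, map_mul, one_mul] } w
      (fun h y v => by
        rw [we, we, map_sum]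
        exact Finset.sum_congr rfl fun i _ =>
          (congrArg (W i) ((am _ _ _).trans (by rw [a1]))).trans ((hW i).h h _ trivial))
      (fun b y v => by
        rw [we, we, map_sum]
        exact Finset.sum_congr rfl fun i _ => by rw [← cm, (hW i).n b _ trivial])
      (fun y v => by
        rw [we, we, map_sum]
        exact Finset.sum_congr rfl fun i _ => by rw [← cm, (hW i).t _ trivial])
      ws wi Q q1 N (fun _ => Iff.rfl) (f'.toFinset.biUnion s)
      (fun x hx => by
        obtain ⟨v, -, hv⟩ := Finset.mem_biUnion.1 hx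
        exact o1 v x hv)
      (fun i hi y => JN _ fun l => q4 _ (by
        rintro _ ⟨v, hv, z, rfl⟩
        show a (_ * y l - y l) _ = 0
        rw [map_sub, LinearMap.sub_apply, am, a1, ← am, o2 _ i fun x hx => hi x
          (Finset.mem_biUnion.2 ⟨_, f'.mem_toFinset.2 ⟨v, hv, _, rfl⟩, hx⟩), sub_self]))
      (f'.toFinset.sup k)
      (fun y => JN _ fun l => q4 _ fun v hv => by
        obtain ⟨d, hd⟩ := pow_dvd_pow p (Finset.le_sup (f := k) (f'.mem_toFinset.2 hv))
        show a (p ^ _ • y l) v = 0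
        rw [map_nsmul, LinearMap.smul_apply, ← map_nsmul, hd, mul_comm, mul_smul, hk, smul_zero,
          map_zero]) hc y)
    rw [← map_nsmul, ← e, map_add, show N.mkQ x = 0 from (Submodule.Quotient.mk_eq_zero N).2 h1,
      zero_add]
    exact km _ _ z h2
  refine t2 ((pow_dvd_pow _ (by nlinarith [Nat.mul_le_mul_left c T2])).trans
    (hS t fun v hv => wi _ fun y => ?_))
  rw [← ws]
  exact (Submodule.Quotient.mk_eq_zero N).1 (t1 (N.mkQ y)) v
    (by simpa using q0 1 v ⟨v, hv, 1, by simp⟩)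

end Vale.Agent.P004M
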