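import Vale.Agent.P004M.Gk

/-!
# P004M: uniform finiteness of actions of exponent two, and the kernel of the functional
-/

set_option autoImplicit false
set_option linter.all false

noncomputable section

namespace Vale.Agent.P004M

open Vale.Agent.P022 Vale.Agent.P022K Vale.Agent.P022K.WB Vale.Agent.P022K.FI
open Vale.Agent.P022.H443 (inP)
open Vale.Agent.P022E.GW (Ov Fb)

/-- from Frobenius elements to all elements of an open subgroup -/
theorem sq_of_frob {V : Subgroup GQ} (hV : IsOpen (V : Set GQ)) (T : Finset ℕ) {E : Type}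
    [Monoid E] (u : GQ →* E) (ho : IsOpen {s | u s = 1})
    (es : ∀ l ∉ T, ∀ Q φ, Ov l Q → Fb l Q φ → φ ∈ V → u φ * u φ = 1) {s : GQ} (hs : s ∈ V) :
    u s * u s = 1 := by
  obtain ⟨U, h1, h2, h3⟩ := ex_normal (V := V ⊓ u.toHomUnits.ker) (hV.inter (by
    convert ho using 1
    ext g
    exact Units.ext_iff))
  obtain ⟨l, φ, k1, k2, ⟨Q, k3, k4, k5⟩, k6⟩ := Cheb.cheb U h1 h2 s T
  obtain ⟨w, hw, rfl⟩ : ∃ w ∈ U, φ = s * w := ⟨_, k6, (mul_inv_cancel_left _ _).symm⟩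
  have := es l k2 Q _ ⟨k1, k3, k4⟩ k5 (mul_mem hs (h3 hw).1)
  rwa [map_mul, show u w = 1 from Units.ext_iff.1 (h3 hw).2, mul_one] at this

/-- **one open subgroup kills all the homomorphisms of exponent two** -/
theorem gen0 {V : Subgroup GQ} (hV : IsOpen (V : Set GQ)) (T : Finset ℕ) :
    ∃ U : Subgroup GQ, IsOpen (U : Set GQ) ∧ ∀ (E : Type) [Monoid E] (u : GQ →* E),
      IsOpen {s | u s = 1} → (∀ l ∉ T, ∀ Q, Ov l Q → ∀ s ∈ inP Q, u s = 1) →
      (∀ s ∈ V, u s * u s = 1) → ∀ s ∈ U, u s = 1 := by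
  classical
  obtain ⟨U, h5, h6, h7⟩ := P022G.Sel.Finr.ex_U hV T
  refine ⟨U, h5, fun E _ u ho ur h4 s hs => ?_⟩
  let S : Subgroup Eˣ := V.map u.toHomUnits
  have sq : ∀ x : S, x * x = 1 := by
    rintro ⟨_, g, hg, rfl⟩
    exact Subtype.ext (Units.ext (h4 g hg))
  letI : CommGroup S :=
    { (inferInstance : Group S) with
      mul_comm := fun x y => by
        rw [eq_inv_of_mul_eq_one_left (sq (x * y)), mul_inv_rev,
          ← eq_inv_of_mul_eq_one_left (sq x), ← eq_inv_of_mul_eq_one_left (sq y)] }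
  let c : GQ → Additive S := fun g =>
    if h : g ∈ V then Additive.ofMul ⟨u.toHomUnits g, g, h, rfl⟩ else 0
  have c0 : ∀ g, u g = 1 → c g = 0 := fun g hg => by
    by_cases h : g ∈ V
    · exact (dif_pos h).trans (congrArg Additive.ofMul (Subtype.ext (Units.ext hg)))
    · exact dif_neg h
  have := h7 (Additive S) (fun x => (two_nsmul x).trans (congrArg Additive.ofMul (sq x.toMul))) c
    (fun a ha b hb => by
      simp only [c, dif_pos ha, dif_pos hb, dif_pos (mul_mem ha hb), map_mul]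
      rfl)
    ⟨u.toHomUnits.ker, by
      convert ho using 1
      ext g
      exact Units.ext_iff, fun g hg => c0 g (Units.ext_iff.1 hg)⟩
    (fun l hl Q hQ g hg => c0 g (ur l hl Q hQ g hg)) s hs
  exact congrArg (fun x : Additive S => ((x.toMul : Eˣ) : E)) ((dif_pos (h6 hs)).symm.trans this)

/-- **GEN** -/
theorem gen {V : Subgroup GQ} (hV : IsOpen (V : Set GQ)) (T : Finset ℕ) :
    ∃ (g : ℕ) (σ : Fin g → GQ), ∀ (E : Type) [Monoid E] (u : GQ →* E),
      IsOpen {s | u s = 1} → (∀ l ∉ T, ∀ Q, Ov l Q → ∀ s ∈ inP Q, u s = 1) →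
      (∀ l ∉ T, ∀ Q φ, Ov l Q → Fb l Q φ → φ ∈ V → u φ * u φ = 1) →
      ∀ s, ∃ i, u s = u (σ i) := by
  obtain ⟨U, h1, h2⟩ := gen0 hV T
  haveI := H916.isGalois_Qb
  haveI : Finite (GQ ⧸ U) := Subgroup.quotient_finite_of_isOpen U h1
  obtain ⟨g, ⟨e⟩⟩ := Finite.exists_equiv_fin (GQ ⧸ U)
  refine ⟨g, fun i => (e.symm i).out, fun E _ u ho ur es s => ⟨e s, ?_⟩⟩
  obtain ⟨w, hw⟩ := QuotientGroup.mk_out_eq_mul U s
  beta_reduce
  rw [e.symm_apply_apply, hw, map_mul,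
    h2 E u ho ur (fun s hs => sq_of_frob hV T u ho es hs) w w.2, mul_one]

variable {R M : Type} [CommRing R] [AddCommGroup M] [Module R M] {γ : Representation R GQ M}
  {p : ℕ} [Fact p.Prime] {ρ : Representation R (G2 p) M} {ψ : ℚ_[p] → CS p}

/-- **KER** -/
theorem ker (e : Qb →+* CS p) (hψ : Psi p ψ) {P : Submodule R M} (hP : Adm ρ P)
    (hz : ∀ a, ∀ v ∈ P, ρ (dd a a) v = v) (gs : ∀ s, ∀ v ∈ P, γ s v ∈ P)
    (com : ∀ x s, ∀ v ∈ P, ρ x (γ s v) = γ s (ρ x v)) {W : M →+ Y p (CS p)}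
    (hW : Wg hψ.og ρ (fun s => γ (rs e s)) P W) {v : M} (hv : v ∈ P)
    (h0 : ∀ s, W (γ s v) = 0) (x : G2 p) (s : GQ) : W (γ s (ρ x v)) = 0 :=
  hW.stab (phi_row p _) (sur0 p) hP hz gs com hv h0 x s

end Vale.Agent.P004M
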