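import Vale.Agent.P022K.WB.GkS
import Vale.Agent.P022K.WB.Lo
import Vale.Agent.P022K.WB.Hon
import Vale.Agent.P022K.WB.YSurj
import Vale.Agent.P022K.WB.YNf
import Vale.Agent.P022K.Cheb.Main
import Vale.Agent.P022G.Sel.Finr

/-!
# P004M: finiteness under elliptic elements at `p = 2`, for every block
-/

set_option autoImplicit false
set_option linter.all false

noncomputable section

namespace Vale.Agent.P004M

open Vale.Agent.P022 Vale.Agent.P022K Vale.Agent.P022K.WB Vale.Agent.P022K.FI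
open Vale.Agent.P022.H443 (inP)
open Vale.Agent.P022E.GW (Ov Fb)

variable {R M : Type} [CommRing R] [AddCommGroup M] [Module R M] {γ : Representation R GQ M}
  {P : Submodule R M}

theorem ex_normal {V : Subgroup GQ} (hV : IsOpen (V : Set GQ)) :
    ∃ U : Subgroup GQ, U.Normal ∧ IsOpen (U : Set GQ) ∧ U ≤ V := by
  haveI := H916.isGalois_Qb
  haveI : Finite (GQ ⧸ V) := Subgroup.quotient_finite_of_isOpen V hV
  haveI : V.FiniteIndex := Subgroup.finiteIndex_of_finite_quotient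
  exact ⟨V.normalCore, inferInstance, Subgroup.isOpen_of_isClosed_of_finiteIndex _
    (Subgroup.normalCore_isClosed V (V.isClosed_of_isOpen hV)), V.normalCore_le⟩

theorem ex_fix (sm : ∀ v ∈ P, ∃ V : Subgroup GQ, IsOpen (V : Set GQ) ∧ ∀ s ∈ V, γ s v = v)
    {ι : Type} [Finite ι] {a : ι → M} (ha : ∀ i, a i ∈ P) :
    ∃ U : Subgroup GQ, U.Normal ∧ IsOpen (U : Set GQ) ∧ ∀ s ∈ U, ∀ i, γ s (a i) = a i := by
  choose V h1 h2 using fun i => sm _ (ha i)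
  obtain ⟨U, h3, h4, h5⟩ := ex_normal (V := ⨅ i, V i) (by
    rw [Subgroup.coe_iInf]
    exact isOpen_iInter_of_finite h1)
  exact ⟨U, h3, h4, fun s hs i => h2 i s (Subgroup.mem_iInf.1 (h5 hs) i)⟩

theorem gm (s t : GQ) (v : M) : γ (s * t) v = γ s (γ t v) := by
  rw [map_mul, Module.End.mul_apply]

section

variable {T : Finset ℕ} (hT : 2 ∈ T) (h2 : ∀ v ∈ P, 2 • v = 0) (gs : ∀ s, ∀ v ∈ P, γ s v ∈ P)
  (sm : ∀ v ∈ P, ∃ V : Subgroup GQ, IsOpen (V : Set GQ) ∧ ∀ s ∈ V, γ s v = v)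
  (ur : ∀ l ∉ T, ∀ Q, Ov l Q → ∀ s ∈ inP Q, ∀ v ∈ P, γ s v = v)
  (I : Ideal R) [Finite (R ⧸ I)] (hI : ∀ c ∈ I, ∀ v ∈ P, c • v = 0)
  (es : ∀ l ∉ T, ∀ Q φ, Ov l Q → Fb l Q φ →
    ∃ t : R, ∀ v ∈ P, γ φ (γ φ v) - t • γ φ v + l • v = 0)

include hT h2 gs sm hI es

/-- the quadratic relation for all elements of the group -/
theorem quad (s : GQ) : ∃ t : R, ∀ v ∈ P, γ s (γ s v) - t • γ s v + v = 0 := by
  by_contra! h
  choose a h3 h4 using fun c : R ⧸ I => h c.out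
  obtain ⟨U, h5, h6, h7⟩ := ex_fix sm h3
  obtain ⟨l, φ, k1, k2, ⟨Q, k3, k4, k5⟩, k6⟩ := Cheb.cheb U h5 h6 s T
  obtain ⟨t, ht⟩ := es l k2 Q φ ⟨k1, k3, k4⟩ k5
  obtain ⟨u, hu, rfl⟩ : ∃ u ∈ U, φ = s * u := ⟨_, k6, (mul_inv_cancel_left _ _).symm⟩
  obtain ⟨m, rfl⟩ := k1.odd_of_ne_two fun e => k2 (e ▸ hT)
  refine h4 (Ideal.Quotient.mk I t) ?_
  have e1 := ht _ (h3 (Ideal.Quotient.mk I t))
  have e2 := hI _ (Ideal.Quotient.eq.1 (Ideal.Quotient.mk_out (Ideal.Quotient.mk I t))) _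
    (gs s _ (h3 (Ideal.Quotient.mk I t)))
  rw [← gm, show s * u * (s * u) = s * (s * ((s⁻¹ * u * s⁻¹⁻¹) * u)) by group, gm, gm,
    h7 _ (mul_mem (h5.conj_mem u hu s⁻¹) hu), gm, h7 u hu, succ_nsmul, mul_nsmul, h2 _ (h3 _),
    smul_zero, zero_add] at e1
  rw [sub_smul, sub_eq_zero] at e2
  rw [e2, e1]

/-- an open subgroup acts with exponent two -/
theorem exp2 : ∃ V : Subgroup GQ, IsOpen (V : Set GQ) ∧ ∀ s ∈ V, ∀ v ∈ P, γ s (γ s v) = v := by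
  have h : ∀ c : R ⧸ I, ∃ a ∈ P, c.out • a = 0 → ∀ v ∈ P, c.out • v = 0 := fun c => by
    by_cases e : ∀ v ∈ P, c.out • v = 0
    · exact ⟨0, zero_mem _, fun _ => e⟩
    · push Not at e
      obtain ⟨v, h3, h4⟩ := e
      exact ⟨v, h3, fun e => (h4 e).elim⟩
  choose a h3 h4 using h
  obtain ⟨U, -, h6, h7⟩ := ex_fix sm h3
  refine ⟨U, h6, fun s hs v hv => ?_⟩
  obtain ⟨t, ht⟩ := quad hT h2 gs sm I hI es s
  have e2 : ∀ w ∈ P, (Ideal.Quotient.mk I t).out • w = t • w := fun w hw => by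
    have := hI _ (Ideal.Quotient.eq.1 (Ideal.Quotient.mk_out (Ideal.Quotient.mk I t))) _ hw
    rwa [sub_smul, sub_eq_zero] at this
  have e1 := ht _ (h3 (Ideal.Quotient.mk I t))
  rw [h7 s hs, h7 s hs, sub_add_eq_add_sub, ← two_nsmul, h2 _ (h3 _), zero_sub, neg_eq_zero,
    ← e2 _ (h3 _)] at e1
  have e3 := ht v hv
  rw [← e2 _ (gs s v hv), h4 _ e1 _ (gs s v hv), sub_zero] at e3
  rw [eq_neg_of_add_eq_zero_left e3, neg_eq_iff_add_eq_zero, ← two_nsmul, h2 v hv]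

include ur

/-- **the action factors through a finite quotient** -/
theorem fin2 : ∃ U : Subgroup GQ, IsOpen (U : Set GQ) ∧ ∀ s ∈ U, ∀ v ∈ P, γ s v = v := by
  classical
  obtain ⟨V, h3, h4⟩ := exp2 hT h2 gs sm I hI es
  obtain ⟨U, h5, h6, h7⟩ := P022G.Sel.Finr.ex_U h3 T
  refine ⟨U, h5, fun s hs v hv => ?_⟩
  let N : Subgroup GQ :=
    { carrier := {g | ∀ h, γ g (γ h v) = γ h v}
      one_mem' := fun h => by rw [← gm, one_mul]
      mul_mem' := fun {a b} ha hb h => by rw [gm, hb, ha]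
      inv_mem' := fun {a} ha h => by
        conv_lhs => rw [← ha h, ← gm, inv_mul_cancel, ← gm, one_mul] }
  have nN : N.Normal := ⟨fun a ha g h => by
    rw [gm, gm, ← gm g⁻¹, ha, ← gm, mul_inv_cancel_left]⟩
  let S : Subgroup (GQ ⧸ N) := V.map (QuotientGroup.mk' N)
  have sq : ∀ x : S, x * x = 1 := by
    rintro ⟨_, g, hg, rfl⟩
    refine Subtype.ext ((QuotientGroup.eq_one_iff (g * g)).2 fun h => ?_)
    rw [gm]
    exact h4 g hg _ (gs h v hv)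
  letI : CommGroup S :=
    { (inferInstance : Group S) with
      mul_comm := fun x y => by
        rw [eq_inv_of_mul_eq_one_left (sq (x * y)), mul_inv_rev,
          ← eq_inv_of_mul_eq_one_left (sq x), ← eq_inv_of_mul_eq_one_left (sq y)] }
  let c : GQ → Additive S := fun g =>
    if h : g ∈ V then Additive.ofMul ⟨QuotientGroup.mk' N g, g, h, rfl⟩ else 0
  have c0 : ∀ g ∈ N, c g = 0 := fun g hg => by
    by_cases h : g ∈ V
    · exact (dif_pos h).trans (congrArg Additive.ofMul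
        (Subtype.ext ((QuotientGroup.eq_one_iff g).2 hg)))
    · exact dif_neg h
  obtain ⟨W, k1, k2, k3⟩ := ex_fix sm (a := fun _ : Unit => v) fun _ => hv
  have := h7 (Additive S) (fun x => (two_nsmul x).trans (congrArg Additive.ofMul (sq x.toMul))) c
    (fun a ha b hb => by
      simp only [c, dif_pos ha, dif_pos hb, dif_pos (mul_mem ha hb)]
      rfl)
    ⟨W, k2, fun g hg => c0 g fun h => by
      rw [← gm, show g * h = h * (h⁻¹ * g * h⁻¹⁻¹) by group, gm, k3 _ (k1.conj_mem g hg h⁻¹) ()]⟩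
    (fun l hl Q hQ g hg => c0 g fun h => ur l hl Q hQ g hg _ (gs h v hv)) s hs
  have e : (QuotientGroup.mk' N s) = 1 :=
    congrArg (fun x : Additive S => (x.toMul : GQ ⧸ N)) ((dif_pos (h6 hs)).symm.trans this)
  simpa using (QuotientGroup.eq_one_iff s).1 e 1

end

/-- continuity of the restriction along an embedding -/
theorem cts {p : ℕ} [Fact p.Prime] (e : Qb →+* CS p) {V : Subgroup GQ}
    (hV : IsOpen (V : Set GQ)) : ∃ S : Finset (CS p), (∀ a ∈ S, Alg a) ∧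
      ∀ s : Iso (CS p), (∀ a ∈ S, s.1 a = a) → rs e s ∈ V := by
  classical
  obtain ⟨E, hE, h3⟩ := (krullTopology_mem_nhds_one_iff ℚ Qb _).1 (hV.mem_nhds V.one_mem)
  let b := Module.finBasis ℚ E
  refine ⟨Finset.univ.image fun i => e (b i), fun a ha => ?_, fun s hs =>
    h3 ((E.mem_fixingSubgroup_iff _).2 fun x hx => ?_)⟩
  · obtain ⟨i, -, rfl⟩ := Finset.mem_image.1 ha
    exact ((Algebra.IsAlgebraic.isAlgebraic (R := ℚ) (b i : Qb)).algHom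
      e.toRatAlgHom).extendScalars (algebraMap ℚ (Qh (CS p))).injective
  · exact DFunLike.congr_fun (b.ext (f₁ := (rs e s).toLinearMap ∘ₗ E.val.toLinearMap)
      (f₂ := E.val.toLinearMap) fun i => e.injective ((rs_spec e s _).trans
        (hs _ (Finset.mem_image_of_mem _ (Finset.mem_univ i))))) ⟨x, hx⟩

/-- **GK** from periodic functionals, for an action with open kernel -/
theorem gkP {p : ℕ} [Fact p.Prime] {ρ : Representation R (G2 p) M} (e : Qb →+* CS p)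
    {ψ : ℚ_[p] → CS p} (hψ : Psi p ψ) (hP : Adm ρ P) (h2 : ∀ v ∈ P, p • v = 0)
    (hz : ∀ a, ∀ v ∈ P, ρ (dd a a) v = v) (gs : ∀ s, ∀ v ∈ P, γ s v ∈ P)
    (com : ∀ x s, ∀ v ∈ P, ρ x (γ s v) = γ s (ρ x v)) {U : Subgroup GQ}
    (h3 : IsOpen (U : Set GQ)) (h4 : ∀ s ∈ U, ∀ v ∈ P, γ s v = v) {q : ℕ} (hq : 0 < q)
    {ι : Type} {W : ι → M →+ Y p (CS p)}
    (hW : ∀ i, Hon.Pg hψ.og ρ (fun s => γ (rs e s)) P q (W i))
    (inj : ∀ v ∈ P, (∀ i s x, W i (γ s (ρ x v)) = 0) → v = 0) {c : ℕ} (hc : 2 ≤ c) {x : G2 p}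
    (hx : Ell c x) : {z | z ∈ P ∧ ρ x z = z}.Finite := by
  haveI := H916.isGalois_Qb
  haveI : Finite (GQ ⧸ U) := Subgroup.quotient_finite_of_isOpen U h3
  have hw : ∀ j : ι × {ζ : CS p // ζ ^ (p ^ q - 1) = 1},
      Wg hψ.og ρ (fun s => γ (rs e s)) P (Hon.hon ρ hq j.2.2 (W j.1)) := fun j =>
    (hW j.1).wg hq j.2.2 hP.gs (fun s => gs _) fun s i v hv => (com _ _ v hv).symm
  refine gkG (surj p _) (phi_row p _) (sur0 p) hP h2 hz gs com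
    ⟨Set.range fun y : GQ ⧸ U => y.out, Set.finite_range _, fun s => ⟨_, ⟨s, rfl⟩, fun v hv => ?_⟩⟩
    ((cts e h3).imp fun S h => ⟨h.1, fun s hs => h4 _ (h.2 s hs)⟩) hw
    (fun v hv h0 => inj v hv fun i s y => Hon.hon_inj hq ⟨1, by
      rw [pow_one, h2 _ (gs _ _ (hP.gs _ _ hv))]⟩ fun ζ h =>
        (hw (i, ⟨ζ, h⟩)).stab (phi_row p _) (sur0 p) hP hz gs com hv (h0 _) y s) hc hx
  obtain ⟨u, hu⟩ := QuotientGroup.mk_out_eq_mul U s
  beta_reduce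
  rw [hu, gm, h4 u u.2 v hv]

/-- **GK** at `p = 2` -/
theorem gk2 {ρ : Representation R (G2 2) M} (e : Qb →+* CS 2) {ψ : ℚ_[2] → CS 2} (hψ : Psi 2 ψ)
    {T : Finset ℕ} (hT : 2 ∈ T) (hP : Adm ρ P) (h2 : ∀ v ∈ P, 2 • v = 0)
    (hz : ∀ a, ∀ v ∈ P, ρ (dd a a) v = v) (gs : ∀ s, ∀ v ∈ P, γ s v ∈ P)
    (com : ∀ x s, ∀ v ∈ P, ρ x (γ s v) = γ s (ρ x v))
    (sm : ∀ v ∈ P, ∃ V : Subgroup GQ, IsOpen (V : Set GQ) ∧ ∀ s ∈ V, γ s v = v)
    (ur : ∀ l ∉ T, ∀ Q, Ov l Q → ∀ s ∈ inP Q, ∀ v ∈ P, γ s v = v)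
    (I : Ideal R) [Finite (R ⧸ I)] (hI : ∀ c ∈ I, ∀ v ∈ P, c • v = 0)
    (es : ∀ l ∉ T, ∀ Q φ, Ov l Q → Fb l Q φ →
      ∃ t : R, ∀ v ∈ P, γ φ (γ φ v) - t • γ φ v + l • v = 0)
    {q : ℕ} (hq : 0 < q) {ι : Type} {W : ι → M →+ Y 2 (CS 2)}
    (hW : ∀ i, Hon.Pg hψ.og ρ (fun s => γ (rs e s)) P q (W i))
    (inj : ∀ v ∈ P, (∀ i s x, W i (γ s (ρ x v)) = 0) → v = 0) {c : ℕ} (hc : 2 ≤ c) {x : G2 2}
    (hx : Ell c x) : {z | z ∈ P ∧ ρ x z = z}.Finite := by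
  obtain ⟨U, h3, h4⟩ := fin2 hT h2 gs sm ur I hI es
  exact gkP e hψ hP h2 hz gs com h3 h4 hq hW inj hc hx

end Vale.Agent.P004M
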