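import Vale.Agent.P004M.Ar

/-!
# P004M: matrix coefficients of vectors of degree `d` are polynomial functions of degree `d`
-/

set_option autoImplicit false
set_option linter.all false

noncomputable section

namespace Vale.Agent.P004M.J0

open Vale.Agent.P004M.Ar MvPolynomial

section

variable {U A : Type} [AddCommMonoid U] [Ring A]

/-- multiplicative filtrations -/
structure Fl (F : ℕ → AddSubgroup A) : Prop where
  mul : ∀ {a b x y}, x ∈ F a → y ∈ F b → x * y ∈ F (a + b)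
  le : ∀ j, F (j + 1) ≤ F j

/-- each difference, up to order `m`, gains one step of the filtration -/
def Pm (F : ℕ → AddSubgroup A) : ℕ → ℕ → (U → A) → Prop
  | 0, j, ψ => ∀ u, ψ u ∈ F j
  | m + 1, j, ψ => (∀ u, ψ u ∈ F j) ∧ ∀ h, Pm F m (j + 1) fun u => ψ (u + h) - ψ u

variable {F : ℕ → AddSubgroup A} {m j : ℕ} {ψ ψ' : U → A}

theorem Pm.lev (h : Pm F m j ψ) : ∀ u, ψ u ∈ F j := by cases m; exacts [h, h.1]

theorem Pm.pred : ∀ {m j} {ψ : U → A}, Pm F (m + 1) j ψ → Pm F m j ψ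
  | 0, _, _, h => h.1
  | _ + 1, _, _, h => ⟨h.1, fun k => (h.2 k).pred⟩

theorem Pm.add : ∀ {m j} {ψ ψ' : U → A}, Pm F m j ψ → Pm F m j ψ' → Pm F m j fun u => ψ u + ψ' u
  | 0, _, _, _, h, h' => fun u => add_mem (h u) (h' u)
  | _ + 1, _, _, _, h, h' => ⟨fun u => add_mem (h.1 u) (h'.1 u), fun k => by
      simpa only [add_sub_add_comm] using (h.2 k).add (h'.2 k)⟩

theorem Pm.shift : ∀ {m j} {ψ : U → A}, Pm F m j ψ → ∀ k, Pm F m j fun u => ψ (u + k)
  | 0, _, _, h, _ => fun _ => h _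
  | _ + 1, _, _, h, k => ⟨fun _ => h.1 _, fun l => by
      simpa only [add_right_comm _ l k] using (h.2 l).shift k⟩

theorem pm_const : ∀ {m j} {a : A}, a ∈ F j → Pm F m j fun _ : U => a
  | 0, _, _, h => fun _ => h
  | _ + 1, _, _, h => ⟨fun _ => h, fun _ => by simpa only [sub_self] using pm_const (zero_mem _)⟩

variable (hF : Fl F)

include hF

theorem Pm.le : ∀ {m j} {ψ : U → A}, Pm F m (j + 1) ψ → Pm F m j ψ
  | 0, _, _, h => fun u => hF.le _ (h u)
  | _ + 1, _, _, h => ⟨fun u => hF.le _ (h.1 u), fun k => (h.2 k).le⟩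

theorem Pm.zero : ∀ {j}, Pm F m j ψ → Pm F m 0 ψ
  | 0, h => h
  | _ + 1, h => (h.le hF).zero

theorem Pm.mul : ∀ {m a b} {ψ ψ' : U → A}, Pm F m a ψ → Pm F m b ψ' →
    Pm F m (a + b) fun u => ψ u * ψ' u
  | 0, _, _, _, _, h, h' => fun u => hF.mul (h u) (h' u)
  | m + 1, a, b, ψ, ψ', h, h' => ⟨fun u => hF.mul (h.1 u) (h'.1 u), fun k => by
      have h1 := (h.2 k).mul (h'.pred.shift k)
      rw [add_right_comm] at h1
      simpa only [sub_mul, mul_sub, sub_add_sub_cancel] using h1.add (h.pred.mul (h'.2 k))⟩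

theorem Pm.inv (top : ∀ x, x ∈ F 0) (e : ∀ u, ψ' u * ψ u = 1) (e' : ∀ u, ψ u * ψ' u = 1) :
    ∀ {m}, Pm F m 0 ψ → Pm F m 0 ψ'
  | 0, _ => fun _ => top _
  | m + 1, h => ⟨fun _ => top _, fun k => by
      have h1 := Pm.inv top e e' h.pred
      have h2 := (((pm_const (top (-1))).mul hF h1).mul hF (h.2 k)).mul hF (h1.shift k)
      convert h2 using 2 with u
      rw [mul_sub, sub_mul, mul_assoc, e', mul_assoc _ (ψ' u) (ψ u), e]
      simp [neg_add_eq_sub]⟩

end

/-- functions whose differences of order `d` vanish -/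
def Pd {U M : Type} [AddCommMonoid U] [AddCommGroup M] : ℕ → (U → M) → Prop
  | 0, f => ∀ u, f u = 0
  | d + 1, f => ∀ h, Pd d fun u => f (u + h) - f u

theorem Pd.shift {U M : Type} [AddCommMonoid U] [AddCommGroup M] :
    ∀ {d} {f : U → M}, Pd d f → ∀ k, Pd d fun u => f (u + k)
  | 0, _, h, _ => fun _ => h _
  | _ + 1, _, h, k => fun l => by simpa only [add_right_comm _ l k] using (h l).shift k

theorem pd_zero {U M : Type} [AddCommMonoid U] [AddCommGroup M] : ∀ d, Pd d fun _ : U => (0 : M)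
  | 0 => fun _ => rfl
  | d + 1 => fun _ => by simpa only [sub_self] using pd_zero d

theorem Pd.iter {U M : Type} [AddCommMonoid U] [AddCommGroup M] (h : U) :
    ∀ k {d} {f : U → M}, Pd d f → Pd (d - k) ((fwdDiff h)^[k] f)
  | 0, _, _, e => e
  | k + 1, 0, f, e => by
    rw [_root_.funext e, Nat.zero_sub]
    exact fun u => congrFun (Function.iterate_fixed (_root_.funext fun _ => sub_self _) _) u
  | k + 1, d + 1, f, e => by rw [Nat.add_sub_add_right]; exact Pd.iter h k (e h)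

/-- **Newton's formula** -/
theorem newton {U K Q ι : Type} [AddCommMonoid U] [Field K] [CharZero K] [AddCommGroup Q]
    (π : K →+ Q) (hπ : Function.Surjective π) (L : Submodule K (MvPolynomial ι K)) (h1 : 1 ∈ L)
    (hX : ∀ i, X i ∈ L) (e : ι → U) (s : Finset ι) : ∀ d (f : U → Q), Pd d f →
    ∃ q ∈ L ^ d, ∀ a : ι → ℕ, f (∑ i ∈ s, a i • e i) = π (eval (fun i => (a i : K)) q) := by
  classical
  induction s using Finset.induction_on with
  | empty =>
    intro d f _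
    obtain ⟨c, hc⟩ := hπ (f 0)
    exact ⟨c • 1 ^ d, Submodule.smul_mem _ _ (Submodule.pow_mem_pow _ h1 d), by simp [hc]⟩
  | insert i s hi ih =>
    intro d f hf
    choose q h2 h3 using fun k => ih _ _ (hf.iter (e i) k)
    refine ⟨∑ k ∈ Finset.range d, (k.factorial : K)⁻¹ • (∏ j ∈ Finset.range k, (X i - (j : MvPolynomial ι K))) * q k,
      sum_mem fun k hk => ?_, fun a => ?_⟩
    · rw [← Nat.add_sub_cancel' (Finset.mem_range.1 hk).le, pow_add]
      refine Submodule.mul_mem_mul (Submodule.smul_mem _ _ ?_) (h2 k)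
      clear hk
      induction k with
      | zero => exact Submodule.one_le.1 (pow_zero L).ge
      | succ k ih =>
        rw [Finset.prod_range_succ, pow_succ]
        exact Submodule.mul_mem_mul ih (sub_mem (hX i) (by simpa using nsmul_mem h1 k))
    · rw [Finset.sum_insert hi, add_comm, shift_eq_sum_fwdDiff_iter (e i) f, map_sum, map_sum]
      have k1 : ∀ k, (a i).choose k • (fwdDiff (e i))^[k] f (∑ i ∈ s, a i • e i) = π (eval
          (fun i => (a i : K)) ((k.factorial : K)⁻¹ • (∏ j ∈ Finset.range k, (X i - (j : MvPolynomial ι K))) * q k)) :=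
        fun k => by
          rw [h3, ← map_nsmul, map_mul, smul_eval, map_prod, nsmul_eq_mul]
          congr 2
          simp only [map_sub, eval_X, map_natCast]
          rw [← descPochhammer_eval_eq_prod_range, descPochhammer_eval_eq_descFactorial,
            Nat.descFactorial_eq_factorial_mul_choose, Nat.cast_mul,
            inv_mul_cancel_left₀ (Nat.cast_ne_zero.2 k.factorial_ne_zero)]
      simp only [← k1]
      refine (Finset.sum_subset (Finset.subset_union_left (s₂ := Finset.range d)) ?_).trans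
        (Finset.sum_subset Finset.subset_union_right ?_).symm
      · intro k _ hk
        rw [Nat.choose_eq_zero_of_lt (by simpa using hk), zero_nsmul]
      · intro k _ hk
        have := hf.iter (e i) k
        rw [Nat.sub_eq_zero_of_le (by simpa using hk)] at this
        rw [this, nsmul_zero]

variable {R Γ M O B U : Type} [CommRing R] [Group Γ] [AddCommGroup M] [Module R M] [Ring O]
  [Monoid B] [AddCommMonoid U] {ρ : Representation R Γ M} {p c : ℕ}

variable (ρ p) in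
/-- the filtration of the operators -/
def FE (j : ℕ) : AddSubgroup (Module.End R M) where
  carrier := {f | Dg ρ p j f}
  zero_mem' _ _ _ := zero_mem _
  add_mem' ha hb d v h := add_mem (ha d v h) (hb d v h)
  neg_mem' ha d v h := neg_mem (ha d v h)

theorem fl_E : Fl (FE ρ p) := ⟨Dg.mul, fun j _ h => Dg.mono h j.le_succ⟩

variable (O p) in
/-- the `p`-adic filtration -/
def FO (j : ℕ) : AddSubgroup O := (nsmulAddMonoidHom (p ^ j)).range

theorem fl_O : Fl (FO O p) where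
  mul := by
    rintro a b _ _ ⟨x, rfl⟩ ⟨y, rfl⟩
    exact ⟨x * y, by simp only [nsmulAddMonoidHom_apply, smul_mul_smul_comm, pow_add]⟩
  le := by
    rintro j _ ⟨x, rfl⟩
    exact ⟨p • x, by simp only [nsmulAddMonoidHom_apply, pow_succ, mul_nsmul']⟩

theorem top_O (x : O) : x ∈ FO O p 0 := ⟨x, by simp⟩

theorem Pm.pd {Q : Type} [AddCommGroup Q] (l : M →+ Q) {v : M} : ∀ {m j} {T : U → Module.End R M},
    Pm (FE ρ p) m j T → v ∈ Sd ρ p (m + j) → Pd m fun u => l (T u v)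
  | 0, _, _, h, hv => fun u => (congrArg l (h u 0 v hv)).trans (map_zero l)
  | m + 1, j, _, h, hv => fun k => by
    simpa using (h.2 k).pd l (by rwa [add_right_comm] at hv)

variable (ρ p c) in
/-- a group which covers the units congruent to one modulo `c` -/
structure Cv (ν : Γ →* B) (κ : O →* B) : Prop where
  dv : p ∣ c
  un : ∀ x : O, IsUnit (1 + c • x)
  sur : ∀ x : O, ∃ γ, ν γ = κ (1 + c • x)
  dg : ∀ j γ (x : O), ν γ = κ (1 + c • p ^ j • x) → Dg ρ p (j + 1) (ρ γ - 1)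

namespace Cv

variable {ν : Γ →* B} {κ : O →* B} (h : Cv ρ p c ν κ)

include h

theorem quo {γ δ : Γ} {x y : O} (e : ν γ = κ (1 + c • x)) (e' : ν δ = κ (1 + c • y)) :
    ν (γ⁻¹ * δ) = κ (1 + c • (↑(h.un x).unit⁻¹ * (y - x))) := by
  have k1 := (h.un x).val_inv_mul
  have k2 := (h.un x).mul_val_inv
  generalize ((h.un x).unit⁻¹ : Oˣ).val = w at k1 k2 ⊢
  rw [← mul_smul_comm, ← k1, ← mul_add, map_mul, map_mul, smul_sub,
    add_add_sub_cancel, ← e', ← mul_one (ν γ⁻¹), ← map_one κ, ← k2, map_mul,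
    ← e, ← mul_assoc, ← map_mul, inv_mul_cancel, map_one, one_mul]

theorem stp {φ : U → Γ} {ψ : U → O} (e : ∀ u, ν (φ u) = κ (1 + c • ψ u)) {j : ℕ}
    (h1 : ∀ k m, Pm (FO O p) m j fun u => ψ (u + k) - ψ u) (k : U) :
    ∃ ψ' : U → O, (∀ m, Pm (FO O p) m j ψ') ∧ ∀ u, ν ((φ u)⁻¹ * φ (u + k)) = κ (1 + c • ψ' u) := by
  refine ⟨_, fun m => ?_, fun u => h.quo (e u) (e (u + k))⟩
  rw [← zero_add j]
  refine (Pm.inv fl_O (ψ := fun u => 1 + c • ψ u) top_O (fun u => (h.un _).val_inv_mul)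
    (fun u => (h.un _).mul_val_inv) ?_).mul fl_O (h1 k m)
  cases m with
  | zero => exact fun _ => top_O _
  | succ m =>
    refine ⟨fun _ => top_O _, fun k => ?_⟩
    obtain ⟨b, rfl⟩ := h.dv
    simpa [mul_sub] using (pm_const (F := FO O p) (j := 1) (a := ((p * b : ℕ) : O))
      ⟨b, by simp⟩).mul fl_O ((h1 k m).zero fl_O)

theorem dif (φ : U → Γ) (k : U) : (fun u => ρ (φ (u + k)) - ρ (φ u)) =
    fun u => ρ (φ u) * (ρ ((φ u)⁻¹ * φ (u + k)) - 1) :=
  _root_.funext fun u => by rw [mul_sub, ← map_mul, mul_inv_cancel_left, mul_one]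

theorem main : ∀ m {j} {φ : U → Γ} {ψ : U → O}, (∀ u, ν (φ u) = κ (1 + c • ψ u)) →
    (∀ m, Pm (FO O p) m j ψ) → Pm (FE ρ p) m (j + 1) fun u => ρ (φ u) - 1 := fun m => by
  have k0 : ∀ {j} {φ : U → Γ} {ψ : U → O}, (∀ u, ν (φ u) = κ (1 + c • ψ u)) →
      (∀ m, Pm (FO O p) m j ψ) → ∀ u, ρ (φ u) - 1 ∈ FE ρ p (j + 1) := fun e h1 u => by
    obtain ⟨x, hx⟩ := h1 0 u
    exact h.dg _ _ x (by rw [e, ← hx]; rfl)
  induction m with
  | zero => exact k0
  | succ m ih =>
    intro j φ ψ e h1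
    refine ⟨k0 e h1, fun k => ?_⟩
    obtain ⟨ψ', k1, k2⟩ := h.stp e (fun k m => (h1 (m + 1)).2 k) k
    have k3 := ih k2 k1
    have k4 := (((ih e h1).zero fl_E).mul fl_E k3)
    rw [zero_add] at k4
    simpa only [sub_sub_sub_cancel_right, h.dif, sub_mul, one_mul, sub_add_cancel] using k4.add k3

theorem lin {φ : U → Γ} (ψ : U →+ O) (e : ∀ u, ν (φ u) = κ (1 + c • ψ u)) :
    ∀ m, Pm (FE ρ p) m 0 fun u => ρ (φ u)
  | 0 => fun u d => Sd_gs d _
  | m + 1 => ⟨fun u d => Sd_gs d _, fun k => by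
      obtain ⟨ψ', k1, k2⟩ := h.stp e (j := 0) (fun k m => by
        simpa using pm_const (top_O (ψ k))) k
      rw [h.dif]
      exact (lin ψ e m).mul fl_E (h.main m k2 k1)⟩

end Cv

/-- `ℚ_p / ℤ_p` -/
abbrev QZ (p : ℕ) [Fact p.Prime] : Type := ℚ_[p] ⧸ (PadicInt.subring p).toAddSubgroup

variable (p) in
/-- `u` is the vector of coordinates of `x` -/
def Co [Fact p.Prime] {ι : Type} [Fintype ι] (e : ι → O) (x : O) (u : ι → ℚ_[p]) : Prop :=
  ∀ t : ℕ, ∃ (a : ι → ℕ) (y : O), x = ∑ i, a i • e i + p ^ t • y ∧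
    ∀ i, ‖u i - a i‖ ≤ (p : ℝ) ^ (-t : ℤ)

/-- **matrix coefficients of vectors of degree `d` are polynomials of degree `d`** -/
theorem poly [Fact p.Prime] {ν : Γ →* B} {κ : O →* B} (h : Cv ρ p c ν κ) {ι Y : Type} [Fintype ι]
    (e : ι → O) (u : ι → Y → ℚ_[p]) (H : Submodule ℚ_[p] (Y → ℚ_[p])) (h1 : 1 ∈ H)
    (hu : ∀ i, u i ∈ H) {d : ℕ} {v : M} (hv : v ∈ Sd ρ p d) (l : M →+ QZ p) :
    ∃ q ∈ H ^ d, ∀ y γ (x : O), ν γ = κ (1 + c • x) → Co p e x (u · y) → l (ρ γ v) = q y := by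
  choose φ hφ using h.sur
  obtain ⟨q, h2, h3⟩ := newton (QuotientAddGroup.mk' _) (QuotientAddGroup.mk'_surjective _)
    (H.comap (aeval u).toLinearMap) (by simpa using h1) (by simpa using hu)
    e Finset.univ d _ ((h.lin (AddMonoidHom.id O) hφ d).pd l hv)
  have h6 := Submodule.mem_map_of_mem (f := (aeval u).toLinearMap) h2
  rw [Submodule.map_pow] at h6
  refine ⟨aeval u q, pow_le_pow_left' (Submodule.map_comap_le _ H) d h6, fun y γ x h4 h5 => ?_⟩
  obtain ⟨ε, k0, k1⟩ := Metric.continuousAt_iff.1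
    ((continuous_eval q).continuousAt (x := (u · y))) 1 one_pos
  obtain ⟨t, ht⟩ := PadicInt.exists_pow_neg_lt p k0
  obtain ⟨a, z, rfl, k2⟩ := h5 (t + d)
  have k3 := h.quo (hφ (∑ i, a i • e i)) h4
  rw [add_sub_cancel_left, add_comm t, pow_add, mul_nsmul', mul_smul_comm] at k3
  have k4 := (Submodule.mem_bot R).1 (h.dg _ _ _ k3 0 v (Sd_mono (by omega) hv))
  rw [LinearMap.sub_apply, sub_eq_zero, Module.End.one_apply] at k4
  rw [← mul_inv_cancel_left (φ (∑ i, a i • e i)) γ, map_mul, Module.End.mul_apply, k4, h3,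
    show aeval u q y = eval (u · y) q from comp_aeval_apply u (Pi.evalAlgHom _ _ y) q]
  refine QuotientAddGroup.eq_iff_sub_mem.2 (k1 ((dist_pi_lt_iff k0).2 fun i => ?_)).le
  rw [dist_comm, dist_eq_norm]
  refine ((k2 i).trans (zpow_le_zpow_right₀ ?_ (by omega))).trans_lt ht
  exact_mod_cast (Fact.out : p.Prime).one_le

/-- homogeneous polynomials of degree `2 d` divided by the `d`-th power of a norm -/
def Hq {K Y σ : Type} [Field K] (z : Y → σ → K) (n : Y → K) (d : ℕ) : Submodule K (Y → K) where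
  carrier := {f | ∃ P : MvPolynomial σ K, P.IsHomogeneous (2 * d) ∧
    ∀ y, f y = eval (z y) P / n y ^ d}
  zero_mem' := ⟨0, isHomogeneous_zero _ _ _, by simp⟩
  add_mem' := fun ⟨P, h1, h2⟩ ⟨Q, h3, h4⟩ => ⟨P + Q, h1.add h3, by simp [h2, h4, add_div]⟩
  smul_mem' := fun a _ ⟨P, h1, h2⟩ =>
    ⟨a • P, (homogeneousSubmodule σ K _).smul_mem a h1, by simp [h2, mul_div_assoc]⟩

theorem mem_Hq {K Y σ : Type} [Field K] {z : Y → σ → K} {n : Y → K} {d : ℕ} {f : Y → K} :
    f ∈ Hq z n d ↔ ∃ P : MvPolynomial σ K, P.IsHomogeneous (2 * d) ∧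
      ∀ y, f y = eval (z y) P / n y ^ d := Iff.rfl

theorem Hq_pow {K Y σ : Type} [Field K] (z : Y → σ → K) (n : Y → K) :
    ∀ d, Hq z n 1 ^ d ≤ Hq z n d
  | 0 => by
    rw [pow_zero, Submodule.one_le]
    exact mem_Hq.2 ⟨1, isHomogeneous_one _ _, by simp⟩
  | d + 1 => by
    rw [pow_succ]
    refine Submodule.mul_le.2 fun a ha b hb => ?_
    obtain ⟨P, h1, h2⟩ := mem_Hq.1 (Hq_pow z n d ha)
    obtain ⟨Q, h3, h4⟩ := mem_Hq.1 hb
    exact mem_Hq.2 ⟨P * Q, h1.mul h3, fun y => by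
      rw [Pi.mul_apply, h2, h4, map_mul, div_mul_div_comm, ← pow_add]⟩

end Vale.Agent.P004M.J0
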