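import Vale.Agent.P004M.Fib
import Vale.Agent.P004M.Gen
import Vale.Agent.P004M.Ar
import Vale.Agent.P022K.Iw.Gl

/-!
# P004M: eigenvectors of large order in linear depth
-/

set_option autoImplicit false
set_option linter.all false

noncomputable section

namespace Vale.Agent.P004M

open Vale.Agent.P022 Vale.Agent.P022K Vale.Agent.P022K.WB Vale.Agent.P022K.FI
open Vale.Agent.P022.H443 (inP)
open Vale.Agent.P022E.GW (Ov Fb)

variable {R M : Type} [CommRing R] [AddCommGroup M] [Module R M] {γ : Representation R GQ M}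
  {T : Finset ℕ} (hT : 2 ∈ T)
  (sm : ∀ v, ∃ V : Subgroup GQ, IsOpen (V : Set GQ) ∧ ∀ s ∈ V, γ s v = v)
  (ur : ∀ l ∉ T, ∀ Q, Ov l Q → ∀ s ∈ inP Q, ∀ v, γ s v = v)
  (es : ∀ l ∉ T, ∀ Q φ, Ov l Q → Fb l Q φ →
    ∃ t : R, ∀ v, γ φ (γ φ v) - t • γ φ v + l • v = 0)

include hT sm ur es

/-- the residual images of the Galois group are bounded -/
theorem gen_of (lam : R →+* ℤ) : Gen 2 lam γ := by
  classical
  let A : ∀ (E : Type) [Ring E], (MonoidAlgebra R GQ →+* E) → Prop := fun E _ f =>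
    (∃ S : Finset M, ∀ x, (∀ v ∈ S, ∀ s, γ.asAlgebraHom x (γ s v) = 0) → f x = 0) ∧
      ∀ c, (2 : ℤ) ∣ lam c → f (MonoidAlgebra.single 1 c) = 0
  let u : ∀ {E : Type} [Ring E], (MonoidAlgebra R GQ →+* E) → GQ →* E := fun f =>
    f.toMonoidHom.comp (MonoidAlgebra.of R GQ)
  have a1 : ∀ s, γ.asAlgebraHom (MonoidAlgebra.single s 1) = γ s := γ.asAlgebraHom_single_one
  have k1 : ∀ (E : Type) [Ring E] f, A E f → ∀ (S : Finset M), (∀ x, (∀ v ∈ S, ∀ s,
      γ.asAlgebraHom x (γ s v) = 0) → f x = 0) → ∀ g, (∀ v ∈ S, ∀ s, γ g (γ s v) = γ s v) →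
      u f g = 1 := fun E _ f _ S h g hg => by
    have := h (MonoidAlgebra.single g 1 - 1) fun v hv s => by
      rw [map_sub, a1, map_one, LinearMap.sub_apply, hg v hv, Module.End.one_apply, sub_self]
    rwa [map_sub, map_one, sub_eq_zero] at this
  have k2 : ∀ (E : Type) [Ring E] f, A E f → IsOpen {s | u f s = 1} := fun E _ f h => by
    obtain ⟨S, hS⟩ := h.1
    obtain ⟨U, h1, h2, h3⟩ := ex_fix (γ := γ) (P := ⊤) (fun v _ => sm v) (a := fun v : S => v.1)
      fun _ => trivial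
    have := Subgroup.isOpen_mono (H₂ := (u f).toHomUnits.ker) (fun g hg => Units.ext
      (k1 E f h S hS g fun v hv s => by
        rw [← gm, show g * s = s * (s⁻¹ * g * s⁻¹⁻¹) by group, gm,
          h3 _ (h1.conj_mem g hg s⁻¹) ⟨v, hv⟩])) h2
    convert this using 1
    ext g
    exact (Units.ext_iff (u := (u f).toHomUnits g) (v := 1)).symm
  have k3 : ∀ l ∉ T, ∀ Q φ, Ov l Q → Fb l Q φ → ∃ t : ℤ, ∀ (E : Type) [Ring E] f, A E f →
      u f φ * u f φ = t * u f φ + 1 ∧ (2 : E) = 0 := fun l hl Q φ h1 h2 => by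
    obtain ⟨t, ht⟩ := es l hl Q φ h1 h2
    refine ⟨lam t, fun E _ f h => ?_⟩
    obtain ⟨S, hS⟩ := h.1
    let i : R →+* E := f.comp (algebraMap R _)
    have i0 : ∀ c, (2 : ℤ) ∣ lam c → i c = 0 := h.2
    have e2 : (2 : E) = 0 := (map_ofNat i 2).symm.trans (i0 2 (by rw [map_ofNat]))
    have e3 : i t = lam t := by simpa [sub_eq_zero] using i0 (t - lam t) (by simp)
    have := hS (MonoidAlgebra.single φ (1 : R) * MonoidAlgebra.single φ (1 : R) -
      algebraMap R _ t * MonoidAlgebra.single φ (1 : R) + (l : MonoidAlgebra R GQ)) fun v _ s => by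
      rw [map_add, map_sub, map_mul, map_mul, map_natCast, a1, AlgHom.commutes]
      exact ht (γ s v)
    obtain ⟨m, rfl⟩ := h1.1.odd_of_ne_two fun e => hl (e ▸ hT)
    rw [map_add, map_sub, map_mul, map_mul, map_natCast] at this
    refine ⟨?_, e2⟩
    rw [← e3, ← sub_eq_zero, ← this]
    push_cast
    rw [e2, zero_mul, zero_add, sub_add_eq_sub_sub, sub_eq_add_neg _ 1,
      neg_eq_of_add_eq_zero_left (one_add_one_eq_two.trans e2)]
    rfl
  by_cases h : ∃ (E : Type) (_ : Ring E) (f : _ →+* E), A E f ∧ (1 : E) ≠ 0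
  · obtain ⟨E0, _, f0, h0, h1⟩ := h
    obtain ⟨g, σ, hg⟩ := gen (V := (u f0).toHomUnits.ker) (by
      convert k2 E0 f0 h0 using 1
      ext g
      exact Units.ext_iff) T
    refine ⟨g, fun E _ _ f S h2 h3 => ?_⟩
    have h4 : A E f := ⟨⟨S, h2⟩, h3⟩
    have := hg E (u f) (k2 E f h4) (fun l hl Q hQ s hs => k1 E f h4 S h2 s fun v _ _ =>
      ur l hl Q hQ s hs _) fun l hl Q φ q1 q2 q3 => by
        obtain ⟨t, ht⟩ := k3 l hl Q φ q1 q2
        obtain ⟨m, rfl | rfl⟩ := t.even_or_odd'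
        · rw [(ht E f h4).1]
          simp [(ht E f h4).2]
        · have := ht E0 f0 h0
          rw [show u f0 φ = 1 from Units.ext_iff.1 q3] at this
          simp [this.2] at this
          exact (h1 this).elim
    refine (Set.ncard_le_ncard (t := Set.range fun i => u f (σ i)) (by
      rintro _ ⟨s, rfl⟩
      exact (this s).imp fun i e => e.symm) (Set.toFinite _)).trans ?_
    rw [← Set.image_univ]
    exact (Set.ncard_image_le (Set.toFinite _)).trans (by simp)
  · refine ⟨1, fun E _ _ f S h2 h3 => ?_⟩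
    have := subsingleton_of_zero_eq_one (not_not.1 fun e => h ⟨E, _, f, ⟨⟨S, h2⟩, h3⟩, Ne.symm e⟩)
    exact Set.ncard_le_one_iff_subsingleton.2 (Set.subsingleton_of_subsingleton)

/-- **eigenvectors of order `2 ^ j` in depth `O (j)`** -/
theorem lin {ρ : Representation R (G2 2) M} (e : Qb →+* CS 2) {ψ : ℚ_[2] → CS 2} (hψ : Psi 2 ψ)
    (adm : Adm ρ ⊤) (cen : ∀ a v, ρ (dd a a) v = v) (com : ∀ x s v, ρ x (γ s v) = γ s (ρ x v))
    {ι : Type} {W : ι → M →+ Y 2 (CS 2)} (wg : ∀ i, Wg hψ.og ρ (fun s => γ (rs e s)) ⊤ (W i))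
    (inj : ∀ v, (∀ i (c : R) s x, W i (c • γ s (ρ x v)) = 0) → v = 0) {lam : R →+* ℤ}
    (hp : Pro 2 lam M) (q : ℕ) : ∃ c, ∀ j, ∃ v ∈ Ar.Sd (ρ.comp (Kn 2 (q + 2)).subtype) 2
      (c * (j + 1)), (∀ r, lam r = 0 → r • v = 0) ∧ 2 ^ j • v ≠ 0 := by
  have cm : ∀ x y v, ρ x (γ.asAlgebraHom y v) = γ.asAlgebraHom y (ρ x v) := fun x y v => by
    induction y using MonoidAlgebra.induction_on with
    | of s => rw [MonoidAlgebra.of_apply, γ.asAlgebraHom_single_one, com]
    | add y z hy hz => simp only [map_add, LinearMap.add_apply, hy, hz]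
    | smul r y hy => simp only [map_smul, LinearMap.smul_apply, hy]
  obtain ⟨J, hJ⟩ := adm.adK.fin_inf (fun i =>
    { carrier := {v | ∀ (c : R) s x, W i (c • γ s (ρ x v)) = 0}
      add_mem' := fun h h' c s x => by
        rw [map_add, map_add, smul_add, map_add, h, h', add_zero]
      zero_mem' := fun c s x => by simp
      neg_mem' := fun h c s x => by rw [map_neg, map_neg, smul_neg, map_neg, h, neg_zero] })
    fun i g _ v hv => ⟨trivial, fun c s x => by rw [← rho_mul]; exact hv.2 c s _⟩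
  have hf := fib (r1_rows 2 _) hψ.og ρ γ ((rs e).comp (chi0 2).ker.subtype) (fun i : J => W i)
    (fun i => ⟨fun b v _ => (wg i).n b v trivial, fun v _ => (wg i).t v trivial, fun h v _ => by
      have := (wg i).s h.1 v trivial
      rwa [show chi0 2 h.1 = 1 from h.2, map_one, show dd (1 : ℚ_[2]ˣ) 1 = 1 from dd_one, map_one]
        at this⟩) com (fun v => adm.tor v trivial)
    (fun v => by
      obtain ⟨n, hn⟩ := adm.sm v trivial
      obtain ⟨k, hk⟩ := adm.tor v trivial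
      refine (adm.adK.finK n (pow_pos two_pos k)).subset ?_
      rintro _ ⟨x, rfl⟩
      exact ⟨trivial, by rw [← map_nsmul, hk, map_zero], fun g hg => by rw [cm, hn g hg]⟩)
    (fun v => by
      obtain ⟨V, h1, h2⟩ := sm v
      exact (cts e h1).imp fun S h => ⟨h.1, fun s hs => h2 _ (h.2 s.1 hs)⟩)
    (fun v h => inj v (hJ v trivial fun i hi c s x => by
      rw [← map_smul, ← map_smul]
      exact ker e hψ adm (fun a v _ => cen a v) (fun _ _ _ => trivial) (fun x s v _ => com x s v)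
        (wg i) trivial (fun s => by simpa using h ⟨i, hi⟩ (MonoidAlgebra.single s c)) x s))
    (gen_of hT sm ur es lam) hp
  let A : Submodule R M :=
    { carrier := {v | ∀ r, lam r = 0 → r • v = 0}
      add_mem' := fun h h' r hr => by rw [smul_add, h r hr, h' r hr, add_zero]
      zero_mem' := fun r _ => smul_zero r
      smul_mem' := fun c v h r hr => by rw [smul_comm, h r hr, smul_zero] }
  obtain ⟨c, hc⟩ := Ar.rate (ρ := ρ.comp (Kn 2 (q + 2)).subtype) (Iw.uo_K (p := 2) (q := q))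
    Nat.prime_two ⟨fun v => (adm.sm v trivial).imp fun n hn g hg => by
        obtain ⟨z, k, hk, h⟩ := Iw.mem_NK.1 hg
        show ρ g.1 v = v
        rw [h, rho_mul, hn k (Kn_anti (Nat.le_add_right _ _) hk), cen], fun v => adm.tor v trivial,
      (adm.adK.finK (q + 2) two_pos).subset fun v hv => ⟨trivial, hv.1, fun g hg => hv.2 ⟨g, hg⟩⟩⟩
    (Z := ⊥) (A := A) (Ar.Sd_gs (p := 2) 0) (fun g v hv r hr => by rw [← map_smul, hv r hr, map_zero])
    bot_le hf
  refine ⟨c + 1, fun j => not_not.1 fun h => ?_⟩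
  have := hc j ((c + 1) * (j + 1)) fun v h1 h2 => not_not.1 fun h3 => h ⟨v, h2, h1, h3⟩
  nlinarith

end Vale.Agent.P004M
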