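import Vale.Agent.P004M.Pol0
import Vale.Agent.P004M.J0
import Vale.Agent.P004M.Harm
import Vale.Agent.P022K.Iw.Gl

/-!
# P004M: matrix coefficients of vectors of degree `D` come from weights `O (D)`
-/

set_option autoImplicit false
set_option linter.all false

noncomputable section

namespace Vale.Agent.P004M.Pol

open Vale.Agent.P022K Vale.Agent.P022K.WB Vale.Agent.P022K.Sh Vale.Agent.P004M.Ar
  Vale.Agent.P004M.J0 Finset

variable {p : ℕ} [Fact p.Prime]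

variable (p) in
/-- integral matrices -/
abbrev MZ : Type := Matrix (Fin 2) (Fin 2) ℤ_[p]

variable (p) in
/-- integral matrices as rational matrices -/
def kp : MZ p →* Matrix (Fin 2) (Fin 2) ℚ_[p] :=
  (PadicInt.Coe.ringHom (p := p)).mapMatrix.toMonoidHom

theorem kp_ap (x : MZ p) (i j : Fin 2) : kp p x i j = (x i j : ℚ_[p]) := rfl

theorem kp_inj : Function.Injective (kp p) := fun _ _ h =>
  Matrix.ext fun i j => Subtype.ext (congrFun (congrFun h i) j)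

theorem kp_en (x : MZ p) : En 1 (kp p x) := fun i j => (x i j).2

theorem kp_sub (n : ℕ) (x : MZ p) : En (rad p n) (kp p (1 + p ^ n • x) - 1) := by
  have : kp p (1 + p ^ n • x) - 1 = (p : ℚ_[p]) ^ n • kp p x := by
    show (PadicInt.Coe.ringHom (p := p)).mapMatrix (1 + p ^ n • x) - 1 = _
    rw [map_add, map_one, map_nsmul, add_sub_cancel_left, ← Nat.cast_pow, Nat.cast_smul_eq_nsmul]
    rfl
  rw [this]
  simpa using En.smul (norm_pow_p n).le (kp_en x)

theorem un_Z (n : ℕ) (x : MZ p) : IsUnit (1 + p ^ (n + 1) • x) := by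
  have h := fun i j => (kp_sub (n + 1) x i j).trans_lt (rad_lt_one n.succ_pos)
  have h1 := kp_en (1 + p ^ (n + 1) • x)
  rw [Matrix.isUnit_iff_isUnit_det, PadicInt.isUnit_iff, Matrix.det_fin_two]
  generalize 1 + p ^ (n + 1) • x = y at h h1
  refine norm_of_near (a := kp p y 0 0 * kp p y 1 1 - kp p y 0 1 * kp p y 1 0) ?_
  rw [show kp p y 0 0 * kp p y 1 1 - kp p y 0 1 * kp p y 1 0 - 1 =
    (kp p y 0 0 - 1) * kp p y 1 1 + (kp p y 1 1 - 1) - kp p y 0 1 * kp p y 1 0 by ring]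
  exact nsub' (nadd' (nmul2' (by simpa using h 0 0) (h1 1 1)) (by simpa using h 1 1))
    (nmul1' (h1 0 1) (by simpa using h 1 0))

theorem ex_Z {k : G2 p} (h : k ∈ Kn p 0) : ∃ z : (MZ p)ˣ, Units.map (kp p) z = k :=
  ⟨⟨Matrix.of fun i j => ⟨k.val i j, Kn_en h i j⟩, Matrix.of fun i j => ⟨k⁻¹.val i j, h.2 i j⟩,
    kp_inj (by rw [map_mul, map_one]; exact k.mul_inv),
    kp_inj (by rw [map_mul, map_one]; exact k.inv_mul)⟩, Units.ext rfl⟩

variable {R M : Type} [CommRing R] [AddCommGroup M] [Module R M]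

theorem cv (q : ℕ) (ρ : Representation R (G2 p) M) (cen : ∀ a v, ρ (dd a a) v = v)
    (sm : ∀ v, ∃ n, ∀ k ∈ Kn p n, ρ k v = v) :
    Cv (ρ.comp (Kn p (q + 2)).subtype) p (p ^ (q + 2))
      ((Units.coeHom _).comp (Kn p (q + 2)).subtype) (kp p) where
  dv := dvd_pow_self p (q + 1).succ_ne_zero
  un := un_Z (q + 1)
  sur x := ⟨⟨Units.map (kp p) (un_Z (q + 1) x).unit, kp_sub _ x, kp_en _⟩, rfl⟩
  dg j γ x h := by
    refine dg_N (Iw.uo_K (p := p) (q := q)) Fact.out (fun v => ?_) (Iw.Kn_le_NG j ⟨?_, γ.2.2⟩)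
    · obtain ⟨n, hn⟩ := sm v
      refine ⟨n, fun δ hδ => ?_⟩
      obtain ⟨z, k, hk, e⟩ := Iw.mem_NK.1 hδ
      show ρ δ.1 v = v
      rw [e, map_mul, Module.End.mul_apply, hn k (Kn_anti (Nat.le_add_right _ _) hk), cen]
    · rw [← mul_nsmul, ← pow_add] at h
      exact (show γ.1.val = _ from h) ▸ kp_sub _ x

/-- **POLY**, for the matrix coefficients of a smooth representation with trivial central
character -/
theorem polyM (p q : ℕ) [Fact p.Prime] : ∃ c : ℕ, ∀ {R M : Type} [CommRing R] [AddCommGroup M]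
    [Module R M] (ρ : Representation R (G2 p) M), (∀ a v, ρ (dd a a) v = v) →
    (∀ v, ∃ n, ∀ k ∈ Kn p n, ρ k v = v) → ∀ D v, v ∈ Sd (ρ.comp (Kn p (q + 2)).subtype) p D →
    ∀ l : M →+ QZ p, ∃ A : ∀ m : ℕ, Matrix (Fin (2 * m + 1)) (Fin (2 * m + 1)) ℚ_[p],
      ∀ k ∈ I1 p, l (ρ k v) = (∑ m ∈ range (c * (D + 1)), (syd m k⁻¹ * A m).trace : ℚ_[p]) := by
  classical
  refine ⟨8 * p ^ (q + 2), fun {R M} _ _ _ ρ cen sm D v hv l => ?_⟩
  have h := cv q ρ cen sm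
  choose φ hφ using h.sur
  let Φ : MZ p → QZ p := fun z => if hz : IsUnit z then l (ρ (Units.map (kp p) hz.unit) v) else 0
  have s0 : ∀ z w : MZ p, ¬ IsUnit z → Φ (z + p ^ (q + 2) • w) = 0 := fun z w hz => by
    refine dif_neg fun h1 => hz ?_
    have := h1.mul (h.un (↑h1.unit⁻¹ * -w))
    rwa [mul_add, mul_one, mul_smul_comm, ← mul_assoc, h1.mul_val_inv, one_mul, smul_neg,
      add_neg_cancel_right] at this
  have s1 : ∀ (z : (MZ p)ˣ) (w : MZ p), Φ (z + p ^ (q + 2) • w) =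
      l (ρ (Units.map (kp p) z) (ρ (φ (↑z⁻¹ * w)).1 v)) := fun z w => by
    have e : (z : MZ p) + p ^ (q + 2) • w = z * (1 + p ^ (q + 2) • (↑z⁻¹ * w)) := by
      rw [mul_add, mul_one, mul_smul_comm, Units.mul_inv_cancel_left]
    have h1 : IsUnit ((z : MZ p) + p ^ (q + 2) • w) := e ▸ z.isUnit.mul (h.un _)
    refine (dif_pos h1).trans ?_
    rw [← Module.End.mul_apply, ← map_mul]
    congr 3
    exact Units.ext ((congrArg (kp p) e).trans ((map_mul _ _ _).trans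
      (congrArg (kp p z * ·) (hφ _).symm)))
  have s2 : ∀ z : (MZ p)ˣ, Φ z = l (ρ (Units.map (kp p) z) v) := fun z =>
    (dif_pos z.isUnit).trans (by rw [IsUnit.unit_of_val_units])
  have sΦ : ∀ z w, Φ (z + p ^ (q + 2 + D) • w) = Φ z := fun z w => by
    rw [pow_add, mul_nsmul']
    by_cases hz : IsUnit z
    · obtain ⟨z, rfl⟩ := hz
      have k := h.dg D (φ (↑z⁻¹ * p ^ D • w)) (↑z⁻¹ * w) (by rw [hφ, mul_smul_comm]) 0 v
        (Sd_mono (by omega) hv)
      rw [s1, s2, show ρ (φ (↑z⁻¹ * p ^ D • w)).1 v = v from sub_eq_zero.1 k]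
    · rw [s0 z _ hz]
      simp only [Φ, dif_neg hz]
  have t0 : p ^ D • Φ = 0 := _root_.funext fun z => by
    show p ^ D • Φ z = 0
    by_cases hz : IsUnit z
    · obtain ⟨z, rfl⟩ := hz
      rw [s2, ← map_nsmul, ← map_nsmul, Sd_tor D v hv, map_zero, map_zero]
    · simp only [Φ, dif_neg hz, nsmul_zero]
  have t1 : ∀ w, (fwdDiff (p ^ (q + 2) • w))^[D] Φ = 0 := fun w => _root_.funext fun z => by
    rw [fwdDiff_iter_eq_sum_shift]
    simp only [smul_comm _ (p ^ (q + 2)) w]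
    by_cases hz : IsUnit z
    · obtain ⟨z, rfl⟩ := hz
      have k := ((h.lin (U := ℕ) (φ := fun n => φ (↑z⁻¹ * n • w))
        ((AddMonoidHom.mulLeft (↑z⁻¹ : MZ p)).comp (multiplesHom _ w)) (fun n => hφ _) D).pd
        (l.comp (ρ (Units.map (kp p) z)).toAddMonoidHom) hv).iter 1 D
      rw [Nat.sub_self] at k
      have k1 := k 0
      rw [fwdDiff_iter_eq_sum_shift] at k1
      simp only [zero_add, smul_eq_mul, mul_one] at k1
      simp only [s1]
      exact k1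
    · simp only [s0 z _ hz, smul_zero, sum_const_zero, Pi.zero_apply]
  have hu : ∀ g : I1 p, g.1 1 1 ≠ 0 := fun g => norm_pos_iff.1 (norm_of_near g.2.2.2.2 ▸ one_pos)
  have hk : ∀ g : I1 p, g.1⁻¹ * dd (Units.mk0 _ (hu g)) (Units.mk0 _ (hu g)) ∈ Kn p 0 := fun g =>
    I1_le_K0 (mul_mem (inv_mem g.2) (by simp [mem_I1, g.2.2.2.2]))
  choose z hz using fun g => ex_Z (hk g)
  let H := Hq (fun (g : I1 p) (i : Fin 2 × Fin 2) => g.1.val i.1 i.2) (fun g => g.1.val.det) 1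
  have hX : ∀ i j : Fin 2 × Fin 2, (MvPolynomial.X i * MvPolynomial.X j :
      MvPolynomial (Fin 2 × Fin 2) ℚ_[p]).IsHomogeneous (2 * 1) := fun i j =>
    (MvPolynomial.isHomogeneous_X _ i).mul (MvPolynomial.isHomogeneous_X _ j)
  have H1 : 1 ∈ H := mem_Hq.2 ⟨_, (hX (0, 0) (1, 1)).sub (hX (0, 1) (1, 0)), fun g => by
    simp [Matrix.det_fin_two, div_self (det_ne g.1)]⟩
  have mo : Monotone fun n => H ^ n := monotone_nat_of_le_succ fun n x hx => by
    rw [pow_succ, ← mul_one x]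
    exact Submodule.mul_mem_mul hx H1
  obtain ⟨f, f1, f2⟩ := newton (QuotientAddGroup.mk' _)
    (fun x hx => (QuotientAddGroup.eq_zero_iff x).2 hx.le) (QuotientAddGroup.mk'_surjective _)
    (fun n => H ^ n) (Submodule.one_le.1 (pow_zero H).ge) mo
    (fun a b x y hx hy => (pow_add H a b).ge (Submodule.mul_mem_mul hx hy))
    (fun i : Fin 2 × Fin 2 => (Matrix.single i.1 i.2 1 : MZ p)) (fun g i => (z g).val i.1 i.2)
    (fun i => by
      have e : ∀ g, ((z g).val i.1 i.2 : ℚ_[p]) = g.1⁻¹.val i.1 i.2 * g.1 1 1 := fun g => by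
        rw [← kp_ap, show kp p (z g).val = _ from congrArg Units.val (hz g)]
        obtain ⟨i, j⟩ := i
        fin_cases j <;> simp [Matrix.mul_apply, Fin.sum_univ_two]
      simp only [pow_one, e, inv_val]
      obtain ⟨i, j⟩ := i
      fin_cases i <;> fin_cases j
      · exact mem_Hq.2 ⟨_, hX (1, 1) (1, 1), fun g => by simp [Matrix.det_fin_two]; ring⟩
      · exact mem_Hq.2 ⟨_, (hX (0, 1) (1, 1)).neg, fun g => by simp [Matrix.det_fin_two]; ring⟩
      · exact mem_Hq.2 ⟨_, (hX (1, 0) (1, 1)).neg, fun g => by simp [Matrix.det_fin_two]; ring⟩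
      · exact mem_Hq.2 ⟨_, hX (0, 0) (1, 1), fun g => by simp [Matrix.det_fin_two]; ring⟩)
    univ Φ sΦ fun i => enl Fact.out (q + 2) _ t0 (t1 _)
  have hp := pow_pos (Fact.out : p.Prime).pos (q + 2)
  obtain ⟨n, hn⟩ : ∃ n, 8 * p ^ (q + 2) * (D + 1) = n + 1 := Nat.exists_eq_succ_of_ne_zero
    (by positivity)
  obtain ⟨P, P1, P2⟩ := mem_Hq.1 (Hq_pow _ _ n (mo (by
    rw [card_univ, Fintype.card_prod, Fintype.card_fin]
    nlinarith) f1))
  obtain ⟨A, hA⟩ := Harm.harmA (fun i : Fin 2 × Fin 2 => Matrix.entryLinearMap _ _ i.1 i.2) P1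
  refine ⟨A, fun k hk => ?_⟩
  have e := f2 ⟨k⁻¹, inv_mem hk⟩
  rw [Fintype.sum_prod_type] at e
  simp only [Matrix.smul_single, smul_eq_mul, mul_one] at e
  rw [← Matrix.matrix_eq_sum_single, s2, hz, inv_inv, map_mul, Module.End.mul_apply, cen, P2] at e
  rw [e, hn, ← hA]
  rfl

theorem Sd_inj {Γ M' : Type} [Group Γ] [AddCommGroup M'] [Module R M'] {ρ : Representation R Γ M}
    {ρ' : Representation R Γ M'} (φ : M →ₗ[R] M') (hφ : ∀ γ v, φ (ρ γ v) = ρ' γ (φ v))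
    (inj : Function.Injective φ) : ∀ d v, φ v ∈ Sd ρ' p d → v ∈ Sd ρ p d
  | 0, _, h => inj (h.trans (map_zero φ).symm)
  | d + 1, v, h => mem_Sd.2 ⟨Sd_inj φ hφ inj d _ (map_nsmul φ p v ▸ (mem_Sd.1 h).1), fun γ =>
      Sd_inj φ hφ inj d _ (by rw [map_sub, hφ]; exact (mem_Sd.1 h).2 γ)⟩

variable (p) in
/-- right translation -/
def rg : Representation ℤ (G2 p) (G2 p → QZ p) where
  toFun k := LinearMap.funLeft ℤ _ (· * k)
  map_one' := LinearMap.ext fun F => _root_.funext fun g => congrArg F (mul_one g)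
  map_mul' a b := LinearMap.ext fun F => _root_.funext fun g => congrArg F (mul_assoc g a b).symm

theorem rg_apply (k : G2 p) (F : G2 p → QZ p) (g : G2 p) : rg p k F g = F (g * k) := rfl

/-- **POLY** -/
theorem poly (p q : ℕ) [Fact p.Prime] : ∃ c : ℕ, ∀ D (F : G2 p → QZ p),
    (∀ a g, F (g * dd a a) = F g) → (∃ n, ∀ g, ∀ k ∈ Kn p n, F (g * k) = F g) →
    F ∈ Sd ((rg p).comp (Kn p (q + 2)).subtype) p D →
    ∃ A : ∀ m : ℕ, Matrix (Fin (2 * m + 1)) (Fin (2 * m + 1)) ℚ_[p],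
      ∀ k ∈ I1 p, F k = (∑ m ∈ range (c * (D + 1)), (syd m k⁻¹ * A m).trace : ℚ_[p]) := by
  obtain ⟨c, hc⟩ := polyM p q
  refine ⟨c, fun D F h1 h2 h3 => ?_⟩
  let S : Submodule ℤ (G2 p → QZ p) := AddSubgroup.toIntSubmodule
    { carrier := {F | (∀ a g, F (g * dd a a) = F g) ∧ ∃ n, ∀ g, ∀ k ∈ Kn p n, F (g * k) = F g}
      zero_mem' := ⟨fun _ _ => rfl, 0, fun _ _ _ => rfl⟩
      add_mem' := fun {a b} ⟨a1, n, a2⟩ ⟨b1, m, b2⟩ => ⟨fun x g => congrArg₂ (· + ·) (a1 x g) (b1 x g),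
        n + m, fun g k hk => congrArg₂ (· + ·) (a2 g k (Kn_anti (n.le_add_right m) hk))
          (b2 g k (Kn_anti (m.le_add_left n) hk))⟩
      neg_mem' := fun {a} ⟨a1, n, a2⟩ => ⟨fun x g => congrArg Neg.neg (a1 x g), n,
        fun g k hk => congrArg Neg.neg (a2 g k hk)⟩ }
  have hS : ∀ x, S ≤ S.comap (rg p x) := fun x F ⟨a1, n, a2⟩ => by
    obtain ⟨m, hm⟩ := Kn_conj' x n
    refine ⟨fun a g => ?_, m, fun g k hk => ?_⟩
    · rw [rg_apply, rg_apply, mul_assoc, dd_comm, ← mul_assoc, a1]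
    · rw [rg_apply, rg_apply, ← a2 (g * x) _ (hm k hk)]
      congr 1
      group
  obtain ⟨A, hA⟩ := hc ((rg p).subrepresentation S hS)
    (fun a v => Subtype.ext (_root_.funext (v.2.1 a)))
    (fun v => v.2.2.imp fun n h k hk => Subtype.ext (_root_.funext fun g => h g k hk)) D
    ⟨F, h1, h2⟩ (Sd_inj S.subtype (fun _ _ => rfl) Subtype.val_injective D _ h3)
    ((Pi.evalAddMonoidHom _ 1).comp S.subtype.toAddMonoidHom)
  exact ⟨A, fun k hk => (congrArg F (one_mul k)).symm.trans (hA k hk)⟩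

end Vale.Agent.P004M.Pol
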