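import Vale.Agent.P004M.Wt1
import Vale.Agent.P022K.QT.Clb

/-!
# P004M, row wt2: from weight two in the tower to all weights
-/

set_option autoImplicit false

open scoped MatrixGroups

noncomputable section

namespace Vale.Agent.P004M.Wt

open Vale.Agent.P022 Vale.Agent.P022K.Sh Vale.Agent.P022K.QT Vale.Agent.P022K.QT.Cl Matrix

variable {N m n i : ℕ}

theorem syd_Z {K : Type} [Field K] {z : GL (Fin 2) K} (h : z ∈ Zl K) : syd m z = 1 := by
  obtain ⟨c, rfl⟩ := scalar_of_mem h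
  ext j k
  have c0 := c.ne_zero
  have e : mon (2 * m) (GeneralLinearGroup.scalar (Fin 2) c).val j =
      Polynomial.C ((c : K) ^ (2 * m)) * Polynomial.X ^ (j : ℕ) := by
    have : (c : K) ^ (2 * m) = c ^ (j : ℕ) * c ^ (2 * m - j) := by
      rw [← pow_add, Nat.add_sub_cancel' (Nat.lt_succ_iff.1 j.2)]
    simp [mon, this, mul_pow]
    ring
  change _ * (mon (2 * m) (GeneralLinearGroup.scalar (Fin 2) c).val j).coeff k = _
  rw [e, Polynomial.coeff_C_mul, Polynomial.coeff_X_pow, ← mul_assoc]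
  simp [Matrix.one_apply, Fin.ext_iff, eq_comm, ← pow_mul]

theorem syd_int {p : Pr} {g : Gl p} (h : g ∈ U1 p n) :
    ∃ σ : Matrix (Fin (2 * m + 1)) (Fin (2 * m + 1)) ℤ_[p],
      σ.map PadicInt.Coe.ringHom = syd m g ∧ ∀ i ≤ n, σ.map (PadicInt.toZModPow i) = 1 := by
  obtain ⟨k, hk, z, hz, rfl⟩ := Subgroup.mem_sup_of_normal_right.1 h
  obtain ⟨⟨k, rfl⟩, h2⟩ := mem_Km.1 hk
  refine ⟨syd m k, by rw [map_mul, syd_Z hz, mul_one, ← syd_map]; rfl, fun i hi => ?_⟩
  rw [← syd_map, ← map_one (syd m)]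
  congr 1
  ext a b
  have : ((k.val - 1) a b) ∈ RingHom.ker (PadicInt.toZModPow i) := by
    rw [PadicInt.ker_toZModPow, ← PadicInt.norm_le_pow_iff_mem_span_pow]
    refine le_trans (le_of_eq ?_) ((h2 a b).trans (zpow_le_zpow_right₀
      (by exact_mod_cast p.2.one_le) (by omega)))
    rw [PadicInt.norm_def]
    by_cases e : a = b <;> simp [e]
  by_cases e : a = b <;> simpa [e, sub_eq_zero] using this

/-- the twist is additive -/
def th (m : ℕ) (x : G) : Vw ℚ Unit m →+ Fin (2 * m + 1) → ℚ_[q2] :=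
  AddMonoidHom.mk' (tw m x) fun v w => by
    rw [tw, tw, tw, ← mulVec_add]
    exact congrArg _ (funext fun k => Rat.cast_add _ _)

theorem tw_mul (x u : G) (v : Vw ℚ Unit m) :
    tw m (x * u) v = (syd m (ev q2 u)⁻¹).mulVec (tw m x v) := by
  rw [tw, tw, mulVec_mulVec, ← map_mul, map_mul (P022K.QT.ev q2), _root_.mul_inv_rev]

theorem tw_one (v : Vw ℚ Unit m) (k : Unit → Fin (2 * m + 1)) : tw m 1 v (k ()) = (v k : ℚ) := by
  rw [tw, map_one, inv_one, map_one, one_mulVec]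

theorem tw_rw (x : G) (γ : G0) (v : Vw ℚ Unit m) :
    tw m x (rw ℚ m γ v) = tw m ((TQ.j γ)⁻¹ * x) v := by
  rw [tw, tw, map_mul, map_inv (P022K.QT.ev q2), _root_.mul_inv_rev, inv_inv, map_mul, ← mulVec_mulVec]
  congr 1
  funext k
  rw [rw_apply, show ev q2 (TQ.j γ) = jl q2 γ.1 from rfl, syd_map]
  simp [mulVec, dotProduct]

variable [NeZero N]

theorem U1_of {M : ℕ} {u : G} (h : u ∈ UU N M) (p : Pr) : ev p u ∈ U1 p (M.factorization p) :=
  (mem_PU.1 h p).1

theorem io_mem {p : Pr} {V : ∀ p, Subgroup (Gl p)} {u : G} (h : u ∈ PU V) :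
    io p (ev p u) ∈ PU V := mem_PU.2 fun q => by
  by_cases e : q = p
  · subst e
    exact (ev_io q _).symm ▸ mem_PU.1 h q
  · exact (ev_io_ne e _).symm ▸ one_mem _

theorem away {u : G} (h : u ∈ UU N 1) (n : ℕ) : (io q2 (ev q2 u))⁻¹ * u ∈ UU N (2 ^ n) :=
  mem_PU.2 fun q => by
    rw [map_mul, map_inv]
    by_cases e : q = q2
    · subst e
      rw [ev_io, inv_mul_cancel]
      exact one_mem _
    · rw [ev_io_ne e, inv_one, one_mul, VV, Nat.factorization_eq_zero_of_not_dvd fun d => e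
        (Subtype.ext ((Nat.prime_dvd_prime_iff_eq q.2 Nat.prime_two).1 (q.2.dvd_of_dvd_pow d)))]
      simpa [VV] using mem_PU.1 h q

/-- **all weights** -/
theorem sm_of {M : ℕ} {l : PA N} (hn : 2 ≤ n) (hi : i ≤ n) (hM : 0 < M)
    (hy : ∀ k ∈ KN M, k ∈ UU N (2 ^ n)) (h1 : M ∣ l.1 - 1) {P : FreeAlgebra ℤ (PA N)}
    (hP : Kz n (2 ^ i) P) (m : ℕ) : Sm m i (tE l * P * tE l) := fun z hz hI => by
  let c : ℤ_[q2] →+* ZMod (2 ^ i) := PadicInt.toZModPow i
  let y : G0 → G → Fin (2 * m + 1) → ℤ_[q2] := fun γ x k => ⟨_, hI γ x k⟩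
  have E : ∀ u ∈ UU N 1, ∀ σ : Matrix _ _ ℤ_[q2],
      σ.map PadicInt.Coe.ringHom = syd m (ev q2 u)⁻¹ → ∀ γ x,
      c ∘ y γ (x * u) = (σ.map c).mulVec (c ∘ y γ x) := fun u hu σ e γ x => funext fun k => by
    refine (congrArg c (Subtype.ext ?_)).trans (RingHom.map_mulVec c σ _ k)
    refine Eq.trans ?_ (RingHom.map_mulVec PadicInt.Coe.ringHom σ _ k).symm
    change tw m (x * u) (z γ (x * u)) k = _
    rw [hz.1 γ x u hu, tw_mul, e]
    rfl
  obtain ⟨g, a, b, d⟩ := core hn hM hy h1 hP (y := fun γ x => c ∘ y γ x) fun k =>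
    ⟨fun γ x u hu => by
      have := inv_mem (U1_of hu q2)
      obtain ⟨σ, e, e'⟩ := syd_int (m := m) (U1_anti q2 (Nat.factorization_pow_self (n := n)
        Nat.prime_two).ge this)
      exact (congrFun (E u (UU_le (pow_pos two_pos n) hu) σ e γ x) k).trans
        (by rw [e' i hi, one_mulVec]), fun γ δ => funext fun x => by
      refine (congrArg c (Subtype.ext ?_)).trans (map_add c (y γ x k) (y δ ((TQ.j γ)⁻¹ * x) k))
      change th m x (z (γ * δ) x) k = tw m x _ k + tw m _ _ k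
      rw [Tw.coc_pt hz, map_add, ← tw_rw]
      rfl, fun γ h => funext fun x => by
      refine (congrArg c (Subtype.ext ?_)).trans (map_zero c)
      change th m x (z γ x) k = 0
      rw [hz.2.2 γ h, Pi.zero_apply, map_zero, Pi.zero_apply]⟩
  refine ⟨fun k => (g 1 (k ())).val, fun γ hγ k => ?_⟩
  have hu : (TQ.j γ)⁻¹ ∈ UU N 1 := inv_mem (by simpa using TQ.mem_Gam.1 hγ)
  obtain ⟨σ, e, -⟩ := syd_int (m := m) (inv_mem (U1_of hu q2))
  have e1 := d _ (mulVecLin (σ.map c)).toAddMonoidHom (io_mem hu)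
    (E _ (io_mem hu) σ (by rwa [ev_io])) 1
  rw [← a _ _ (away hu n), one_mul, mul_inv_cancel_left] at e1
  let w : Fin (2 * m + 1) → ℤ_[q2] := fun k => (g 1 k).val
  have e2 : c ∘ w = g 1 := funext fun k => (map_natCast c _).trans (ZMod.natCast_zmod_val _)
  have e3 := congrFun (op_nat id (fun _ => c.toAddMonoidHom.compLeft (Fin (2 * m + 1)))
    (fun _ _ _ => ⟨rfl, rfl⟩) (tE l * P * tE l) (y γ)) 1
  have e4 := congrFun (op_nat id (fun _ => (PadicInt.Coe.ringHom (p := q2)).toAddMonoidHom.compLeft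
    (Fin (2 * m + 1))) (fun _ _ _ => ⟨rfl, rfl⟩) (tE l * P * tE l) (y γ)) 1
  have e5 := congrFun (op_nat id (th m) (fun x l g => ⟨rfl, AddMonoidHom.ext fun v => by
    change tw m _ _ = tw m _ _
    rw [tw_mul, ev_io_ne (ne2 l), inv_one, map_one, one_mulVec]⟩) (tE l * P * tE l) (z γ)) 1
  have e6 : op N (Fin _ → ℤ_[q2]) (tE l * P * tE l) (y γ) 1 (k ()) - (σ.mulVec w (k ()) - w (k ())) ∈
      RingHom.ker c := by
    rw [RingHom.mem_ker, map_sub, map_sub, sub_eq_zero, RingHom.map_mulVec, e2]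
    refine (congrFun (e3.symm.trans (b γ 1)) _).trans ?_
    rw [mul_one, e1, ← e2]
    rfl
  rw [PadicInt.ker_toZModPow, ← PadicInt.norm_le_pow_iff_mem_span_pow, PadicInt.norm_def] at e6
  refine le_trans (le_of_eq (congrArg norm ?_)) e6
  push_cast
  congr 2
  · exact (tw_one _ k).symm.trans (congrFun (e5.symm.trans e4) _)
  · refine (tw_one _ k).symm.trans (Eq.trans ?_
      (RingHom.map_mulVec PadicInt.Coe.ringHom σ _ _).symm)
    rw [tw_rw, mul_one, tw, e]
    exact congrFun (congrArg _ (funext fun k =>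
      (Rat.cast_natCast _).trans (map_natCast PadicInt.Coe.ringHom _).symm)) _

end Vale.Agent.P004M.Wt
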