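import Mathlib

/-!
# P004M: Newton expansions of locally constant torsion valued functions
-/

set_option autoImplicit false
set_option linter.all false

noncomputable section

namespace Vale.Agent.P004M.Pol

open Finset

/-- differences with long steps control differences with short steps -/
theorem enl {A M : Type} [AddCommMonoid A] [AddCommGroup M] {p : ℕ} (hp : p.Prime) (s : ℕ)
    {a b : ℕ} (h : A) {Φ : A → M} (h1 : p ^ a • Φ = 0) (h2 : (fwdDiff (p ^ s • h))^[b] Φ = 0) :
    (fwdDiff h)^[p ^ s * (b + a)] Φ = 0 := by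
  let I : Ideal (Module.End ℤ (A → M)) :=
    { carrier := {f | f Φ = 0}
      zero_mem' := rfl
      add_mem' := fun {f g} hf hg => by
        show f Φ + g Φ = 0
        rw [show f Φ = 0 from hf, show g Φ = 0 from hg, add_zero]
      smul_mem' := fun c f hf => by
        show c (f Φ) = 0
        rw [show f Φ = 0 from hf, map_zero] }
  set δ := fwdDiff_aux.fwdDiffₗ A M h with hδ
  have e := (Commute.one_right δ).add_pow_prime_pow_eq' hp s
  have e1 : (δ + 1) ^ p ^ s = fwdDiff_aux.fwdDiffₗ A M (p ^ s • h) + 1 := by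
    ext1 f
    funext y
    exact (fwdDiff_aux.shiftₗ_pow_apply h f _ y).trans (fwdDiff_aux.shiftₗ_apply _ f y).symm
  set r := ∑ k ∈ Ioo 0 (p ^ s), δ ^ k * 1 ^ (p ^ s - k) *
    (((p ^ s).choose k / p : ℕ) : Module.End ℤ (A → M)) with hr
  have e2 : δ ^ p ^ s = fwdDiff_aux.fwdDiffₗ A M (p ^ s • h) + -(p * r) := by
    rw [e1, one_pow, add_right_comm] at e
    rw [add_right_cancel e, add_neg_cancel_right]
  have c0 : Commute δ r := Commute.sum_right _ _ _ fun k _ =>
    (((Commute.refl δ).pow_right k).mul_right ((Commute.one_right δ).pow_right _)).mul_right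
      (Nat.cast_commute _ _).symm
  have c1 : Commute (δ ^ p ^ s) (p * r) :=
    ((Nat.cast_commute p δ).symm.mul_right c0).pow_left _
  have c2 : Commute (fwdDiff_aux.fwdDiffₗ A M (p ^ s • h)) (-(p * r)) := by
    rw [eq_neg_add_iff_add_eq.2 (show -(p * r) + _ = _ from (add_comm _ _).trans e2.symm) |>.trans
      (by rw [neg_neg])]
    exact ((Commute.refl _).add_left c1).neg_right
  have k := I.add_pow_mem_of_pow_mem_of_le_of_commute (m := b) (n := a) (k := b + a)
    (show (_ ^ b : Module.End ℤ (A → M)) Φ = 0 by rw [fwdDiff_aux.coe_fwdDiffₗ_pow, h2])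
    (show ((-(p * r)) ^ a : Module.End ℤ (A → M)) Φ = 0 by
      rw [← mul_neg, (Nat.cast_commute p (-r)).mul_pow, ← Nat.cast_pow, Nat.cast_comm,
        Module.End.mul_apply, Module.End.natCast_apply, h1, map_zero]) (Nat.le_succ _) c2
  rw [← e2, ← pow_mul] at k
  rw [← fwdDiff_aux.coe_fwdDiffₗ_pow]
  exact k

variable {p : ℕ} [Fact p.Prime]

/-- binomial coefficients -/
def bn (x : ℚ_[p]) (k : ℕ) : ℚ_[p] := (k.factorial : ℚ_[p])⁻¹ * ∏ j ∈ range k, (x - j)

theorem bn_nat (n k : ℕ) : bn (n : ℚ_[p]) k = n.choose k := by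
  have h : ∀ k : ℕ, ∏ j ∈ range k, ((n : ℚ_[p]) - j) = n.descFactorial k := fun k => by
    induction k with
    | zero => simp
    | succ k ih =>
      rw [prod_range_succ, ih, Nat.descFactorial_succ, Nat.cast_mul, mul_comm]
      rcases le_or_gt k n with h | h
      · rw [Nat.cast_sub h]
      · rw [Nat.descFactorial_of_lt h, Nat.cast_zero, mul_zero, mul_zero]
  rw [bn, h, Nat.descFactorial_eq_factorial_mul_choose, Nat.cast_mul,
    inv_mul_cancel_left₀ (Nat.cast_ne_zero.2 k.factorial_ne_zero)]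

variable {A M X ι : Type} [AddCommGroup A] [Module ℤ_[p] A] [AddCommGroup M]
  (π : ℚ_[p] →+ M) (h0 : ∀ x, ‖x‖ < 1 → π x = 0) {t d : ℕ}

include h0

/-- one variable -/
theorem n1 {Φ : A → M} (sm : ∀ z w, Φ (z + p ^ t • w) = Φ z) {e : A}
    (hd : (fwdDiff e)^[d] Φ = 0) (z : A) (c : ℤ_[p]) {m : ℕ → ℚ_[p]}
    (hm : ∀ k, π (m k) = (fwdDiff e)^[k] Φ z) :
    Φ (z + c • e) = π (∑ k ∈ range d, bn (c : ℚ_[p]) k * m k) := by
  let g : ℤ_[p] → ℚ_[p] := fun c => ∑ k ∈ range d, bn (c : ℚ_[p]) k * m k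
  have hg : Continuous g := by
    unfold g bn
    have : Continuous fun c : ℤ_[p] => (c : ℚ_[p]) := continuous_subtype_val
    fun_prop
  have hp : (0 : ℝ) < (p : ℝ) ^ (-t : ℤ) := zpow_pos (Nat.cast_pos.2 (Fact.out : p.Prime).pos) _
  obtain ⟨n, k1, k2⟩ := PadicInt.denseRange_natCast.exists_mem_open
    (s := {y | ‖g c - g y‖ < 1} ∩ {y | ‖c - y‖ < (p : ℝ) ^ (-t : ℤ)})
    ((isOpen_lt (by fun_prop) continuous_const).inter (isOpen_lt (by fun_prop) continuous_const))
    ⟨c, by simp, by simpa using hp⟩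
  obtain ⟨w, hw⟩ := Ideal.mem_span_singleton'.1
    ((PadicInt.norm_le_pow_iff_mem_span_pow _ _).1 (le_of_lt k2))
  have e1 : z + c • e = z + n • e + p ^ t • w • e := by
    rw [← Nat.cast_smul_eq_nsmul ℤ_[p] n, ← Nat.cast_smul_eq_nsmul ℤ_[p] (p ^ t), smul_smul,
      add_assoc, ← add_smul, Nat.cast_pow, mul_comm, hw, add_sub_cancel]
  have e2 := h0 _ k1
  rw [map_sub, sub_eq_zero] at e2
  rw [e1, sm, shift_eq_sum_fwdDiff_iter e Φ n z]
  refine Eq.trans ?_ e2.symm
  simp only [g, map_sum, PadicInt.coe_natCast, bn_nat, ← nsmul_eq_mul, map_nsmul, hm]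
  have z1 : ∀ k, d ≤ k → (fwdDiff e)^[k] Φ z = 0 := fun k hk => by
    obtain ⟨j, rfl⟩ := Nat.exists_eq_add_of_le' hk
    rw [Function.iterate_add_apply, hd, Function.iterate_fixed (by ext; simp [fwdDiff])]
    rfl
  rw [sum_subset (range_mono (Nat.le_add_right (n + 1) d)) fun k _ hk => by
    rw [Nat.choose_eq_zero_of_lt (by simpa using hk), zero_nsmul]]
  exact (sum_subset (range_mono (Nat.le_add_left d (n + 1))) fun k _ hk => by
    rw [z1 k (by simpa using hk), nsmul_zero]).symm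

/-- **Newton expansion** along finitely many directions, in any multiplicative filtration -/
theorem newton (hs : Function.Surjective π) (W : ℕ → Submodule ℚ_[p] (X → ℚ_[p]))
    (one : (1 : X → ℚ_[p]) ∈ W 0) (mono : Monotone W)
    (mul : ∀ a b φ ψ, φ ∈ W a → ψ ∈ W b → φ * ψ ∈ W (a + b)) (e : ι → A) (y : X → ι → ℤ_[p])
    (co : ∀ i, (fun x => (y x i : ℚ_[p])) ∈ W 1) (S : Finset ι) :
    ∀ Φ : A → M, (∀ z w, Φ (z + p ^ t • w) = Φ z) → (∀ i, (fwdDiff (e i))^[d] Φ = 0) →
      ∃ φ ∈ W (S.card * d), ∀ x, Φ (∑ i ∈ S, y x i • e i) = π (φ x) := by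
  classical
  have hb : ∀ i k, (fun x => bn (y x i : ℚ_[p]) k) ∈ W k := fun i k => by
    refine (W k).smul_mem (k.factorial : ℚ_[p])⁻¹
      (x := fun x => ∏ j ∈ range k, ((y x i : ℚ_[p]) - j)) ?_
    induction k with
    | zero => exact one
    | succ k ih =>
      have := mul _ _ _ _ ih (sub_mem (co i) ((W 1).smul_mem (k : ℚ_[p]) (mono (Nat.le_succ 0) one)))
      convert this using 1
      funext x
      simp [prod_range_succ]
  induction S using Finset.induction_on with
  | empty =>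
    intro Φ _ _
    obtain ⟨m, hm⟩ := hs (Φ 0)
    exact ⟨m • 1, (W _).smul_mem m (mono (Nat.zero_le _) one), fun x => by simp [hm]⟩
  | insert i S hi ih =>
    intro Φ sm hd
    have cm : ∀ a b : A, Function.Commute (fwdDiff (G := M) a) (fwdDiff b) := fun a b f => by
      funext z
      simp only [fwdDiff, add_right_comm z a b]
      abel
    choose φ h1 h2 using fun k => ih ((fwdDiff (e i))^[k] Φ)
      (fun z w => by rw [← fwdDiff_iter_comp_add, funext fun r => sm r w]) fun j => by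
        rw [((cm _ _).iterate_iterate d k).eq, hd, Function.iterate_fixed (by ext; simp [fwdDiff])]
    refine ⟨∑ k ∈ range d, (fun x => bn (y x i : ℚ_[p]) k) * φ k, sum_mem fun k hk =>
      mono ?_ (mul _ _ _ _ (hb i k) (h1 k)), fun x => ?_⟩
    · have := mem_range.1 hk
      rw [card_insert_of_notMem hi, add_mul]
      omega
    · rw [sum_insert hi, add_comm, n1 π h0 sm (hd i) _ _ fun k => (h2 k x).symm]
      simp

end Vale.Agent.P004M.Pol
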