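import Vale.Agent.P004M.Lin
import Vale.Agent.P004M.Wt0
import Vale.Agent.P004M.Wrap0
import Vale.Agent.P022K.QT.Cu1
import Vale.Agent.P022K.QT.ThK
import Vale.Agent.P022K.WB.Wk
import Vale.Agent.P022K.QT.Locm
import Vale.Agent.P022K.QT.Okq
import Vale.Agent.P027M.M.CAll

/-!
# P004M, route A: the rows and the glue
-/

set_option autoImplicit false
set_option linter.all false

noncomputable section

namespace Vale.Agent.P004M.RA

open Vale.Agent.P022 Vale.Agent.P022K Vale.Agent.P022K.QT Vale.Agent.P022K.Sh Vale.Agent.P022K.FI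
open Vale.Agent.P022K.WB hiding th dl
open Vale.Agent.P022K.UC.Hm Vale.Agent.P004M.Wt
open Vale.Agent.P027M.M (Mdl FF cv)
open Vale.Agent.P022.H443 (inP)
open Vale.Agent.P022E.GW (Ov Fb)

/-- the abstract Hecke ring -/
abbrev RR (N : ℕ) : Type := MvPolynomial (PA N) ℤ

/-- words to polynomials -/
def ab (N : ℕ) : FreeAlgebra ℤ (PA N) →ₐ[ℤ] RR N := FreeAlgebra.lift ℤ MvPolynomial.X

/-- words on classes modulo `r` -/
abbrev wH (N : ℕ) [NeZero N] (r n : ℕ) :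
    FreeAlgebra ℤ (PA N) →ₐ[ℤ] Module.End (ZMod r) (TQ.Hn r (Cl.UU N (2 ^ n))) :=
  FreeAlgebra.lift ℤ fun l : PA N => TQ.hH _ (cor l n)

/-- reductions of integral parabolic cocycles -/
def PZ (n : ℕ) (U : Subgroup G) (a : TQ.Hn n U) : Prop :=
  ∃ z ∈ TQ.Z1 (Representation.trivial ℤ G0 ℤ) U, Par U z ∧
    ∃ z' : TQ.Z1 (Representation.trivial (ZMod n) G0 (ZMod n)) U,
      Submodule.Quotient.mk z' = a ∧ ∀ γ x, z'.1 γ x = (z γ x : ZMod n)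

/-- all the slices of the Kummer functions of the class vanish -/
def Van (X : Mdl) (e : Qb →+* CS 2) (k : ℕ) (U : Subgroup G) (b : TQ.Hn (2 ^ k) U) : Prop :=
  ∀ φ, TQ.Kf (2 ^ k) U b φ → FV φ → ∀ (s : GQ) (g : G2 2) (d : ℕ) (hd : 0 < d * 1), Odd d →
    ∀ f : FF, cv f = th X s φ (TQ.j (Cl.tq d 0 1 hd) * io q2 g) → cl 2 k (Cu.lg e 2 f 1) = 0

/-- the module -/
structure Mq (X : Mdl) (e : Qb →+* CS 2) (N : ℕ) [NeZero N] {M : Type} [AddCommGroup M]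
    [Module (RR N) M] (ρ : Representation (RR N) (G2 2) M) (γ : Representation (RR N) GQ M)
    {ι : Type} (W : ι → M →+ Y 2 (CS 2)) (im : ∀ k n, TQ.Hn (2 ^ k) (Cl.UU N (2 ^ n)) →+ M) :
    Prop where
  adm : Adm ρ ⊤
  cen : ∀ a v, ρ (dd a a) v = v
  com : ∀ x s v, ρ x (γ s v) = γ s (ρ x v)
  sm : ∀ v, ∃ V : Subgroup GQ, IsOpen (V : Set GQ) ∧ ∀ s ∈ V, γ s v = v
  ur : ∀ (l : PA N) Q, Ov l.1 Q → ∀ s ∈ inP Q, ∀ v, γ s v = v
  es : ∀ (l : PA N) Q φ, Ov l.1 Q → Fb l.1 Q φ →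
    ∃ t : RR N, ∀ v, γ φ (γ φ v) - t • γ φ v + l.1 • v = 0
  wg : ∀ i, Wg (Cu.psi_ok e).og ρ (fun s => γ (rs e s)) ⊤ (W i)
  inj : ∀ v, (∀ i (c : RR N) s x, W i (c • γ s (ρ x v)) = 0) → v = 0
  hec : ∀ k n P b, im k n (wH N _ n P b) = ab N P • im k n b
  ker : ∀ k n b, im k n b = 0 → Van X e k _ b
  J : ∃ q c, ∀ D P, (∀ m ≤ c * (D + 1), Kil (N := N) 0 (rw ℚ_[2] m) P) →
    ∀ v ∈ Ar.Sd (ρ.comp (Kn 2 (q + 2)).subtype) 2 D, ab N P • v = 0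

/-- **MO** -/
def MO : Prop := ∀ (X : Mdl) (e : Qb →+* CS 2) (N : ℕ) [NeZero N], 64 ∣ N →
  ∃ (M : Type) (_ : AddCommGroup M) (_ : Module (RR N) M) (ρ : Representation (RR N) (G2 2) M)
    (γ : Representation (RR N) GQ M) (ι : Type) (W : ι → M →+ Y 2 (CS 2))
    (im : ∀ k n, TQ.Hn (2 ^ k) (Cl.UU N (2 ^ n)) →+ M), Mq X e N ρ γ W im

/-- **FAI** -/
def FAI : Prop := ∀ (X : Mdl) (e : Qb →+* CS 2) (N : ℕ) [NeZero N], 64 ∣ N → ∀ n i, ∃ k, ∀ P,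
  (∀ b, Van X e k _ (wH N _ n P b)) → ∀ a, PZ (2 ^ i) _ a → wH N _ n P a = 0

/-- **WT2** -/
def WT2 : Prop := ∀ (N : ℕ) [NeZero N] (a : ℕ → ℤ), 64 ∣ N → A6 N a → EIS N a → ∀ j : ℕ, ∃ n i,
  ∀ P, (∀ b, PZ (2 ^ i) _ b → wH N _ n P b = 0) →
    (2 : ℤ) ^ j ∣ FreeAlgebra.lift ℤ (fun l : PA N => a l.1) P

/-- **ES5** -/
def ES5 : Prop := ∀ (N : ℕ) [NeZero N], 64 ∣ N → ∀ (m : ℕ) (P : FreeAlgebra ℤ (PA N)),
  (∀ f, Tv f → wd N m P f = 0) → Kil (N := N) 0 (rw ℚ_[2] m) P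

theorem ab_surj (N : ℕ) (c : RR N) : ∃ P, ab N P = c := by
  induction c using MvPolynomial.induction_on with
  | C r => exact ⟨algebraMap _ _ r, (ab N).commutes r⟩
  | add x y hx hy =>
    obtain ⟨P, rfl⟩ := hx
    obtain ⟨Q, rfl⟩ := hy
    exact ⟨P + Q, map_add _ _ _⟩
  | mul_X x l hx =>
    obtain ⟨P, rfl⟩ := hx
    exact ⟨P * FreeAlgebra.ι ℤ l, by rw [map_mul, ab, FreeAlgebra.lift_ι_apply]⟩

/-- **route A** -/
theorem uca (mo : MO) (fai : FAI) (wt : WT2) (es : ES5) : UCA := fun N _ a hN h6 hE => by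
  classical
  obtain ⟨X⟩ := P027M.M.mdl
  obtain ⟨e, -⟩ := exists_ab0 (p := 2)
  obtain ⟨M, _, _, ρ, γ, ι, W, im, h⟩ := mo X e N hN
  let lam : RR N →+* ℤ := MvPolynomial.eval fun l => a l.1
  have la : ∀ P, lam (ab N P) = FreeAlgebra.lift ℤ (fun l : PA N => a l.1) P := fun P =>
    (map_lift lam _ P).trans (by simp [lam])
  have n0 : 2 * N ≠ 0 := mul_ne_zero two_ne_zero (NeZero.ne N)
  have pa : ∀ l ∉ (2 * N).primeFactors, l.Prime → l.Prime ∧ ¬ l ∣ 2 * N := fun l hl k =>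
    ⟨k, fun d => hl (Nat.mem_primeFactors.2 ⟨k, d, n0⟩)⟩
  obtain ⟨q, c, hJ⟩ := h.J
  obtain ⟨c', hc⟩ := lin (T := (2 * N).primeFactors)
    (Nat.mem_primeFactors.2 ⟨Nat.prime_two, dvd_mul_right _ _, n0⟩) h.sm
    (fun l hl Q k => h.ur ⟨l, pa l hl k.1⟩ Q k) (fun l hl Q φ k => h.es ⟨l, pa l hl k.1⟩ Q φ k) e
    (Cu.psi_ok e) h.adm h.cen h.com h.wg h.inj (lam := lam) (fun j => by
      obtain ⟨n, i, h1⟩ := wt N a hN h6 hE j
      obtain ⟨k, h2⟩ := fai X e N hN n i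
      have := okq.finHn (lev (N := N) n) (2 ^ k)
      refine ⟨(Set.finite_range (im k n)).toFinset, fun r hr => ?_⟩
      obtain ⟨P, rfl⟩ := ab_surj N r
      exact la P ▸ h1 P (h2 P fun b => h.ker k n _ ((h.hec k n P b).trans
        (hr _ ((Set.Finite.mem_toFinset _).2 ⟨b, rfl⟩))))) q
  refine ⟨N, inferInstance, fun _ _ => Iff.rfl, 1, 1, c * (c' + 1), one_ne_zero, le_rfl, by norm_num,
    fun j => ⟨c * (c' * (j + 1) + 1), by
      simpa [mul_assoc] using Nat.mul_le_mul_left c (by nlinarith), fun P hP => ?_⟩⟩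
  obtain ⟨v, h1, h2, h3⟩ := hc j
  obtain ⟨t, ht⟩ := h.adm.tor v trivial
  have h4 : lam (ab N P) • v = 0 := by
    have := h2 (ab N P - lam (ab N P)) (by simp)
    rwa [sub_smul, hJ _ P (fun m hm => es N hN m P (hP m hm)) v h1, zero_sub, neg_eq_zero,
      Int.cast_smul_eq_zsmul] at this
  obtain ⟨s, -, hs⟩ := (Nat.dvd_prime_pow Nat.prime_two).1 (addOrderOf_dvd_of_nsmul_eq_zero ht)
  have h5 : j ≤ s := not_lt.1 fun k => h3 (addOrderOf_dvd_iff_nsmul_eq_zero.1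
    (hs ▸ pow_dvd_pow 2 k.le))
  obtain ⟨u, hu⟩ : (2 : ℤ) ^ j ∣ lam (ab N P) := (pow_dvd_pow _ h5).trans (by
    simpa [hs] using addOrderOf_dvd_iff_zsmul_eq_zero.2 h4)
  have := map_lift (Int.castRingHom ℚ_[2]) (fun l : PA N => a l.1) P
  rw [← la, hu] at this
  erw [← this]
  simp only [eq_intCast, Int.cast_mul, Int.cast_pow, Int.cast_ofNat, norm_mul, norm_pow]
  exact mul_le_of_le_one_right (by positivity) (Padic.norm_int_le_one u)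

end Vale.Agent.P004M.RA
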