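import Vale.Agent.P004M.A6b
import Vale.Agent.P004M.Wrap0
import Vale.Agent.P004M.Eis
import Vale.Agent.P004M.End

/-!
# P004M: from a representation which occurs at odd level to a cusp form of weight two
-/

set_option autoImplicit false

noncomputable section

namespace Vale.Agent.P004M

open Vale.Agent.P022 Vale.Agent.P022K.UC.Hm A6

variable {N M : ℕ} [NeZero N] [NeZero M]

theorem a6_iff {a : ℕ → ℤ} : A6 N a ↔ UC0 N fun l => ((a l : ℤ) : ℚ_[2]) := by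
  have e : ∀ P, FreeAlgebra.lift ℤ (fun l : PA N => ((a l.1 : ℤ) : ℚ_[2])) P =
      (FreeAlgebra.lift ℤ (fun l : PA N => a l.1) P : ℤ) := fun P =>
    (A6.map_lift (Int.castRingHom ℚ_[2]) _ P).symm
  have e2 : ∀ (j : ℕ) (x : ℤ), (2 : ℤ) ^ j ∣ x ↔ ‖(x : ℚ_[2])‖ ≤ 2⁻¹ ^ j := fun j x => by
    simpa using (Padic.norm_int_le_pow_iff_dvd (p := 2) x j).symm
  simp only [A6, UC0, e, e2]
  refine ⟨fun h ε hε => ?_, fun h j => (h (2⁻¹ ^ j) (by positivity)).imp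
    fun _ hB P hP => (hB P hP).le⟩
  obtain ⟨j, hj⟩ := exists_pow_lt_of_lt_one hε (by norm_num : (2⁻¹ : ℝ) < 1)
  exact (h j).imp fun _ hB P hP => (hB P hP).trans_lt hj

theorem A6.tr' {c a b : ℕ → ℤ} (t : Tr N M c) (hab : ∀ l : PA M, b l.1 = c l.1 * a l.1)
    (h : A6 N a) : A6 M b :=
  a6_iff.2 ((a6_iff.1 h).tr t fun l => by rw [hab, Int.cast_mul])

theorem ucn_tr {L : Type} [NormedField L] {c : ℕ → ℤ} (t : Tr N M c) {a b : ℕ → L}
    (hab : ∀ l : PA M, b l.1 = c l.1 * a l.1) (h : UCN N a) : UCN M b := by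
  obtain ⟨al, be, C, a1, a2, a3, a4⟩ := h
  refine ⟨al, be, C, a1, a2, a3, fun j => (a4 j).imp fun _ hB => ⟨hB.1, fun P hP => ?_⟩⟩
  obtain ⟨Q, q1, q2⟩ := t P
  rw [q2 L a b hab]
  exact hB.2 Q fun m hm => q1 m (hP m hm)

/-- occurrence of the representations over `ℚ₂` -/
def Q1 : Prop := ∀ r : GQ →* GL (Fin 2) ℚ_[2], Continuous r → St.OddRep r → St.AbsIrr r →
  {p : ℕ | p.Prime ∧ ¬ St.UnrAt r p}.Finite → St.Q1Concl r

/-- the integers `a l` are the traces of Frobenius of `r` away from `2 D` -/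
def Sys (r : GQ →* GL (Fin 2) ℚ_[2]) (D : ℕ) (a : ℕ → ℤ) : Prop :=
  ∀ l : ℕ, l.Prime → ¬ l ∣ 2 * D → St.UnrAt r l ∧ a l ^ 2 ≤ 4 * l ∧ ∀ g, St.IsFrob l g →
    (r g : Matrix (Fin 2) (Fin 2) ℚ_[2]).trace = a l ∧ (r g : Matrix (Fin 2) (Fin 2) ℚ_[2]).det = l

theorem ucn_of (hu : UCA ∨ UCD) {r : GQ →* GL (Fin 2) ℚ_[2]} (hc : Continuous r)
    (hi : St.AbsIrr r) (hq : St.Q1Concl r) {D : ℕ} (hD : D ≠ 0) {a : ℕ → ℤ} (h : Sys r D a) :
    ∃ (N : ℕ) (_ : NeZero N), 2 * D ∣ N ∧ UCN N fun l => ((a l : ℤ) : ℚ_[2]) := by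
  have : NeZero D := ⟨hD⟩
  have h1 : ∀ l : ℕ, l.Prime → ¬ l ∣ 2 * D → ∃ g, St.IsFrob l g ∧
      (r g : Matrix (Fin 2) (Fin 2) ℚ_[2]).trace = a l ∧
      (r g : Matrix (Fin 2) (Fin 2) ℚ_[2]).det = l := fun l hl e =>
    (H20.exists_isFrob hl).imp fun g hg => ⟨hg, (h l hl e).2.2 g hg⟩
  rcases hu with hu | hu
  · obtain ⟨N, _, n1, n2⟩ := uc0_of_q1 hq (M := 16 * D) (by positivity)
      (a := fun l => ((a l : ℤ) : ℚ_[2])) fun l hl e => h1 l hl fun e' => e (e'.trans ⟨16, by ring⟩)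
    have n3 : 2 * D ∣ N := Dvd.dvd.trans ⟨32, by ring⟩ n1
    obtain ⟨N', _, -, n4⟩ := hu N a (Dvd.dvd.trans ⟨D, by ring⟩ n1) (a6_iff.2 n2)
      (eis N ((dvd_mul_right _ _).trans n3) (NeZero.ne N) r hc hi a fun l hl e g hg =>
        ((h l hl fun e' => e (e'.trans n3)).2.2 g hg).1)
    exact ⟨N' * (2 * D), inferInstance, dvd_mul_left _ _, ucn_tr (tr_raise _ _) (by simp) n4⟩
  · obtain ⟨v, o, ho, rfl⟩ := Nat.exists_eq_two_pow_mul_odd hD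
    obtain ⟨N, _, χ, n0, n1, c1, n2⟩ := tw_of_q1 hq (o := 3 * o) (Odd.mul (by decide) ho)
      (a := fun l => ((a l : ℤ) : ℚ_[2])) fun l hl e => h1 l hl fun e' => e (by
        rw [← mul_assoc 2 (2 ^ v), ← pow_succ'] at e'
        rcases (Nat.Prime.dvd_mul hl).1 e' with e' | e'
        · exact (hl.dvd_of_dvd_pow e').mul_right _
        · exact (e'.mul_left _).mul_left _)
    obtain ⟨N', _, n3, n4⟩ := hu N (fun l => χ l * a l) n0 ((dvd_mul_right _ _).trans n1)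
      (a6_iff.2 (by simpa using n2))
    refine ⟨N' * 8 ^ 2 * (2 * (2 ^ v * o)), inferInstance, dvd_mul_left _ _,
      ucn_tr (tr_raise _ _) (by simp) (ucn_tr (b := fun l => ((a l : ℤ) : ℚ_[2]))
        (tr_twist ((n3 2 Nat.prime_two).2 (dvd_mul_right _ _)) χ c1) (fun l => ?_) n4)⟩
    have e1 : (χ l.1 : ℚ_[2]) ^ 2 = 1 := by
      exact_mod_cast congrArg (Int.cast : ℤ → ℚ_[2]) (c1 _ (odd_pa l))
    push_cast
    linear_combination (-(a l.1 : ℚ_[2])) * e1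

/-- **modularity of integral systems** -/
theorem modr (hq : Q1) (hu : UCA ∨ UCD) {r : GQ →* GL (Fin 2) ℚ_[2]} (hc : Continuous r)
    (ho : St.OddRep r) (hi : St.AbsIrr r) {D : ℕ} (hD : D ≠ 0) {a : ℕ → ℤ} (h : Sys r D a) :
    ∃ (M : ℕ) (f : P004N.T8.CF M) (c : ℕ → ℤ), 0 < M ∧ P004N.QE f (fun n => (c n : ℂ)) ∧ c 1 = 1 ∧
      (∀ p : ℕ, p.Prime → ¬ p ∣ M → ∀ n,
        c (p * n) + (if p ∣ n then (p : ℤ) * c (n / p) else 0) = c p * c n) ∧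
      {p : ℕ | p.Prime ∧ a p ≠ c p}.Finite := by
  obtain ⟨N, _, n1, n2⟩ := ucn_of hu hc hi (hq r hc ho hi ((Set.finite_Iic (2 * D)).subset
    fun p hp => Nat.le_of_dvd (by positivity) (by_contra fun e => hp.2 (h p hp.1 e).1))) hD h
  obtain ⟨M, f, c, h1, h2, h3, h4, h5⟩ := End.eig N ((dvd_mul_right _ _).trans n1)
    (norm_two ℚ_[2]) a (fun l hl e => (h l hl fun e' => e (e'.trans n1)).2.1) n2
  exact ⟨M, f, c, h1, h2, h3, h4, (Set.finite_Iic N).subset fun p hp =>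
    Nat.le_of_dvd (NeZero.pos N) (by_contra fun e => hp.2 (h5 p hp.1 e).symm)⟩

end Vale.Agent.P004M
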