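import Vale.Agent.P004M.Wrap1
import Vale.Agent.P004M.TE.All

/-!
# P004M: modularity of elliptic curves over `ℚ`, from the rows
-/

set_option autoImplicit false

namespace Vale.Agent.P004M

/-- every elliptic curve `y² = x³ + A x + B` has the coefficients of a cusp form of weight two -/
def MODE : Prop := ∀ A B : ℤ, 4 * A ^ 3 + 27 * B ^ 2 ≠ 0 →
  ∃ (M : ℕ) (f : P004N.T8.CF M) (c : ℕ → ℤ), 0 < M ∧ P004N.QE f (fun n => (c n : ℂ)) ∧ c 1 = 1 ∧
    (∀ p : ℕ, p.Prime → ¬ p ∣ M → ∀ n,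
      c (p * n) + (if p ∣ n then (p : ℤ) * c (n / p) else 0) = c p * c n) ∧
    {p : ℕ | p.Prime ∧ TE.al A B p ≠ c p}.Finite

theorem mode (hq : Q1) (hu : UCA ∨ UCD) : MODE := fun A B hD => by
  obtain ⟨r, hc, ho, hi, -, h⟩ := TE.tate A B hD
  exact modr hq hu hc ho hi (Int.natAbs_ne_zero.2 hD) fun l hl e => h l hl fun e' => e (by
    simpa [Int.natAbs_mul] using Int.natCast_dvd.1 e')

end Vale.Agent.P004M
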