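import Vale.Agent.P004M.Wt0
import Vale.Agent.P022K.QT.Clb
import Vale.Agent.P022K.UC.Fun

/-!
# P004M, row wt2: a word which kills the cohomology kills the modular forms
-/

set_option autoImplicit false
set_option linter.all false

open UpperHalfPlane CongruenceSubgroup
open scoped MatrixGroups ModularForm Manifold

noncomputable section

namespace Vale.Agent.P004M.Wt

open Vale.Agent.P022 Vale.Agent.P022K.Sh Vale.Agent.P022K.QT Vale.Agent.P022K.QT.Cl
open Vale.Agent.P022.H783 Vale.Agent.P022K.UC.Hm Matrix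

variable {m N : ℕ} [NeZero N] {f : ℍ → ℂ}

theorem i0 {F : MF N (2 * m + 2)} (h : Tv F) : I0 m N F := fun g hg => by
  have hd : (g 0 0 : ZMod N) * g 1 1 = 1 := by
    have := congrArg (Int.cast : ℤ → ZMod N) g.det_coe
    rw [Matrix.det_fin_two] at this
    simpa [Gamma0_mem.1 hg] using this
  obtain ⟨l, h1, hl, e⟩ := Nat.forall_exists_prime_gt_and_eq_mod (IsUnit.of_mul_eq_one_right _ hd)
    (2 * N)
  let L : PA N := ⟨l, hl, fun d => (Nat.le_of_dvd (by simpa using NeZero.pos N) d).not_gt h1⟩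
  rw [← dFun_eq L hg e.symm, ← dia_coe, h]

/-- the Hecke operator on adelic forms -/
theorem om_hk (hf : I0 m N f) {l : Pr} (hl : ¬ (l : ℕ) ∣ N)
    [Fintype (IsLocalRing.ResidueField ℤ_[l])] (x : G) :
    ∑ i, om m N f (x * io l ((lc l).tr i)) = om m N (∑ j : Fin l, Cl.sl m f (tq 1 j l
      (by simpa using l.2.pos)) + Cl.sl m f (tq l 0 1 (by simpa using l.2.pos))) x := by
  have a := at_UU (M := 1) hl l.2.not_dvd_one
  have r := a.rep_To (UU_mem one_pos)
  have h2 := hk_inv (Tw.Lc.L0.cor _ ⟨UU_mem one_pos, a⟩) hf.inv (TQ.j (kp N x)) _ (kp_mem x)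
  rw [mul_inv_cancel_left, r.hk hf.inv, r.hk hf.inv] at h2
  refine h2.trans (.trans ?_ ((sl_sum Finset.univ (fun i => om m N f (io l ((lc l).tr i))) _).trans
    (congrArg (Cl.sl m · _) ?_)))
  · exact Finset.sum_congr rfl fun i _ => by rw [← hf.lt, map_inv, inv_inv, lc_ι]
  rw [Fintype.sum_option, add_comm, ← (res_bij l).sum_comp]
  congr 1
  · refine Finset.sum_congr rfl fun j _ => ?_
    obtain ⟨s, hs⟩ := Ideal.mem_span_singleton'.1 ((PadicInt.maximalIdeal_eq_span_p (p := l)).le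
      (Ideal.Quotient.eq.1 (Quotient.out_eq (IsLocalRing.residue ℤ_[l] (-((j : ℕ) : ℤ_[l]))))))
    refine hf.om_eq (j_io hl _ (one_mul _) (nO s) ?_)
    have := congrArg (algebraMap ℤ_[l] ℚ_[l]) hs
    simp only [map_mul, map_natCast, map_sub, map_neg, PadicInt.algebraMap_apply] at this
    rw [Units.val_mul, jl_tq]
    ext i k
    fin_cases i <;> fin_cases k <;>
      simp [Tw.Lc.tr, pO, nO, lc, dg_val, Matrix.mul_apply, Fin.sum_univ_two]
    linear_combination -this
  · refine hf.om_eq (j_io hl _ (mul_one _) sO ?_)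
    rw [Units.val_mul, jl_tq]
    ext i k
    fin_cases i <;> fin_cases k <;>
      simp [Tw.Lc.tr, pO, sO, lc, dg_val, Matrix.mul_apply, Fin.sum_univ_two]

theorem wd_ι {F : MF N (2 * m + 2)} (h : Tv F) (l : PA N) :
    (wd N m (FreeAlgebra.ι ℤ l) F : ℍ → ℂ) = ∑ j : Fin (pl l), Cl.sl m F (tq 1 j (pl l)
      (by simpa using l.2.1.pos)) + Cl.sl m F (tq (pl l) 0 1 (by simpa using l.2.1.pos)) := by
  have e1 : ∀ j : ℕ, rr (tq 1 j (pl l) (by simpa using l.2.1.pos)) = up l.1 l.2.1.ne_zero j :=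
    fun j => by
    ext i k
    fin_cases i <;> fin_cases k <;> simp [r_entry, tq_val, up, tri]
  have e2 : rr (tq (pl l) 0 1 (by simpa using l.2.1.pos)) = dn l.1 l.2.1.ne_zero := by
    ext i k
    fin_cases i <;> fin_cases k <;> simp [r_entry, tq_val, dn, tri]
  rw [wd, FreeAlgebra.lift_ι_apply, LinearMap.smul_apply, ModularForm.IsGLPos.coe_smul, Tl_coe, tFun,
    ← dia_coe, h]
  simp only [Cl.sl, rr_det, tq_val, Matrix.det_fin_two_of, Nat.cast_one, one_mul, mul_one,
    mul_zero, sub_zero, Rat.cast_natCast, Complex.ofReal_natCast]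
  simp only [e1, e2, ← Finset.smul_sum, ← smul_add, inv_pow]

/-- the cocycle of the periods -/
def zq (l : ℂ →+ ℚ) (γ : G0) : MF N (2 * m + 2) →+ G → Vw ℚ Unit m := AddMonoidHom.mk'
  (fun F x k => l (pf (2 * m) (om m N F x) (rr γ • I) (k ()))) fun F F' => by
    funext x k
    have := pf_lin (2 * m) Finset.univ (g := fun b : Bool => om m N (cond b F F' :) x)
      (fun b => om_md (ModularForm.holo' _) x) (om_md (m := m) (N := N) (F + F').holo' x) (c := 1)
      ((sl_sum (m := m) _ _ (kp N x)⁻¹).trans (by simp [om])) (rr γ • I)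
    rw [Fintype.sum_bool, one_smul] at this
    exact (congrArg l (congrFun this.symm _)).trans (map_add l _ _)

theorem l_rat (l : ℂ →+ ℚ) (q : ℚ) (y : ℂ) : l (algebraMap ℚ ℂ q * y) = q * l y := by
  rw [← Algebra.smul_def, map_rat_smul, smul_eq_mul]

theorem zq_mem (l : ℂ →+ ℚ) {F : MF N (2 * m + 2)} (h : Tv F) :
    (fun γ => zq l γ F) ∈ TQ.Z1 (rw ℚ m) (UU N (2 ^ 0)) := by
  have hm : MDiff F := F.holo'
  refine ⟨fun γ x u hu => funext fun k => ?_, fun γ δ => ?_, fun γ hγ => ?_⟩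
  · exact congrArg (fun g => l (pf (2 * m) g (rr γ • I) (k ()))) ((i0 h).inv x u hu)
  · funext x k
    have e : rr (γ * δ) = rr γ * rr δ := congrArg Subtype.val (map_mul TQ.r γ δ)
    simp only [Pi.add_apply, Tw.lt, rw_apply, zq, AddMonoidHom.mk'_apply, e, mul_smul, (i0 h).lt]
    rw [pf_sl (om_md hm x), map_add, map_sum]
    simp only [l_rat]
    rfl
  · funext x k
    show l _ = 0
    rw [Z0_fix hγ, pf_I _ (om_md hm x)]
    exact map_zero l

theorem zq_op (l : ℂ →+ ℚ) (γ : G0) (Q : FreeAlgebra ℤ (PA N)) : ∀ F : MF N (2 * m + 2), Tv F →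
    op N (Vw ℚ Unit m) Q (zq l γ F) = zq l γ (wd N m Q F) := by
  induction Q using FreeAlgebra.induction with
  | grade0 r => intro F _; simp [Algebra.algebraMap_eq_smul_one]
  | grade1 p =>
    intro F h
    let _ := Fintype.ofFinite (IsLocalRing.ResidueField ℤ_[pl p])
    funext x k
    have := congrArg l (congrFun (pf_lin (2 * m) Finset.univ (fun i => om_md F.holo' _)
      (om_md (wd N m (FreeAlgebra.ι ℤ p) F).holo' x) (c := 1)
      ((om_hk (i0 h) (nd p) x).trans (by rw [← wd_ι h, one_smul]; rfl)) (rr γ • I)) (k ()))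
    rw [Finset.sum_apply, map_sum, one_smul] at this
    rw [op_ι, Tf_apply, Finset.sum_apply]
    exact this
  | mul a b ha hb =>
    intro F h
    rw [map_mul, map_mul, Module.End.mul_apply, Module.End.mul_apply, hb F h, ha _ (h.wd b)]
  | add a b ha hb =>
    intro F h
    simp only [map_add, LinearMap.add_apply, ha F h, hb F h]

/-- **ESI** -/
theorem esi (m : ℕ) (Q : FreeAlgebra ℤ (PA N)) (h : Kil 0 (rw ℚ m) Q) (F : MF N (2 * m + 2))
    (hF : Tv F) : wd N m Q F = 0 := by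
  set E := wd N m Q F with hE
  have hf := i0 (hF.wd Q)
  let Γ := (UU N (2 ^ 0)).comap (TQ.j.comp iZ)
  have : Γ.FiniteIndex := by
    obtain ⟨⟨M, hM, h⟩, -⟩ := lev (N := N) 0
    have : NeZero M := ⟨hM.ne'⟩
    exact Subgroup.finiteIndex_of_le (H := Gamma M) fun g hg => h (KN_le M ((j_KN hM).2 hg))
  obtain ⟨v, hv⟩ := desc (algebraMap ℚ ℂ) (ι := Γ × Fin (2 * m + 1))
    (fun i j => (syd m (iZ i.1).1 - 1) i.2 j) (fun i => pf (2 * m) E (i.1.1 • I) i.2) fun l _ => by
      obtain ⟨u, h1, h2⟩ := h _ (zq_mem l hF)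
      refine ⟨fun j => u 1 fun _ => j, fun i => ?_⟩
      have := congrFun (congrFun ((zq_op l _ Q F hF).symm.trans (h2 (iZ i.1))) 1) fun _ => i.2
      have e : u ((TQ.j (iZ i.1))⁻¹ * 1) = u 1 := by
        simpa using h1 1 _ (inv_mem i.1.2)
      rw [zq, AddMonoidHom.mk'_apply, hf.one, Pi.sub_apply, Pi.sub_apply, Tw.lt, e,
        rw_apply] at this
      rw [← act]
      refine this.trans ?_
      simp [sub_mul, Matrix.one_apply]
  have ew : ((2 * m + 2 : ℕ) : ℤ) = ((2 * m : ℕ) : ℤ) + 2 := rfl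
  refine DFunLike.coe_injective (inj Γ (w := 2 * m) E.holo' (ew ▸ fun δ => E.bdd_at_cusps'
    (c := (δ : GL (Fin 2) ℝ) • OnePoint.infty) (by
      rw [Subgroup.IsArithmetic.isCusp_iff_isCusp_SL2Z]
      exact isCusp_SL2Z_iff'.2 ⟨δ, rfl⟩) _ rfl) (fun g hg => ?_) v fun g hg => funext fun k => ?_)
  · rw [← ew, ← sl_iZ]
    exact hf.sl hg
  · have e := cx_rr (m := m) (iZ g)
    rw [rr_det, show (iZ g).1.val.det = 1 from congrArg Units.val (det_iZ g), rr, r_iZ] at e
    simp only [Rat.cast_one, Complex.ofReal_one, inv_one, one_pow, one_smul] at e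
    refine (hv (⟨g, hg⟩, k)).trans ?_
    change _ = ∑ j, sy (2 * m) (cx (SpecialLinearGroup.mapGL ℝ g)) k j * v j - v k
    simp [e, sub_mul, Matrix.one_apply, apply_ite (Rat.cast : ℚ → ℂ)]

end Vale.Agent.P004M.Wt
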