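import Vale.Agent.P004M.WtL
import Vale.Agent.P004M.WtE
import Vale.Agent.P004M.Wrap0

/-!
# P004M, row wt2: the system occurs in the parabolic cohomology of the tower
-/

set_option autoImplicit false

noncomputable section

namespace Vale.Agent.P004M.Wt

open Vale.Agent.P022 Vale.Agent.P022K.Sh Vale.Agent.P022K.QT Vale.Agent.P022K.QT.Cl

variable {N : ℕ} [NeZero N] {a : ℕ → ℤ}

theorem cancel {t x : ℤ} {j v : ℕ} (h : ¬ 2 ^ v ∣ t) (h' : 2 ^ (j + v) ∣ t * x) : 2 ^ j ∣ x := by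
  obtain ⟨s, o, ho, rfl⟩ := WfDvdMonoid.max_power_factor (a₀ := t) (by rintro rfl; simp at h)
    Int.prime_two.irreducible
  have hs : s ≤ v := not_lt.1 fun k => h ((pow_dvd_pow _ k.le).mul_right _)
  refine Int.prime_two.pow_dvd_of_dvd_mul_left j ho ((mul_dvd_mul_iff_left
    (pow_ne_zero s two_ne_zero)).1 ?_)
  rw [← pow_add, ← mul_assoc]
  exact (pow_dvd_pow _ (by omega)).trans h'

theorem wt2z (h6 : A6 N a) (he : EIS N a) (j : ℕ) : ∃ n₀ i, ∀ n, n₀ ≤ n → ∀ P, Kz n (2 ^ i) P →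
    (2 : ℤ) ^ j ∣ FreeAlgebra.lift ℤ (fun l : PA N => a l.1) P := by
  obtain ⟨v, hv⟩ := he
  obtain ⟨B, hB⟩ := h6 (j + v + v)
  obtain ⟨i, hi⟩ := lat (FreeAlgebra.lift ℤ fun l : PA N => a l.1).toLinearMap.toAddMonoidHom _ B
    fun Q h => hB Q fun m hm => esi m Q (h m hm)
  refine ⟨i + 2, i, fun n hn P hP => ?_⟩
  obtain ⟨M, hM, hy⟩ := ex_lev (lev (N := N) n) 1
  obtain ⟨l, h1, h2⟩ := hv M hM.ne'
  have := hi _ fun m _ => sm_of (by omega) (by omega) hM (by simpa using hy)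
    ((Nat.modEq_iff_dvd' l.2.1.one_le).1 h1.symm) hP m
  have e : FreeAlgebra.lift ℤ (fun l : PA N => a l.1) (tE l) = a l.1 - l.1 - 1 := by
    simp [tE, sub_sub]
  change _ ∣ FreeAlgebra.lift ℤ (fun l : PA N => a l.1) _ at this
  rw [map_mul, map_mul, e, mul_comm] at this
  exact cancel h2 (cancel h2 this)

/-- **WT2** -/
theorem wt2 (h6 : A6 N a) (he : EIS N a) (j : ℕ) : ∃ n i, 2 ≤ n ∧ ∀ P : FreeAlgebra ℤ (PA N),
    (∀ b : TQ.Hn (2 ^ i) (UU N (2 ^ n)), (∃ z ∈ TQ.Z1 (Representation.trivial ℤ G0 ℤ) (UU N (2 ^ n)),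
      Par (UU N (2 ^ n)) z ∧ ∃ z', Submodule.Quotient.mk z' = b ∧
        ∀ γ x, z'.1 γ x = (z γ x : ZMod (2 ^ i))) →
      FreeAlgebra.lift ℤ (fun l : PA N => (TQ.hH (Representation.trivial _ _ _) (cor l n) :
        Module.End (ZMod (2 ^ i)) (TQ.Hn (2 ^ i) (UU N (2 ^ n))))) P b = 0) →
    (2 : ℤ) ^ j ∣ FreeAlgebra.lift ℤ (fun l : PA N => a l.1) P := by
  obtain ⟨n, i, h⟩ := wt2z h6 he j
  refine ⟨n + 2, i, by omega, fun P hP => h (n + 2) (by omega) P fun z hz hp => ?_⟩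
  let y : TQ.Z1 (Representation.trivial (ZMod (2 ^ i)) G0 (ZMod (2 ^ i))) (UU N (2 ^ (n + 2))) :=
    ⟨fun γ x => z γ x, fun γ x u hu => by simp only [hz.1 γ x u hu],
      fun γ δ => funext fun x => by simp [Tw.coc_pt hz, Tw.lt],
      fun γ h => funext fun x => by simp [hz.2.2 γ h]⟩
  exact (mk0 _).1 ((op_mk _ P y).symm.trans (hP _ ⟨z, hz, hp, y, rfl, fun _ _ => rfl⟩))

end Vale.Agent.P004M.Wt
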