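import Vale.Agent.P004M.Wt0

/-!
# P004M, row wt2: from parabolic classes to all classes, with descent of the level
-/

set_option autoImplicit false

open scoped MatrixGroups

noncomputable section

namespace Vale.Agent.P004M.Wt

open Vale.Agent.P022 Vale.Agent.P022K.Sh Vale.Agent.P022K.QT Vale.Agent.P022K.QT.Cl

variable {N M : ℕ} {B : Type} [AddCommGroup B] {U : Subgroup G}

/-- `T_l` is Eisenstein on locally constant functions -/
theorem h0 (hU : U ∈ TQ.Lev) (l : Pr) (hl : (lc l).At (Kl l) U) (hM : 0 < M)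
    (hy : ∀ k ∈ KN M, k ∈ U) (h1 : M ∣ l.1 - 1) {h : G → B} (hi : Inv U h)
    (hg : ∀ γ x, h (TQ.j γ * x) = h x) : Tf B l h = (l.1 + 1) • h := by
  have := Fintype.ofFinite (IsLocalRing.ResidueField ℤ_[l])
  have h1' : (M : ℤ) ∣ (l : ℕ) - 1 := by
    have := Int.natCast_dvd_natCast.2 h1
    rwa [Nat.cast_sub l.2.one_le] at this
  choose j hj hj' using fun a : IsLocalRing.ResidueField ℤ_[l] => ex_res l a.out
  suffices k : ∀ x ∈ KN 1, Tf B l h x = (l.1 + 1) • h x by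
    funext x
    obtain ⟨γ, hγ⟩ := gen x
    rw [← mul_inv_cancel_left (TQ.j γ) x, Pi.smul_apply, hg, ← k _ hγ]
    simp only [Tf_apply, mul_assoc, hg]
  intro x hx
  have key : ∀ (γ : G0) (A : Matrix (Fin 2) (Fin 2) ℤ), (∀ i k, γ.1.val i k = A i k) →
      A.det = l → (∀ i k, (M : ℤ) ∣ (A - 1) i k) → h (io l (jl l γ.1) * x) = h x :=
    fun γ A e hd hA => by
    rw [← hi _ _ (hy _ (conj_KN hx hM (away_KN l A e hd hA))), ← hg γ x]
    congr 1
    group
  rw [Tf_hk hU hl hi, hl.hk_left hU (Subgroup.mem_sup_left (mem_K1.1 hx l))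
    (a := fun i => i.elim (jl l (bq 1 0 (l : ℕ) (by simpa using l.2.pos)).1)
    fun a => jl l (bq (l : ℕ) (j a) 1 (by simpa using l.2.pos)).1) (fun i => by
      cases i
      exacts [tr_none l _, tr_some l _ (hj' _) _]) hi, Finset.sum_congr rfl (g := fun _ => h x),
    Finset.sum_const, Tw.Lc.card_opt, qq_eq]
  rintro (_ | a) _
  · refine key _ !![1, 0; 0, (l : ℕ)] (fun i k => ?_) (by simp [Matrix.det_fin_two]) fun i k => ?_
    · fin_cases i <;> fin_cases k <;> simp [bq_val]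
    · fin_cases i <;> fin_cases k <;> simp [h1']
  · refine key _ !![(l : ℕ), j a; 0, 1] (fun i k => ?_) (by simp [Matrix.det_fin_two])
      fun i k => ?_
    · fin_cases i <;> fin_cases k <;> simp [bq_val]
    · fin_cases i <;> fin_cases k <;> simp [h1', h1'.trans (hj a)]

/-- `T_l - l - 1` -/
def tE (l : PA N) : FreeAlgebra ℤ (PA N) := FreeAlgebra.ι ℤ l - (l.1 + 1 : ℕ)

theorem op_tE (l : PA N) (f : G → B) : op N B (tE l) f = Tf B (pl l) f - (l.1 + 1) • f := by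
  rw [tE, map_sub, op_ι, map_natCast, LinearMap.sub_apply, Module.End.natCast_apply]

variable [NeZero N] {n : ℕ} {l : PA N}

theorem par (hM : 0 < M) (hy : ∀ k ∈ KN M, k ∈ UU N (2 ^ n)) (h1 : M ∣ l.1 - 1) {z : G0 → G → ℤ}
    (hz : z ∈ TQ.Z1 (Representation.trivial ℤ G0 ℤ) (UU N (2 ^ n))) :
    Par (UU N (2 ^ n)) fun γ => op N ℤ (tE l) (z γ) := fun x γ hγ hp => by
  have a := op_Z1 (FreeAlgebra.ι ℤ l) hz
  have := bd_red (lev n) 1 a (Submodule.smul_mem _ ((l.1 + 1 : ℕ) : ℤ) hz) (fun t x hx ht => by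
    have k1 := Tw.coc_pow a ht l
    have k2 := bd_hk (lev n) (pl l) (atl l n) hM (y := 1) (by simpa using hy) h1 (by simp) hz hx ht
    rw [nq_pow, op_ι, Tf_hk (lev n) (atl l n) (hz.1 _)] at k1
    rw [op_ι]
    refine mul_left_cancel₀ (Nat.cast_ne_zero.2 l.2.1.ne_zero : (l.1 : ℤ) ≠ 0) ?_
    rw [← nsmul_eq_mul, ← k1, k2]
    simp only [Pi.smul_apply, smul_eq_mul, nsmul_eq_mul]
    push_cast
    ring) hγ hp
  beta_reduce
  rw [op_tE, Pi.sub_apply, ← op_ι, this]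
  simp

theorem UU_conj (hM : 0 < M) {w v : G} (hw : w ∈ UU N 1) (hv : v ∈ UU N M) :
    w⁻¹ * v * w ∈ UU N M :=
  mem_UU.2 ⟨mem_cj.1 ((conj_UN (mem_UU.1 hw).1 hM).ge (mem_UU.1 hv).1),
    (mem_UU.1 (mul_mem (mul_mem (inv_mem hw) (UU_le hM hv)) hw)).2⟩

omit [NeZero N] in
theorem ne2 (l : PA N) : q2 ≠ pl l := fun e =>
  l.2.2 ((congrArg Subtype.val e : 2 = l.1) ▸ dvd_mul_right 2 N)

/-- the word kills the reductions of integral parabolic cocycles -/
def Kz (n q : ℕ) (P : FreeAlgebra ℤ (PA N)) : Prop :=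
  ∀ z ∈ TQ.Z1 (Representation.trivial ℤ G0 ℤ) (UU N (2 ^ n)), Par (UU N (2 ^ n)) z →
    (fun γ => op N (ZMod q) P fun x => (z γ x : ZMod q)) ∈
      TQ.B1 (Representation.trivial (ZMod q) G0 (ZMod q)) (UU N (2 ^ n))

theorem core (hn : 2 ≤ n) (hM : 0 < M) (hy : ∀ k ∈ KN M, k ∈ UU N (2 ^ n)) (h1 : M ∣ l.1 - 1)
    {q : ℕ} {P : FreeAlgebra ℤ (PA N)} (hP : Kz n q P) {ι : Type} {y : G0 → G → ι → ZMod q}
    (hz : ∀ k, (fun γ x => y γ x k) ∈
      TQ.Z1 (Representation.trivial (ZMod q) G0 (ZMod q)) (UU N (2 ^ n))) :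
    ∃ g : G → ι → ZMod q, Inv (UU N (2 ^ n)) g ∧
      (∀ γ x, op N (ι → ZMod q) (tE l * P * tE l) (y γ) x = g ((TQ.j γ)⁻¹ * x) - g x) ∧
      ∀ (u : Gl q2) (A : (ι → ZMod q) →+ ι → ZMod q), io q2 u ∈ UU N 1 →
        (∀ γ x, y γ (x * io q2 u) = A (y γ x)) → ∀ x, g (x * io q2 u) = A (g x) := by
  have nt : TQ.Neat (UU N (2 ^ n)) := fun x γ hγ => neq (N := 2 ^ n)
    ((by norm_num : 3 ≤ 2 ^ 2).trans (Nat.pow_le_pow_right two_pos hn)) x γ
    (TQ.mem_Gam.2 (mem_UU.1 (TQ.mem_Gam.1 hγ)).1)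
  have : ∀ k, ∃ f : G → ZMod q, Inv (UU N (2 ^ n)) f ∧ ∀ γ x,
      op N (ι → ZMod q) (P * tE l) (y γ) x k = f ((TQ.j γ)⁻¹ * x) - f x := fun k => by
    obtain ⟨z, a, b⟩ := mnq.lif (ρ' := Representation.trivial ℤ G0 ℤ) okq (lev n) nt
      (fun _ _ => rfl) (Int.castAddHom (ZMod q)) ZMod.intCast_surjective (fun _ _ => rfl) (hz k)
    obtain ⟨f, c, d⟩ := hP _ (op_Z1 (tE l) a) (par hM hy h1 a)
    refine ⟨f, c, fun γ x => Eq.trans ?_ (congrFun (d γ) x)⟩
    have e1 := op_nat id (fun _ => Int.castAddHom (ZMod q)) (fun _ _ _ => ⟨rfl, rfl⟩) (tE l) (z γ)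
    have e2 := op_nat id (fun _ => Pi.evalAddMonoidHom (fun _ => ZMod q) k)
      (fun _ _ _ => ⟨rfl, rfl⟩) (P * tE l) (y γ)
    refine (congrFun e2 x).symm.trans ?_
    rw [map_mul, Module.End.mul_apply]
    exact congrFun (congrArg _ ((congrArg _ (funext (b γ))).trans e1)) x
  choose f a b using this
  obtain ⟨F, a, b⟩ : ∃ F : G → ι → ZMod q, Inv (UU N (2 ^ n)) F ∧ ∀ γ x,
      op N (ι → ZMod q) (P * tE l) (y γ) x = F ((TQ.j γ)⁻¹ * x) - F x :=
    ⟨fun x k => f k x, fun x u hu => funext fun k => a k x u hu, fun γ x => funext fun k => b k γ x⟩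
  refine ⟨op N (ι → ZMod q) (tE l) F, op_inv n _ _ a, fun γ x => ?_, fun u A hu h x => ?_⟩
  · rw [mul_assoc, map_mul, Module.End.mul_apply, show op N (ι → ZMod q) (P * tE l) (y γ) =
      TQ.lt (Representation.trivial ℤ G0 _) γ F - F from funext (b γ), map_sub, op_lt]
    rfl
  · have c : ∀ x (l : PA N) g, x * io (pl l) g * io q2 u = x * io q2 u * io (pl l) g :=
      fun x l g => by
      rw [mul_assoc, mul_assoc, (io_com _ g _ (ev_io_ne (ne2 l).symm u)).eq]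
    have e1 := op_nat (N := N) (· * io q2 u) (fun _ => AddMonoidHom.id (ι → ZMod q))
      fun x l g => ⟨c x l g, rfl⟩
    have e2 := op_nat (N := N) id (fun _ => A) fun x l g => ⟨rfl, rfl⟩
    have e3 := h0 (lev n) (pl l) (atl l n) hM hy h1
      (h := (fun x => F (x * io q2 u)) - fun x => A (F x)) (fun x v hv => by
        have := a (x * io q2 u) _ (UU_conj (pow_pos two_pos n) hu hv)
        simp only [mul_assoc, mul_inv_cancel_left] at this
        simp only [Pi.sub_apply, mul_assoc, this, a x v hv]) fun γ x => by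
        have k1 := congrFun ((e1 (P * tE l) (y γ)).symm.trans ((congrArg _ (funext (h γ))).trans
          (e2 (P * tE l) (y γ)))) (TQ.j γ * x)
        simp only [AddMonoidHom.id_apply, id, b, mul_assoc, inv_mul_cancel_left, map_sub] at k1
        simp only [Pi.sub_apply, mul_assoc]
        rw [sub_eq_sub_iff_sub_eq_sub, ← neg_inj, neg_sub, neg_sub]
        exact k1
    have e4 := congrFun (op_tE l ((fun x => F (x * io q2 u)) - fun x => A (F x))) x
    rw [e3, sub_self, map_sub, Pi.sub_apply, Pi.zero_apply, sub_eq_zero] at e4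
    exact (congrFun (e1 _ F) x).symm.trans (e4.trans (congrFun (e2 _ F) x))

end Vale.Agent.P004M.Wt
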