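import Vale.Agent.P004M.Wt2

/-!
# P004M, row wt2: the lattice step
-/

set_option autoImplicit false

open scoped MatrixGroups

noncomputable section

namespace Vale.Agent.P004M.Wt

open Vale.Agent.P022 Vale.Agent.P022K.Sh Vale.Agent.P022K.QT Vale.Agent.P022K.QT.Cl Matrix Filter

section

variable {A ι : Type} [Fintype ι]

theorem ex_bd (c : ι → ℚ_[2]) : ∃ e : ℕ, ∀ s, ‖c s‖ ≤ 2 ^ (e : ℤ) := by
  obtain ⟨e, he⟩ := pow_unbounded_of_one_lt (∑ s, ‖c s‖) (one_lt_two (α := ℝ))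
  exact ⟨e, fun s => (Finset.single_le_sum (f := fun s => ‖c s‖) (fun _ _ => norm_nonneg _)
    (Finset.mem_univ s)).trans (by exact_mod_cast he.le)⟩

theorem lin_bd (ψ : (ι → ℚ) →ₗ[ℚ] ℚ) : ∃ e : ℕ, ∀ (j : ℤ) (x : ι → ℚ),
    (∀ s, ‖(x s : ℚ_[2])‖ ≤ 2 ^ j) → ‖(ψ x : ℚ_[2])‖ ≤ 2 ^ (j + e) := by
  classical
  obtain ⟨e, he⟩ := ex_bd fun s => (ψ (fun k => if s = k then 1 else 0) : ℚ_[2])
  refine ⟨e, fun j x hx => ?_⟩
  rw [LinearMap.pi_apply_eq_sum_univ, Rat.cast_sum]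
  refine IsUltrametricDist.norm_sum_le_of_forall_le_of_nonneg (by positivity) fun s _ => ?_
  rw [smul_eq_mul, Rat.cast_mul, norm_mul, zpow_add₀ two_ne_zero]
  exact mul_le_mul (hx s) (he s) (norm_nonneg _) (by positivity)

theorem lq [AddCommGroup A] (Ψ : A →+ ι → ℚ) (lam : A →+ ℤ) (j : ℕ)
    (h : ∀ a, Ψ a = 0 → 2 ^ j ∣ lam a) :
    ∃ i : ℕ, ∀ a, (∀ s, ‖(Ψ a s : ℚ_[2])‖ ≤ 2 ^ (-i : ℤ)) → 2 ^ j ∣ lam a := by
  obtain ⟨b, h1, h2, h3⟩ := exists_linearIndependent ℚ (Set.range Ψ)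
  have := h3.finite
  let _ := Fintype.ofFinite b
  obtain ⟨r, hr⟩ := (Finsupp.linearCombination ℚ ((↑) : b → ι → ℚ)).exists_leftInverse_of_injective
    (LinearMap.ker_eq_bot.2 h3)
  choose e he using fun k : b => lin_bd (Finsupp.lapply k ∘ₗ r)
  choose u hu using fun k : b => h1 k.2
  refine ⟨j + Finset.univ.sup e, fun a ha => ?_⟩
  obtain ⟨c, hc⟩ : Ψ a ∈ LinearMap.range (Finsupp.linearCombination ℚ ((↑) : b → ι → ℚ)) := by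
    rw [Finsupp.range_linearCombination, Subtype.range_coe, h2]
    exact Submodule.subset_span ⟨a, rfl⟩
  have k1 : ∀ k, ‖(c k : ℚ_[2])‖ ≤ 2 ^ (-j : ℤ) := fun k => by
    have := he k _ _ ha
    rw [← hc, LinearMap.comp_apply, ← LinearMap.comp_apply r, hr] at this
    refine this.trans (zpow_le_zpow_right₀ one_le_two ?_)
    have : e k ≤ Finset.univ.sup e := Finset.le_sup (Finset.mem_univ k)
    omega
  have k2 : ∀ k, IsCoprime ((2 : ℤ) ^ j) (c k).den := fun k => by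
    have := PadicInt.isUnit_iff.1 (PadicInt.isUnit_den _ ((k1 k).trans
      (zpow_le_one_of_nonpos₀ one_le_two (by omega))))
    exact IsCoprime.pow_left (Nat.isCoprime_iff_coprime.2 (PadicInt.norm_natCast_eq_one_iff.1 this))
  have k3 : ∀ k, ∃ n : ℤ, (2 : ℤ) ^ j ∣ n ∧ (n : ℚ) = (∏ k, ((c k).den : ℤ) : ℤ) * c k := fun k => by
    obtain ⟨d, hd⟩ := Finset.dvd_prod_of_mem (fun k => ((c k).den : ℤ)) (Finset.mem_univ k)
    refine ⟨(c k).num * d, Dvd.dvd.mul_right ((Padic.norm_int_le_pow_iff_dvd (p := 2) _ _).1 ?_) _,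
      by rw [hd, Int.cast_mul, ← Rat.mul_den_eq_num]; push_cast; ring⟩
    rw [← Rat.cast_intCast, ← Rat.mul_den_eq_num, Rat.cast_mul, norm_mul, Rat.cast_natCast]
    exact (mul_le_of_le_one_right (norm_nonneg _) (IsUltrametricDist.norm_natCast_le_one _ _)).trans
      (by exact_mod_cast k1 k)
  choose n n1 n2 using k3
  have k4 := h ((∏ k, ((c k).den : ℤ)) • a - ∑ k, n k • u k) (by
    rw [map_sub, map_zsmul, map_sum, ← hc, Finsupp.linearCombination_apply,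
      Finsupp.sum_fintype _ _ (by simp), sub_eq_zero, Finset.smul_sum]
    exact Finset.sum_congr rfl fun k _ => by
      rw [map_zsmul, hu, ← Int.cast_smul_eq_zsmul ℚ (n k), n2, mul_smul, Int.cast_smul_eq_zsmul])
  rw [map_sub, map_zsmul, map_sum, dvd_sub_left (Finset.dvd_sum fun k _ => by
    rw [map_zsmul]; exact (n1 k).mul_right _)] at k4
  exact (IsCoprime.prod_right fun k _ => k2 k).dvd_of_dvd_mul_left k4

end

variable {N m : ℕ} [NeZero N] {z : G0 → G → Vw ℚ Unit m}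

theorem mem_G {γ : G0} : γ ∈ TQ.Gam (UU N (2 ^ 0)) 1 ↔ TQ.j γ ∈ UU N 1 := by
  simp [Tw.mem_Gam]

theorem ind (hz : z ∈ TQ.Z1 (rw ℚ m) (UU N (2 ^ 0))) {S : Finset G0}
    (hS : TQ.Gam (UU N (2 ^ 0)) 1 = Subgroup.closure S ⊔ TQ.Z0) (W : AddSubgroup (Vw ℚ Unit m))
    (hW : ∀ γ, TQ.j γ ∈ UU N 1 → ∀ v ∈ W, rw ℚ m γ v ∈ W) (h : ∀ s ∈ S, z s 1 ∈ W) {γ : G0}
    (hγ : TQ.j γ ∈ UU N 1) : z γ 1 ∈ W := by
  have k : ∀ γ δ, TQ.j γ ∈ UU N 1 → z (γ * δ) 1 = z γ 1 + rw ℚ m γ (z δ 1) := fun γ δ hγ => by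
    rw [Tw.coc_pt hz, mul_one, ← hz.1 δ 1 _ (inv_mem hγ), one_mul]
  have k0 : ∀ ζ ∈ TQ.Z0, z ζ 1 ∈ W := fun ζ h => hz.2.2 ζ h ▸ zero_mem W
  let H : Subgroup G0 :=
    { carrier := {γ | TQ.j γ ∈ UU N 1 ∧ z γ 1 ∈ W}
      mul_mem' := fun a b => ⟨map_mul TQ.j _ _ ▸ mul_mem a.1 b.1,
        k _ _ a.1 ▸ add_mem a.2 (hW _ a.1 _ b.2)⟩
      one_mem' := ⟨map_one TQ.j ▸ one_mem _, k0 1 (one_mem _)⟩
      inv_mem' := fun {γ} a => by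
        have b : TQ.j γ⁻¹ ∈ UU N 1 := map_inv TQ.j γ ▸ inv_mem a.1
        refine ⟨b, (W.add_mem_cancel_right (hW _ b _ a.2)).1 ?_⟩
        rw [← k _ _ b, inv_mul_cancel]
        exact k0 1 (one_mem _) }
  have : Subgroup.closure S ⊔ TQ.Z0 ≤ H := sup_le ((Subgroup.closure_le H).2 fun s hs =>
    ⟨mem_G.1 (hS.ge (Subgroup.mem_sup_left (Subgroup.subset_closure hs))), h s hs⟩)
    fun ζ hζ => ⟨mem_G.1 (hS.ge (Subgroup.mem_sup_right hζ)), k0 ζ hζ⟩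
  exact (this (hS.le (mem_G.2 hγ))).2

theorem kp_inv : Inv (UU N 1) (kp N) := fun x u hu => congrArg Classical.epsilon
  (funext fun γ => propext (by rw [← mul_assoc, Subgroup.mul_mem_cancel_right _ hu]))

theorem sct : TQ.Sct (UU N 1) 1 (kp N) :=
  ⟨fun x u hu => kp_inv x u (by simpa using mem_cj.1 hu), fun x => by simpa using kp_mem x⟩

theorem ext_Z1 (hz : z ∈ TQ.Z1 (rw ℚ m) (UU N (2 ^ 0))) :
    TQ.ext (rw ℚ m) (kp N) z ∈ TQ.Z1 (rw ℚ m) (UU N (2 ^ 0)) :=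
  sct.ext_mem okq (lev 0) (fun u hu => mem_cj.2 (by simpa using hu)) hz.1
    (fun γ γ' x _ _ => Tw.coc_pt hz γ γ' x) hz.2.2

theorem ext_B1 (hz : z ∈ TQ.Z1 (rw ℚ m) (UU N (2 ^ 0))) :
    TQ.ext (rw ℚ m) (kp N) z - z ∈ TQ.B1 (rw ℚ m) (UU N (2 ^ 0)) :=
  ⟨fun x => z (kp N x) x, fun x u hu => by simp only [kp_inv x u hu, hz.1 _ x u hu], fun γ => by
    rw [Pi.sub_apply, Tw.ext_coc _ hz, add_sub_cancel_left]⟩

theorem ext_eq (hz : z ∈ TQ.Z1 (rw ℚ m) (UU N (2 ^ 0))) (γ : G0) (x : G) :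
    ∃ δ, TQ.j δ ∈ UU N 1 ∧ TQ.ext (rw ℚ m) (kp N) z γ x = rw ℚ m (kp N x) (z δ 1) :=
  ⟨_, sct.mem' γ x, by rw [Tw.ext, ← hz.1 _ 1 _ (kp_mem x), one_mul]⟩

theorem tw_bd {u : G} (hu : u ∈ UU N 1) {v : Vw ℚ Unit m} {C : ℝ} (hC : 0 ≤ C)
    (h : ∀ k, ‖(v k : ℚ_[2])‖ ≤ C) (k : Fin (2 * m + 1)) : ‖tw m u v k‖ ≤ C := by
  obtain ⟨σ, e, -⟩ := syd_int (m := m) (inv_mem (U1_of hu q2))
  rw [tw, ← e, mulVec, dotProduct]
  refine IsUltrametricDist.norm_sum_le_of_forall_le_of_nonneg hC fun s _ => ?_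
  exact (norm_mul _ _).le.trans ((mul_le_of_le_one_left (norm_nonneg _) (σ k s).2).trans (h _))

theorem ex_itg (hz : z ∈ TQ.Z1 (rw ℚ m) (UU N (2 ^ 0))) :
    ∃ e : ℕ, Itg m ((2 : ℚ) ^ e • TQ.ext (rw ℚ m) (kp N) z) := by
  obtain ⟨S, hS⟩ := okq.fg _ (lev (N := N) 0) 1
  obtain ⟨e, he⟩ := ex_bd fun s : S × (Unit → Fin (2 * m + 1)) => (z s.1 1 s.2 : ℚ_[2])
  have p : (0 : ℝ) ≤ 2 ^ (e : ℤ) := by positivity
  let W : AddSubgroup (Vw ℚ Unit m) :=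
    { carrier := {v | ∀ k, ‖(v k : ℚ_[2])‖ ≤ 2 ^ (e : ℤ)}
      add_mem' := fun a b k => by
        rw [Pi.add_apply, Rat.cast_add]
        exact (IsUltrametricDist.norm_add_le_max _ _).trans (max_le (a k) (b k))
      zero_mem' := fun k => by simp
      neg_mem' := fun a k => by simpa using a k }
  refine ⟨e, fun γ x k => ?_⟩
  obtain ⟨δ, a, b⟩ := ext_eq hz γ x
  have c := ind hz hS W (fun γ hγ v hv k => by
    have := tw_bd (inv_mem hγ) p hv (k ())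
    rwa [← mul_one (TQ.j γ)⁻¹, ← tw_rw, tw_one] at this) (fun s hs k => he (⟨s, hs⟩, k)) a
  rw [Pi.smul_apply, Pi.smul_apply, b, ← map_smul, tw_rw]
  refine tw_bd (kp_mem x) zero_le_one (fun k => ?_) k
  rw [Pi.smul_apply, smul_eq_mul, Rat.cast_mul, norm_mul, Rat.cast_pow, norm_pow,
    show ‖((2 : ℚ) : ℚ_[2])‖ = 2⁻¹ by simpa using Padic.norm_p (p := 2), inv_pow,
    inv_mul_le_one₀ (by positivity)]
  exact_mod_cast c k

theorem ex_rep (a : TQ.H1 (rw ℚ m) (UU N (2 ^ 0))) : ∃ z : TQ.Z1 (rw ℚ m) (UU N (2 ^ 0)),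
    Itg m z.1 ∧ ∃ c : ℚ, c ≠ 0 ∧ Submodule.Quotient.mk z = c • a := by
  obtain ⟨z, rfl⟩ := Submodule.Quotient.mk_surjective _ a
  obtain ⟨e, he⟩ := ex_itg z.2
  refine ⟨⟨_, Submodule.smul_mem _ ((2 : ℚ) ^ e) (ext_Z1 z.2)⟩, he, 2 ^ e, by positivity, ?_⟩
  rw [← Submodule.Quotient.mk_smul, Submodule.Quotient.eq]
  have := Submodule.smul_mem _ ((2 : ℚ) ^ e) (ext_B1 z.2)
  rw [smul_sub] at this
  exact this

theorem mk0 {Λ B : Type} [CommRing Λ] [AddCommGroup B] [Module Λ B] {ρ : Representation Λ G0 B}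
    {U : Subgroup G} (z : TQ.Z1 ρ U) :
    (Submodule.Quotient.mk z : TQ.H1 ρ U) = 0 ↔ z.1 ∈ TQ.B1 ρ U := Submodule.Quotient.mk_eq_zero _

theorem fac (φ : Module.Dual ℚ (TQ.H1 (rw ℚ m) (UU N (2 ^ 0)))) : ∃ e : ℕ,
    ∀ (j : ℤ) (z : TQ.Z1 (rw ℚ m) (UU N (2 ^ 0))) (v : Vw ℚ Unit m),
      (∀ γ ∈ TQ.Gam (UU N (2 ^ 0)) 1, ∀ k, ‖((z.1 γ 1 k - (rw ℚ m γ v k - v k) : ℚ) : ℚ_[2])‖ ≤
        2 ^ j) → ‖(φ (Submodule.Quotient.mk z) : ℚ_[2])‖ ≤ 2 ^ (j + e) := by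
  obtain ⟨S, hS⟩ := okq.fg _ (lev (N := N) 0) 1
  let ev : TQ.Z1 (rw ℚ m) (UU N (2 ^ 0)) →ₗ[ℚ] S × (Unit → Fin (2 * m + 1)) → ℚ :=
    { toFun := fun z s => z.1 s.1 1 s.2
      map_add' := fun _ _ => rfl
      map_smul' := fun _ _ => rfl }
  obtain ⟨ψ, hψ⟩ : φ ∘ₗ Submodule.mkQ _ ∈ LinearMap.range ev.dualMap := by
    rw [LinearMap.range_dualMap_eq_dualAnnihilator_ker, Submodule.mem_dualAnnihilator]
    intro z hz
    have e : TQ.ext (rw ℚ m) (kp N) z.1 = 0 := funext fun γ => funext fun x => by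
      obtain ⟨δ, a, b⟩ := ext_eq z.2 γ x
      rw [b, AddSubgroup.mem_bot.1 (ind z.2 hS ⊥ (by simp) (fun s hs => funext fun k =>
        congrFun hz (⟨s, hs⟩, k)) a), map_zero]
      rfl
    have := ext_B1 z.2
    rw [e, zero_sub, neg_mem_iff] at this
    rw [LinearMap.comp_apply, Submodule.mkQ_apply, (mk0 z).2 this, map_zero]
  obtain ⟨e, he⟩ := lin_bd ψ
  refine ⟨e, fun j z v hv => ?_⟩
  let y : TQ.Z1 (rw ℚ m) (UU N (2 ^ 0)) := ⟨fun γ _ => rw ℚ m γ v - v, fun _ _ _ _ => rfl,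
    fun γ δ => funext fun x => by simp [Tw.lt], fun γ hγ => funext fun x => funext fun k => by
      simp [rw_apply, syd_Z (mem_Z0.1 hγ), Matrix.one_apply]⟩
  have e1 := DFunLike.congr_fun hψ (z - y)
  rw [LinearMap.comp_apply, map_sub (Submodule.mkQ _), Submodule.mkQ_apply, Submodule.mkQ_apply,
    (mk0 y).2 ⟨fun _ => v, fun _ _ _ => rfl, fun _ => rfl⟩, sub_zero] at e1
  exact e1 ▸ he j _ fun t => hv _ (hS.ge (Subgroup.mem_sup_left (Subgroup.subset_closure t.1.2))) t.2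

theorem lat1 (N m : ℕ) [NeZero N] : ∃ (d e : ℕ) (Ψ : FreeAlgebra ℤ (PA N) →+ Fin d × Fin d → ℚ),
    (∀ Q, Ψ Q = 0 → Kil 0 (rw ℚ m) Q) ∧ ∀ i i' Q, i + e ≤ i' → Sm m i' Q →
      ∀ s, ‖(Ψ Q s : ℚ_[2])‖ ≤ 2 ^ (-i : ℤ) := by
  have := mnq.fin (ρ := rw ℚ m) okq (lev (N := N) 0)
  obtain ⟨d, ⟨b⟩⟩ : ∃ d, Nonempty (Module.Basis (Fin d) ℚ (TQ.H1 (rw ℚ m) (UU N (2 ^ 0)))) :=
    ⟨_, ⟨Module.finBasis ℚ _⟩⟩
  choose z z1 c c0 z2 using fun i => ex_rep (b i)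
  choose e he using fun k => fac (b.coord k)
  obtain ⟨w, hw⟩ : ∃ w : FreeAlgebra ℤ (PA N) →ₐ[ℤ] Module.End ℚ (TQ.H1 (rw ℚ m) (UU N (2 ^ 0))),
      ∀ Q z, w Q (Submodule.Quotient.mk z) = Submodule.Quotient.mk ⟨_, op_Z1 Q z.2⟩ :=
    ⟨_, op_mk 0⟩
  refine ⟨d, Finset.univ.sup e, AddMonoidHom.mk'
    (fun Q s => b.coord s.2 (w Q (Submodule.Quotient.mk (z s.1)))) fun P Q => funext fun s => by
      simp only [map_add, LinearMap.add_apply, Pi.add_apply], fun Q h y hy => ?_,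
    fun i i' Q hi h s => ?_⟩
  · have : w Q = 0 := b.ext fun i => by
      have := b.forall_coord_eq_zero_iff.1 fun k =>
        show b.coord k (w Q (Submodule.Quotient.mk (z i))) = 0 from congrFun h (i, k)
      rwa [z2, map_smul, smul_eq_zero_iff_right (c0 i)] at this
    exact (mk0 ⟨_, op_Z1 Q hy⟩).1 ((hw Q ⟨y, hy⟩).symm.trans (DFunLike.congr_fun this _))
  · refine (h _ (z s.1).2 (z1 s.1)).elim fun v hv => ?_
    have := he s.2 _ ⟨_, op_Z1 Q (z s.1).2⟩ v hv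
    rw [← hw] at this
    refine this.trans (zpow_le_zpow_right₀ one_le_two ?_)
    have : e s.2 ≤ Finset.univ.sup e := Finset.le_sup (Finset.mem_univ _)
    omega

/-- **the lattice step** -/
theorem lat (lam : FreeAlgebra ℤ (PA N) →+ ℤ) (j B : ℕ)
    (h : ∀ Q, (∀ m ≤ B, Kil 0 (rw ℚ m) Q) → 2 ^ j ∣ lam Q) :
    ∃ i, ∀ Q, (∀ m ≤ B, Sm m i Q) → 2 ^ j ∣ lam Q := by
  choose d e Ψ h1 h2 using fun m => lat1 N m
  obtain ⟨i, hi⟩ := lq (ι := Σ m : Fin (B + 1), Fin (d m) × Fin (d m))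
    (AddMonoidHom.mk' (fun Q s => Ψ s.1 Q s.2) fun P Q => funext fun s => by
      simp only [map_add, Pi.add_apply]) lam j fun Q hQ => h Q fun m hm =>
    h1 m Q (funext fun s => congrFun hQ ⟨⟨m, Nat.lt_succ_of_le hm⟩, s⟩)
  exact ⟨i + (Finset.range (B + 1)).sup e, fun Q hQ => hi Q fun s => h2 _ _ _ Q
    (Nat.add_le_add_left (Finset.le_sup (Finset.mem_range.2 s.1.2)) i)
    (hQ _ (Nat.lt_succ_iff.1 s.1.2)) _⟩

end Vale.Agent.P004M.Wt
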